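import Vale.Agent.P236L.Sp
import Vale.Agent.P236D.Spec

/-!
# P236, block BRG: the multipliers

`a = v_2 - c v_1 ^ 4` goes to `X 1` under the Hazewinkel law modulo `3`, and
`d (a ^ κ) = v_1 ^ (3 ^ e) μ` modulo `3` when `3 ^ e` divides `κ`.
-/

noncomputable section

set_option linter.unusedSectionVars false

namespace Vale.Agent.P236L

open Vale.Agent.P251 Vale.Agent.P251.F Vale.Agent.P251.I Vale.Agent.P257.H314
  Vale.Agent.P236A Vale.Agent.P236B Vale.Agent.P236D Vale.Agent.P236K MvPolynomial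

section Hz

variable (p : ℕ) [Fact p.Prime] {k k' : Type} [CommRing k] [CommRing k']

lemma hom_hzA_v {B : Type} [CommRing B] (φ : Av k →+* B) (h : ℕ) :
    φ (hzA p k (Laz.v p h)) = vv p h (hz p fun i => φ (X i)) := by
  rw [← RingHom.comp_apply, hzA, Laz.comp_lift, map_hz, Laz.map_v, Laz.univ_map_lift]

lemma map_hzA (φ : k →+* k') (a : Laz) : map φ (hzA p k a) = hzA p k' a := by
  rw [← RingHom.comp_apply, hzA, Laz.comp_lift, map_hz, hzA]
  simp only [map_X]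

lemma isWH_hzA_v (h : ℕ) :
    IsWeightedHomogeneous (wz p) (hzA p k (Laz.v p (h + 1))) (wz p h) := by
  apply isWH_of_scale
  rw [hom_hzA_v, hom_hzA_v]
  simp only [eval₂Hom_X', unit_wz]
  rw [hz_scale, vv_lin_inv_smul (Fact.out : p.Prime).ne_zero]

lemma hzA_v_sub_mem (h : ℕ) :
    hzA p (ZMod p) (Laz.v p (h + 1)) - X h ∈ Ideal.span (X '' {j | j < h}) := by
  have h1 := vv_hz_sub_mem p (X : ℕ → Av (ZMod p)) h
  have h2 := hom_hzA_v p (RingHom.id (Av (ZMod p))) (h + 1)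
  simp only [RingHom.id_apply] at h2
  rw [h2]
  refine Ideal.span_le.2 ?_ h1
  rintro x (rfl | ⟨j, hj, rfl⟩)
  · rw [CharP.cast_eq_zero]
    exact zero_mem _
  · exact Ideal.subset_span ⟨j, hj, (vH_X _ j).symm⟩

lemma hzA_v_one : hzA p (ZMod p) (Laz.v p 1) = X 0 := by
  have h := hzA_v_sub_mem p 0
  simpa [sub_eq_zero] using h

lemma exists_hzA_v_two : ∃ c : ℤ,
    hzA 3 (ZMod 3) (Laz.v 3 2) = X 1 + (c : Av (ZMod 3)) * X 0 ^ 4 := by
  classical
  have h1 := mem_ideal_span_X_image.1 (hzA_v_sub_mem 3 1)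
  have h2 : IsWeightedHomogeneous (wz 3) (hzA 3 (ZMod 3) (Laz.v 3 2) - X 1) (wz 3 1) :=
    (weightedHomogeneousSubmodule (ZMod 3) (wz 3) (wz 3 1)).sub_mem (isWH_hzA_v 3 1)
      (isWeightedHomogeneous_X _ _ _)
  generalize hr : hzA 3 (ZMod 3) (Laz.v 3 (1 + 1)) - X 1 = r at h1 h2
  obtain ⟨c, hc⟩ := ZMod.intCast_surjective (coeff (Finsupp.single 0 4) r)
  refine ⟨c, ?_⟩
  rw [← sub_eq_iff_eq_add', hr, X_pow_eq_monomial, ← map_intCast (C : ZMod 3 →+* _), C_mul_monomial,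
    mul_one, hc]
  ext J
  rw [coeff_monomial]
  split_ifs with hJ
  · rw [hJ]
  · by_contra h0
    obtain ⟨i, hi, h3⟩ := h1 J (mem_support_iff.2 h0)
    obtain rfl : i = 0 := by simpa using hi
    have h4 := h2 h0
    have h5 : J.erase 0 = 0 := by
      by_contra h6
      obtain ⟨j, hj⟩ := Finsupp.ne_iff.1 h6
      have h7 := Finsupp.le_weight_of_ne_zero (wz_nonneg 3) hj
      have h8 : j ≠ 0 := by
        rintro rfl
        exact hj Finsupp.erase_same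
      have h9 : (3 : ℤ) ^ 2 ≤ 3 ^ (j + 1) := pow_le_pow_right₀ (by norm_num) (by omega)
      rw [← Finsupp.single_add_erase 0 J, map_add, Finsupp.weight_single] at h4
      simp only [wz, nsmul_eq_mul] at h4 h7
      push_cast at h4 h7
      omega
    have h6 : J = Finsupp.single 0 (J 0) := by
      conv_lhs => rw [← Finsupp.single_add_erase 0 J, h5, add_zero]
    rw [h6, Finsupp.weight_single] at h4
    simp only [wz, nsmul_eq_mul] at h4
    push_cast at h4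
    exact hJ (by rw [h6, show J 0 = 4 by omega])

end Hz

section Cup

variable {N : Type} [CommRing N] [LawRing N] {m n : ℕ}

lemma map_C_of_zero (α : Fin (m + 1) → Fin (n + 1)) (h : α 0 = 0) (a : N) :
    Cob.map α (C a : Cob N m) = C a := by
  apply Cob.ext_ev
  intro B _ c
  rw [Cob.ev_map_res, Cob.ev_C, Cob.ev_C, Chain.res_pt, h, c.zero, LawRing.act_one]

lemma cupc_C_mul {a b c : ℕ} (h : a + b = c) (r : N) (x : Cob N a) (y : Cob N b) :
    cupc h (C r * x) y = C r * cupc h x y := by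
  rw [cupc, cupc, map_mul, map_C_of_zero _ rfl, mul_assoc]

lemma cupc_one {b : ℕ} (h : 0 + b = b) (y : Cob N b) : cupc h 1 y = y := by
  have e : backc h = id := by
    funext k
    ext
    exact Nat.zero_add _
  rw [cupc, map_one, one_mul, e, Cob.map_id]

lemma cupc_C {b : ℕ} (h : 0 + b = b) (r : N) (y : Cob N b) : cupc h (C r) y = C r * y := by
  have := cupc_C_mul h r 1 y
  rwa [mul_one, cupc_one] at this

end Cup

section Mu

variable {p h : ℕ} [Fact p.Prime]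

lemma v_mem_IC {i s : ℕ} (hi : i < h) : (C (Laz.v p i) : Cob Laz s) ∈ IC p h s :=
  Ideal.mem_map_of_mem _ (Ideal.subset_span ⟨i, hi, rfl⟩)

lemma p_mem_IC {s : ℕ} (hh : 0 < h) : (p : Cob Laz s) ∈ IC p h s := by
  have h1 := v_mem_IC (p := p) (s := s) hh
  rwa [Laz.map_v, vv_zero] at h1

lemma d_vpow_mul {s : ℕ} (j : ℕ) (b : Cob Laz s) :
    Cob.d s (C (Laz.v p h) ^ j * b) - C (Laz.v p h) ^ j * Cob.d s b ∈ IC p h (s + 1) := by
  induction j with
  | zero => simp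
  | succ j ih =>
    have h1 := add_mem (d_mul_v_sub_mem (p := p) (h := h) (C (Laz.v p h) ^ j * b))
      (Ideal.mul_mem_right (C (Laz.v p h)) _ ih)
    convert h1 using 1
    rw [pow_succ, mul_right_comm]
    ring

lemma mem_of_vpow_mul {s : ℕ} (j : ℕ) {b : Cob Laz s}
    (hb : C (Laz.v p h) ^ j * b ∈ IC p h s) : b ∈ IC p h s := by
  induction j with
  | zero => simpa using hb
  | succ j ih =>
    rw [pow_succ', mul_assoc] at hb
    exact ih (mem_map_C_I_of_v_mul p le_rfl hb)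

lemma d_zero_eq (x : Cob Laz 0) :
    Cob.d 0 x = Cob.map (fun _ => 1) x - Cob.map (fun _ => 0) x := by
  rw [Cob.d_apply, Fin.sum_univ_two, sub_eq_add_neg]
  congr 1
  · refine (one_smul _ _).trans (congrArg (Cob.map · x) ?_)
    funext k
    rw [Subsingleton.elim (α := Fin 1) k 0]
    rfl
  · refine (neg_one_smul _ _).trans (congrArg (fun α => -Cob.map α x) ?_)
    funext k
    rw [Subsingleton.elim (α := Fin 1) k 0]
    rfl

/-- Powers of an element which is invariant modulo `I_{h+1}`. -/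
theorem exists_mu (hh : 0 < h) {w : ℤ} {a : Laz} (ha : Cob.IsWt w (C a : Cob Laz 0))
    (hd : Cob.d 0 (C a) ∈ IC p (h + 1) 1) (e m : ℕ) :
    ∃ μ : Cob Laz 1, Cob.IsWt ((p ^ e * m : ℕ) * w - (p ^ e : ℕ) * ((p ^ h : ℤ) - 1)) μ ∧
      Cob.d 0 (C a ^ (p ^ e * m)) - C (Laz.v p h) ^ p ^ e * μ ∈ IC p h 1 := by
  obtain ⟨b, hb, hb'⟩ := exists_of_mem_succ ha.d hd
  have hA := ha.map (fun _ => (1 : Fin 2))
  have hB := ha.map (fun _ => (0 : Fin 2))
  simp only [d_zero_eq, map_pow] at hb' ⊢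
  generalize Cob.map (fun _ => (1 : Fin 2)) (C a : Cob Laz 0) = A at hA hb' ⊢
  generalize Cob.map (fun _ => (0 : Fin 2)) (C a : Cob Laz 0) = B at hB hb' ⊢
  have h1 : A ^ p ^ e - B ^ p ^ e - C (Laz.v p h) ^ p ^ e * b ^ p ^ e ∈ IC p h 1 := by
    obtain ⟨r, hr⟩ := exists_add_pow_prime_pow_eq (Fact.out : p.Prime) B (b * C (Laz.v p h)) e
    obtain ⟨q, hq⟩ := sub_dvd_pow_sub_pow A (B + b * C (Laz.v p h)) (p ^ e)
    have h2 := add_mem (Ideal.mul_mem_right q _ hb')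
      (Ideal.mul_mem_right (B * (b * C (Laz.v p h)) * r) _ (p_mem_IC (p := p) (s := 1) hh))
    convert h2 using 1
    rw [mul_pow] at hr
    linear_combination hq + hr
  induction m with
  | zero => exact ⟨0, Cob.isWt_zero _, by simp⟩
  | succ m ih =>
    obtain ⟨μ, hμ, ih⟩ := ih
    refine ⟨μ * A ^ p ^ e + B ^ (p ^ e * m) * b ^ p ^ e, Cob.IsWt.add ?_ ?_, ?_⟩
    · convert hμ.mul (hA.pow (p ^ e)) using 1
      push_cast
      ring
    · convert (hB.pow (p ^ e * m)).mul (hb.pow (p ^ e)) using 1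
      push_cast
      ring
    · convert add_mem (Ideal.mul_mem_right (A ^ p ^ e) _ ih)
        (Ideal.mul_mem_left _ (B ^ (p ^ e * m)) h1) using 1
      ring

lemma cocycle_of_mu {j : ℕ} {x : Cob Laz 0} {μ : Cob Laz 1}
    (hμ : Cob.d 0 x - C (Laz.v p h) ^ j * μ ∈ IC p h 1) : Cob.d 1 μ ∈ IC p h 2 := by
  have h1 := d_mem_IC hμ
  rw [map_sub, Cob.d_d, zero_sub, neg_mem_iff] at h1
  have h2 := sub_mem h1 (d_vpow_mul j μ)
  rw [sub_sub_cancel] at h2
  exact mem_of_vpow_mul j h2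

lemma d_C_mul_sub {s j : ℕ} {r : Laz} {μ : Cob Laz 1}
    (hμ : Cob.d 0 (C r) - C (Laz.v p h) ^ j * μ ∈ IC p h 1) (h1 : 1 + s = s + 1) {z : Cob Laz s}
    (hz : Cob.d s z ∈ IC p h (s + 1)) :
    Cob.d s (C r * z) - C (Laz.v p h) ^ j * cupc h1 μ z ∈ IC p h (s + 1) := by
  rw [← cupc_C (Nat.zero_add s), d_cupc _ h1 (Nat.zero_add _), ← map_pow, ← cupc_C_mul,
    add_sub_right_comm, ← cupc_sub_left, map_pow]
  exact add_mem (cupc_mem_left _ hμ _) (zsmul_mem (cupc_mem_right _ _ hz) _)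

end Mu

/-- The multiplier `v_1`. -/
def mu0 : Co 0 1 := ⟨C (Laz.v 3 1), by
  have h := (vw 3 1 0).2
  have e : (((3 : ℕ) : ℤ) ^ 1 - 1) = 2 * ((1 : ℕ) : ℤ) := by norm_num
  rw [Cob.mem_wt, ← e]
  exact h⟩

lemma isZ_mu0 : IsZ mu0 := by
  have h := d_vpow_mul (p := 3) (h := 1) 1 (1 : Cob Laz 0)
  have h1 : Cob.d 0 (1 : Cob Laz 0) = 0 := by rw [d_zero_eq, map_one, map_one, sub_self]
  rwa [h1, mul_zero, sub_zero, pow_one, mul_one] at h

lemma coe_cupT_mu0 {s T T' : ℕ} (h : 0 + s = s) (hT : 1 + T = T') (z : Co s T) :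
    (cupT h hT mu0 z).1 = C (Laz.v 3 1) * z.1 := cupc_C h _ _

lemma map_hzA_v_one (θ : ZMod 9 →+* ZMod 3) : map θ (hzA 3 (ZMod 9) (Laz.v 3 1)) = X 0 := by
  rw [map_hzA, hzA_v_one]

/-- **The multipliers.** -/
theorem exists_multipliers : ∃ a : Laz, (∀ s, Cob.IsWt 8 (C a : Cob Laz s)) ∧
    (∀ θ : ZMod 9 →+* ZMod 3, map θ (hzA 3 (ZMod 9) a) = X 1) ∧
    ∀ e κ U : ℕ, 3 ^ e ∣ κ → U + 3 ^ e = 4 * κ → ∃ μ : Co 1 U, IsZ μ ∧
      ∀ (s T T' : ℕ) (h : 1 + s = s + 1) (hT : U + T = T') (z : Co s T), IsZ z →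
        Cob.d s (C a ^ κ * z.1) - C (Laz.v 3 1) ^ 3 ^ e * (cupT h hT μ z).1 ∈
          IC 3 1 (s + 1) := by
  obtain ⟨c, hc⟩ := exists_hzA_v_two
  have hw : ∀ s, Cob.IsWt 8 (C (Laz.v 3 2 - c * Laz.v 3 1 ^ 4) : Cob Laz s) := by
    intro s
    have h1 : Cob.IsWt 8 (C (Laz.v 3 2) : Cob Laz s) := by
      have e : (((3 : ℕ) : ℤ) ^ 2 - 1) = 8 := by norm_num
      rw [← e]
      exact (vw 3 2 s).2
    have h2 : Cob.IsWt 8 ((C (Laz.v 3 1) : Cob Laz s) ^ 4) := by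
      have e : ((4 : ℕ) : ℤ) * (((3 : ℕ) : ℤ) ^ 1 - 1) = 8 := by norm_num
      rw [← e]
      exact Cob.IsWt.pow (vw 3 1 s).2 4
    rw [map_sub, map_mul, map_intCast, map_pow, ← zsmul_eq_mul]
    exact (Cob.wt Laz s 8).sub_mem h1 (h2.zsmul c)
  refine ⟨Laz.v 3 2 - c * Laz.v 3 1 ^ 4, hw, fun θ => ?_, ?_⟩
  · rw [map_hzA, map_sub, map_mul, map_intCast, map_pow, hc, hzA_v_one, add_sub_cancel_right]
  · rintro e _ U ⟨m, rfl⟩ hU
    have hd : Cob.d 0 (C (Laz.v 3 2 - c * Laz.v 3 1 ^ 4)) ∈ IC 3 (1 + 1) 1 := by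
      rw [map_sub, map_sub]
      refine sub_mem ?_ (d_mem_IC ?_)
      · have h := d_vpow_mul (p := 3) (h := 2) 1 (1 : Cob Laz 0)
        have h1 : Cob.d 0 (1 : Cob Laz 0) = 0 := by rw [d_zero_eq, map_one, map_one, sub_self]
        rwa [h1, mul_zero, sub_zero, pow_one, mul_one] at h
      · rw [map_mul, map_pow]
        exact Ideal.mul_mem_left _ _
          (Ideal.pow_mem_of_mem _ (v_mem_IC (by norm_num)) 4 (by norm_num))
    obtain ⟨μ, hμ, hμ'⟩ := exists_mu (p := 3) (h := 1) one_pos (hw 0) hd e m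
    have e1 : ((3 ^ e * m : ℕ) : ℤ) * 8 - ((3 ^ e : ℕ) : ℤ) * (((3 : ℕ) : ℤ) ^ 1 - 1) =
        2 * (U : ℤ) := by
      generalize 3 ^ e * m = K at hU
      generalize 3 ^ e = L at hU
      push_cast
      omega
    rw [e1] at hμ
    refine ⟨⟨μ, hμ⟩, cocycle_of_mu hμ', fun s T T' h hT z hz => ?_⟩
    rw [← map_pow] at hμ' ⊢
    exact d_C_mul_sub hμ' h hz

end Vale.Agent.P236L
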