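import Vale.Agent.P236L.Defs

/-!
# P236, block LEIB: the algebra of the cup product

Bilinearity, associativity, unit, the Leibniz formula `d_cupc`, stability of the ideals `IC p h`.
-/

namespace Vale.Agent.P236L

open Vale.Agent.P251 Vale.Agent.P251.F Vale.Agent.P251.I Vale.Agent.P257.H314

/-- The coface which omits the vertex `i`. -/
def sa (n i : ℕ) : Fin (n + 1) → Fin (n + 2) :=
  fun k => ⟨if k.1 < i then k.1 else k.1 + 1, by split_ifs <;> omega⟩

section Cupc

variable {N : Type} [CommRing N] [LawRing N] {a b c : ℕ} (h : a + b = c)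

lemma cupc_add_left (x x' : Cob N a) (y : Cob N b) :
    cupc h (x + x') y = cupc h x y + cupc h x' y := by
  rw [cupc, cupc, cupc, map_add, add_mul]

lemma cupc_add_right (x : Cob N a) (y y' : Cob N b) :
    cupc h x (y + y') = cupc h x y + cupc h x y' := by
  rw [cupc, cupc, cupc, map_add, mul_add]

lemma cupc_sub_left (x x' : Cob N a) (y : Cob N b) :
    cupc h (x - x') y = cupc h x y - cupc h x' y := by
  rw [cupc, cupc, cupc, map_sub, sub_mul]

lemma cupc_sub_right (x : Cob N a) (y y' : Cob N b) :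
    cupc h x (y - y') = cupc h x y - cupc h x y' := by
  rw [cupc, cupc, cupc, map_sub, mul_sub]

lemma cupc_zsmul_left (n : ℤ) (x : Cob N a) (y : Cob N b) :
    cupc h (n • x) y = n • cupc h x y := by
  rw [cupc, cupc, map_zsmul, smul_mul_assoc]

lemma cupc_zsmul_right (n : ℤ) (x : Cob N a) (y : Cob N b) :
    cupc h x (n • y) = n • cupc h x y := by
  rw [cupc, cupc, map_zsmul, mul_smul_comm]

@[simp] lemma cupc_zero_left (y : Cob N b) : cupc h (0 : Cob N a) y = 0 := by
  rw [cupc, map_zero, zero_mul]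

@[simp] lemma cupc_zero_right (x : Cob N a) : cupc h x (0 : Cob N b) = 0 := by
  rw [cupc, map_zero, mul_zero]

lemma cupc_assoc {a b c ab bc d : ℕ} (h1 : a + b = ab) (h2 : ab + c = d) (h3 : b + c = bc)
    (h4 : a + bc = d) (x : Cob N a) (y : Cob N b) (z : Cob N c) :
    cupc h2 (cupc h1 x y) z = cupc h4 x (cupc h3 y z) := by
  have e1 : frontc h2 ∘ frontc h1 = frontc h4 := rfl
  have e2 : frontc h2 ∘ backc h1 = backc h4 ∘ frontc h3 := rfl
  have e3 : backc h2 = backc h4 ∘ backc h3 := by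
    funext k
    ext
    simp only [backc, Function.comp]
    omega
  simp only [cupc, map_mul, Cob.map_map]
  rw [e1, e2, ← e3, mul_assoc]

lemma d_eq_sum (n : ℕ) (x : Cob N n) :
    Cob.d n x = ∑ i ∈ Finset.range (n + 2), ((-1 : ℤ) ^ i) • Cob.map (sa n i) x := by
  rw [Cob.d_apply, ← Fin.sum_univ_eq_sum_range (fun i => ((-1 : ℤ) ^ i) • Cob.map (sa n i) x)]
  refine Finset.sum_congr rfl fun i _ => ?_
  have e : (i.succAbove : Fin (n + 1) → Fin (n + 2)) = sa n i := by
    funext k
    ext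
    simp only [sa, Fin.succAbove, Fin.lt_def, Fin.val_castSucc]
    split_ifs <;> rfl
  rw [e]

/-- The Leibniz formula. -/
theorem d_cupc (h1 : a + 1 + b = c + 1) (h2 : a + (b + 1) = c + 1) (x : Cob N a) (y : Cob N b) :
    Cob.d c (cupc h x y) = cupc h1 (Cob.d a x) y + (-1 : ℤ) ^ a • cupc h2 x (Cob.d b y) := by
  have e0 : c + 2 = (a + 1) + (b + 1) := by omega
  rw [d_eq_sum, d_eq_sum, d_eq_sum, e0, Finset.sum_range_add, cupc, cupc, cupc, map_sum, map_sum,
    Finset.sum_mul, Finset.mul_sum, Finset.sum_range_succ _ (a + 1),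
    Finset.sum_range_succ' _ (b + 1), smul_add, Finset.smul_sum]
  simp only [map_mul, map_zsmul, Cob.map_map]
  have e1 : frontc h1 ∘ sa a (a + 1) = frontc h2 := by
    funext k
    ext
    simp only [frontc, sa, Function.comp]
    rw [if_pos k.2]
  have e2 : backc h2 ∘ sa b 0 = backc h1 := by
    funext k
    ext
    simp only [backc, sa, Function.comp]
    rw [if_neg (Nat.not_lt_zero _)]
    omega
  have e3 : ∑ i ∈ Finset.range (a + 1), (-1 : ℤ) ^ i •
      (Cob.map (sa c i ∘ frontc h) x * Cob.map (sa c i ∘ backc h) y) =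
      ∑ i ∈ Finset.range (a + 1),
        (-1 : ℤ) ^ i • Cob.map (frontc h1 ∘ sa a i) x * Cob.map (backc h1) y := by
    refine Finset.sum_congr rfl fun i hi => ?_
    have hi' := Finset.mem_range.1 hi
    have f1 : sa c i ∘ frontc h = frontc h1 ∘ sa a i := rfl
    have f2 : sa c i ∘ backc h = backc h1 := by
      funext k
      ext
      change (if a + k.1 < i then a + k.1 else a + k.1 + 1) = a + 1 + k.1
      split_ifs <;> omega
    rw [f1, f2, smul_mul_assoc]
  have e4 : ∑ j ∈ Finset.range (b + 1), (-1 : ℤ) ^ (a + 1 + j) •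
      (Cob.map (sa c (a + 1 + j) ∘ frontc h) x * Cob.map (sa c (a + 1 + j) ∘ backc h) y) =
      ∑ j ∈ Finset.range (b + 1), (-1 : ℤ) ^ a • (Cob.map (frontc h2) x *
        (-1 : ℤ) ^ (j + 1) • Cob.map (backc h2 ∘ sa b (j + 1)) y) := by
    refine Finset.sum_congr rfl fun j _ => ?_
    have f1 : sa c (a + 1 + j) ∘ frontc h = frontc h2 := by
      funext k
      ext
      have := k.2
      change (if k.1 < a + 1 + j then k.1 else k.1 + 1) = k.1
      split_ifs <;> omega
    have f2 : sa c (a + 1 + j) ∘ backc h = backc h2 ∘ sa b (j + 1) := by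
      funext k
      ext
      change (if a + k.1 < a + 1 + j then a + k.1 else a + k.1 + 1) =
        a + (if k.1 < j + 1 then k.1 else k.1 + 1)
      split_ifs <;> omega
    rw [f1, f2, mul_smul_comm, smul_smul, ← pow_add, show a + 1 + j = a + (j + 1) by omega]
  rw [e1, e2, e3, e4, pow_zero, one_smul, smul_mul_assoc, pow_succ, mul_neg_one, neg_smul]
  abel

end Cupc

section Ideal

variable {p k : ℕ} [Fact p.Prime] {a b c : ℕ} (h : a + b = c)

lemma cupc_mem_left {x : Cob Laz a} (hx : x ∈ IC p k a) (y : Cob Laz b) :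
    cupc h x y ∈ IC p k c := Ideal.mul_mem_right _ _ (map_mem_IC _ hx)

lemma cupc_mem_right (x : Cob Laz a) {y : Cob Laz b} (hy : y ∈ IC p k b) :
    cupc h x y ∈ IC p k c := Ideal.mul_mem_left _ _ (map_mem_IC _ hy)

/-- The product of two cocycles is a cocycle. -/
lemma d_cupc_mem {x : Cob Laz a} {y : Cob Laz b} (hx : Cob.d a x ∈ IC p k (a + 1))
    (hy : Cob.d b y ∈ IC p k (b + 1)) : Cob.d c (cupc h x y) ∈ IC p k (c + 1) := by
  rw [d_cupc h (by omega) (by omega)]
  exact add_mem (cupc_mem_left _ hx _) (zsmul_mem (cupc_mem_right _ _ hy) _)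

end Ideal

section Cupw

variable {N : Type} [CommRing N] [LawRing N] {a b c : ℕ} (h : a + b = c) {w v u : ℤ}
  (hw : w + v = u)

lemma cupw_add_left (x x' : Cob.wt N a w) (y : Cob.wt N b v) :
    cupw h hw (x + x') y = cupw h hw x y + cupw h hw x' y :=
  Subtype.ext (cupc_add_left h _ _ _)

lemma cupw_add_right (x : Cob.wt N a w) (y y' : Cob.wt N b v) :
    cupw h hw x (y + y') = cupw h hw x y + cupw h hw x y' :=
  Subtype.ext (cupc_add_right h _ _ _)

lemma cupw_sub_left (x x' : Cob.wt N a w) (y : Cob.wt N b v) :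
    cupw h hw (x - x') y = cupw h hw x y - cupw h hw x' y :=
  Subtype.ext (cupc_sub_left h _ _ _)

lemma cupw_sub_right (x : Cob.wt N a w) (y y' : Cob.wt N b v) :
    cupw h hw x (y - y') = cupw h hw x y - cupw h hw x y' :=
  Subtype.ext (cupc_sub_right h _ _ _)

lemma cupw_zsmul_left (n : ℤ) (x : Cob.wt N a w) (y : Cob.wt N b v) :
    cupw h hw (n • x) y = n • cupw h hw x y :=
  Subtype.ext (cupc_zsmul_left h _ _ _)

lemma cupw_zsmul_right (n : ℤ) (x : Cob.wt N a w) (y : Cob.wt N b v) :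
    cupw h hw x (n • y) = n • cupw h hw x y :=
  Subtype.ext (cupc_zsmul_right h _ _ _)

@[simp] lemma cupw_zero_left (y : Cob.wt N b v) : cupw h hw (0 : Cob.wt N a w) y = 0 :=
  Subtype.ext (cupc_zero_left h _)

@[simp] lemma cupw_zero_right (x : Cob.wt N a w) : cupw h hw x (0 : Cob.wt N b v) = 0 :=
  Subtype.ext (cupc_zero_right h _)

lemma cupw_assoc {a b c ab bc d : ℕ} (h1 : a + b = ab) (h2 : ab + c = d) (h3 : b + c = bc)
    (h4 : a + bc = d) {w v u wv vu t : ℤ} (k1 : w + v = wv) (k2 : wv + u = t) (k3 : v + u = vu)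
    (k4 : w + vu = t) (x : Cob.wt N a w) (y : Cob.wt N b v) (z : Cob.wt N c u) :
    cupw h2 k2 (cupw h1 k1 x y) z = cupw h4 k4 x (cupw h3 k3 y z) :=
  Subtype.ext (cupc_assoc h1 h2 h3 h4 _ _ _)

lemma dwt_cupw (h1 : a + 1 + b = c + 1) (h2 : a + (b + 1) = c + 1) (x : Cob.wt N a w)
    (y : Cob.wt N b v) : Cob.dwt N c u (cupw h hw x y) =
      cupw h1 hw (Cob.dwt N a w x) y + (-1 : ℤ) ^ a • cupw h2 hw x (Cob.dwt N b v y) :=
  Subtype.ext (d_cupc h h1 h2 _ _)

/-- The cup product as a biadditive map. -/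
noncomputable def cupH : Cob.wt N a w →+ Cob.wt N b v →+ Cob.wt N c u :=
  AddMonoidHom.mk' (fun x => AddMonoidHom.mk' (cupw h hw x) (cupw_add_right h hw x))
    fun x x' => AddMonoidHom.ext fun y => cupw_add_left h hw x x' y

@[simp] lemma cupH_apply (x : Cob.wt N a w) (y : Cob.wt N b v) :
    cupH h hw x y = cupw h hw x y := rfl

end Cupw

end Vale.Agent.P236L
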