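import Vale.Agent.P236L.Defs

/-!
# P236, block LEIB: the calculus of differentials

Formal properties of `Dif`, `Bd` and `Perm`.
-/

open CategoryTheory MonoidalCategory Limits Pretriangulated MonObj

set_option linter.unusedSectionVars false

universe v u

namespace Vale.Agent.P236L

open Vale.Agent.P251 Vale.Agent.P251.T Vale.Agent.P251.F Vale.Agent.P251.I
  Vale.Agent.P251.M Vale.Agent.P257.H712
open Vale.Agent.P251.S hiding IC

variable {T : Type u} [Category.{v} T] [Preadditive T] [HasZeroObject T]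
    [HasShift T ℤ] [∀ n : ℤ, (shiftFunctor T n).Additive] [Pretriangulated T]
    [MonoidalCategory T] [SymmetricCategory T] [TensorTriangulated T] [HasCoproducts.{0} T]
    {D : MUData T} {U : UnitCof D.R} {V : T} {i : 𝟙_ T ⟶ V}

/-! ### Cochains -/

lemma coch_d (s : ℕ) (w : ℤ) (z : Cob.wt Laz s w) :
    coch D U i (s + 1) w (Cob.dwt Laz s w z) =
      coch D U i s w z ≫ (tensorRight V).map (U.cobar.d (s + 1) (𝟙_ T)) := by
  rw [coch_apply, coch_apply, phiV_d, Category.assoc]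

lemma cls_d {s : ℕ} {w n m : ℤ} (hn : n = m + 1) (h : n + (s : ℤ) = 2 * w)
    (h' : m + ((s + 1 : ℕ) : ℤ) = 2 * w) (z : Cob.wt Laz s w) :
    (CV U V).d s n m hn (cls D U i s w n h z) =
      cls D U i (s + 1) w m h' (Cob.dwt Laz s w z) := by
  rw [cls_apply, cls_apply, coch_d]
  exact U.d_qE (𝟙_ T) (tensorRight V) (𝟙_ T) hn h h' _

section Gen

variable {𝔞 : ∀ s : ℕ, Ideal (Cob Laz s)} (G : Gen D U i 𝔞)

include G

lemma Gen.coch_eq_zero {s : ℕ} {w : ℤ} (z : Cob.wt Laz s w) :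
    coch D U i s w z = 0 ↔ z.1 ∈ 𝔞 s := by
  rw [← G.ker s w z, coch_apply, ← cancel_epi (sM T w).hom, Iso.hom_inv_id_assoc, comp_zero]

lemma Gen.coch_surj {s : ℕ} {w : ℤ}
    (f : (𝟙_ T)⟦2 * w⟧ ⟶ (tensorRight V).obj (U.cobar.Q (s + 1) (𝟙_ T))) :
    ∃ z : Cob.wt Laz s w, coch D U i s w z = f := by
  obtain ⟨z, hz⟩ := G.surj s w ((sM T w).hom ≫ f)
  exact ⟨z, by rw [coch_apply, ← hz, Iso.inv_hom_id_assoc]⟩

lemma Gen.cocycle_iff {s : ℕ} {w : ℤ} (z : Cob.wt Laz s w) :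
    coch D U i s w z ≫ (tensorRight V).map (U.cobar.d (s + 1) (𝟙_ T)) = 0 ↔
      Cob.d s z.1 ∈ 𝔞 (s + 1) := by
  rw [← coch_d, G.coch_eq_zero, Cob.coe_dwt]

/-- The ideal is stable under the differential. -/
lemma Gen.d_mem {s : ℕ} {w : ℤ} (z : Cob.wt Laz s w) (hz : z.1 ∈ 𝔞 s) :
    Cob.d s z.1 ∈ 𝔞 (s + 1) := by
  rw [← G.cocycle_iff, (G.coch_eq_zero z).2 hz, zero_comp]

lemma Gen.cls_eq_zero {s : ℕ} {w n : ℤ} (h : n + (s : ℤ) = 2 * w) {z : Cob.wt Laz s w}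
    (hz : z.1 ∈ 𝔞 s) : cls D U i s w n h z = 0 := by
  rw [cls_apply, (G.coch_eq_zero z).2 hz, map_zero]

lemma Gen.cls_congr {s : ℕ} {w n : ℤ} (h : n + (s : ℤ) = 2 * w) {z z' : Cob.wt Laz s w}
    (hz : z.1 - z'.1 ∈ 𝔞 s) : cls D U i s w n h z = cls D U i s w n h z' := by
  rw [← sub_eq_zero, ← map_sub]
  exact G.cls_eq_zero h hz

lemma Gen.cls_surj {s : ℕ} {w n : ℤ} (h : n + (s : ℤ) = 2 * w) (e : (CV U V).E s n) :
    ∃ z : Cob.wt Laz s w, cls D U i s w n h z = e := by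
  obtain ⟨c, rfl⟩ := U.qE_surjective (𝟙_ T) (tensorRight V) (𝟙_ T) h e
  obtain ⟨z, rfl⟩ := G.coch_surj c
  exact ⟨z, rfl⟩

lemma Gen.exists_cocycle {s : ℕ} {w n : ℤ} (h : n + (s : ℤ) = 2 * w) (e : (CV U V).E s n)
    (he : (CV U V).IsCocycle e) :
    ∃ z : Cob.wt Laz s w, Cob.d s z.1 ∈ 𝔞 (s + 1) ∧ cls D U i s w n h z = e := by
  obtain ⟨c, hc, rfl⟩ := U.exists_cocycle_qE (𝟙_ T) (tensorRight V) (𝟙_ T) h e he
  obtain ⟨z, rfl⟩ := G.coch_surj c
  exact ⟨z, (G.cocycle_iff z).1 hc, rfl⟩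

lemma Gen.E_odd {s : ℕ} {n k : ℤ} (h : n + (s : ℤ) = 2 * k + 1) (e : (CV U V).E s n) : e = 0 :=
  U.E_eq_zero (𝟙_ T) (tensorRight V) (𝟙_ T) h (G.odd s k) e

lemma Gen.isCocycle {s : ℕ} {w n : ℤ} (h : n + (s : ℤ) = 2 * w) {z : Cob.wt Laz s w}
    (hz : Cob.d s z.1 ∈ 𝔞 (s + 1)) : (CV U V).IsCocycle (cls D U i s w n h z) := by
  intro m hm
  rw [cls_d hm h (by push_cast; omega)]
  exact G.cls_eq_zero _ hz

end Gen

/-! ### `Dif` -/

section Dif

variable {s s' : ℕ} {w w' : ℤ} {x x' : Cob.wt Laz s w} {y y' : Cob.wt Laz s' w'}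

lemma Dif.lt (H : Dif D U i x y) : s + 1 ≤ s' := by
  obtain ⟨_, _, _, _, _, hs, _⟩ := H
  exact hs

lemma Dif.deg (H : Dif D U i x y) : 2 * w' - s' = 2 * w - s - 1 := by
  obtain ⟨_, _, hn, h, h', _⟩ := H
  omega

lemma Dif.elim (H : Dif D U i x y) {n m : ℤ} (hn : n = m + 1) (h : n + (s : ℤ) = 2 * w)
    (h' : m + (s' : ℤ) = 2 * w') (hs : s + 1 ≤ s') : ∃ c : (CV U V).D s' m,
    (CV U V).proj m hs c = (CV U V).k s n m hn (cls D U i s w n h x) ∧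
      (CV U V).j s' m c = cls D U i s' w' m h' y := by
  obtain ⟨n₁, m₁, _, h₁, h₁', _, c, hc⟩ := H
  obtain rfl : n = n₁ := by omega
  obtain rfl : m = m₁ := by omega
  exact ⟨c, hc⟩

lemma Dif.add (H : Dif D U i x y) (H' : Dif D U i x' y') : Dif D U i (x + x') (y + y') := by
  obtain ⟨n, m, hn, h, h', hs, c, hc, hj⟩ := H
  obtain ⟨c', hc', hj'⟩ := H'.elim hn h h' hs
  exact ⟨n, m, hn, h, h', hs, c + c', by rw [proj_add, hc, hc', map_add, map_add],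
    by rw [map_add, hj, hj', map_add]⟩

lemma Dif.zsmul (H : Dif D U i x y) (a : ℤ) : Dif D U i (a • x) (a • y) := by
  obtain ⟨n, m, hn, h, h', hs, c, hc, hj⟩ := H
  exact ⟨n, m, hn, h, h', hs, a • c, by rw [proj_zsmul, hc, map_zsmul, map_zsmul],
    by rw [map_zsmul, hj, map_zsmul]⟩

lemma Dif.neg (H : Dif D U i x y) : Dif D U i (-x) (-y) := by
  have := H.zsmul (-1)
  rwa [neg_one_zsmul, neg_one_zsmul] at this

lemma Dif.sub (H : Dif D U i x y) (H' : Dif D U i x' y') : Dif D U i (x - x') (y - y') := by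
  rw [sub_eq_add_neg, sub_eq_add_neg]
  exact H.add H'.neg

lemma dif_zero (hs : s + 1 ≤ s') (hw : 2 * w' - s' = 2 * w - s - 1) :
    Dif D U i (0 : Cob.wt Laz s w) (0 : Cob.wt Laz s' w') :=
  ⟨2 * w - s, 2 * w - s - 1, by ring, by ring, by omega, hs, 0,
    by rw [Couple.proj_zero', map_zero, map_zero], by rw [map_zero, map_zero]⟩

lemma Dif.sum {ι : Type*} (t : Finset ι) (hs : s + 1 ≤ s') (hw : 2 * w' - s' = 2 * w - s - 1)
    (f : ι → Cob.wt Laz s w) (g : ι → Cob.wt Laz s' w') (H : ∀ a ∈ t, Dif D U i (f a) (g a)) :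
    Dif D U i (∑ a ∈ t, f a) (∑ a ∈ t, g a) := by
  classical
  induction t using Finset.induction_on with
  | empty => exact dif_zero hs hw
  | insert a t ha ih =>
    rw [Finset.sum_insert ha, Finset.sum_insert ha]
    exact (H a (Finset.mem_insert_self a t)).add
      (ih fun b hb => H b (Finset.mem_insert_of_mem hb))

/-- The first differential. -/
lemma dif_d (x : Cob.wt Laz s w) : Dif D U i x (Cob.dwt Laz s w x) :=
  ⟨2 * w - s, 2 * w - s - 1, by ring, by ring, by push_cast; ring, le_rfl, _,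
    Couple.proj_self _ _ _ _, cls_d _ _ _ x⟩

lemma Dif.congr {𝔞 : ∀ s : ℕ, Ideal (Cob Laz s)} (G : Gen D U i 𝔞) (H : Dif D U i x y)
    (hx : x.1 - x'.1 ∈ 𝔞 s) (hy : y.1 - y'.1 ∈ 𝔞 s') : Dif D U i x' y' := by
  obtain ⟨n, m, hn, h, h', hs, c, hc, hj⟩ := H
  exact ⟨n, m, hn, h, h', hs, c, by rw [hc, G.cls_congr h hx], by rw [hj, G.cls_congr h' hy]⟩

/-- The shorter differentials vanish. -/
lemma Dif.zero_of_lt (H : Dif D U i x y) {s'' : ℕ} {w'' : ℤ} (h1 : s + 1 ≤ s'') (h2 : s'' < s')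
    (hw : 2 * w'' - s'' = 2 * w - s - 1) : Dif D U i x (0 : Cob.wt Laz s'' w'') := by
  obtain ⟨n, m, hn, h, h', hs, c, hc, -⟩ := H
  refine ⟨n, m, hn, h, by omega, h1, (CV U V).proj m h2.le c, by rw [proj_proj, hc], ?_⟩
  rw [map_zero, ← (CV U V).i_proj m h2, Couple.j_i]

end Dif

/-! ### `Bd` and `Perm` -/

section Bd

variable {t s s' : ℕ} {w w' : ℤ} {x x' : Cob.wt Laz s w} {y y' : Cob.wt Laz s' w'}

lemma Bd.le (H : Bd D U i t x) : t ≤ s := by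
  obtain ⟨_, _, h, _⟩ := H
  exact h

lemma Bd.elim (H : Bd D U i t x) {n : ℤ} (h : n + (s : ℤ) = 2 * w) (ht : t ≤ s) :
    ∃ c : (CV U V).D s n, (CV U V).proj n ht c = 0 ∧ (CV U V).j s n c = cls D U i s w n h x := by
  obtain ⟨n₁, h₁, _, c, hc⟩ := H
  obtain rfl : n = n₁ := by omega
  exact ⟨c, hc⟩

lemma Bd.add (H : Bd D U i t x) (H' : Bd D U i t x') : Bd D U i t (x + x') := by
  obtain ⟨n, h, ht, c, hc, hj⟩ := H
  obtain ⟨c', hc', hj'⟩ := H'.elim h ht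
  exact ⟨n, h, ht, c + c', by rw [proj_add, hc, hc', add_zero],
    by rw [map_add, hj, hj', map_add]⟩

lemma Bd.zsmul (H : Bd D U i t x) (a : ℤ) : Bd D U i t (a • x) := by
  obtain ⟨n, h, ht, c, hc, hj⟩ := H
  exact ⟨n, h, ht, a • c, by rw [proj_zsmul, hc, smul_zero], by rw [map_zsmul, hj, map_zsmul]⟩

lemma Bd.neg (H : Bd D U i t x) : Bd D U i t (-x) := by
  have := H.zsmul (-1)
  rwa [neg_one_zsmul] at this

lemma Bd.sub (H : Bd D U i t x) (H' : Bd D U i t x') : Bd D U i t (x - x') := by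
  rw [sub_eq_add_neg]
  exact H.add H'.neg

lemma bd_zero (ht : t ≤ s) : Bd D U i t (0 : Cob.wt Laz s w) :=
  ⟨2 * w - s, by ring, ht, 0, Couple.proj_zero' _ _ _, by rw [map_zero, map_zero]⟩

lemma Bd.mono (H : Bd D U i t x) {t' : ℕ} (h : t' ≤ t) : Bd D U i t' x := by
  obtain ⟨n, hn, H⟩ := H
  exact ⟨n, hn, H.mono h⟩

lemma Bd.congr {𝔞 : ∀ s : ℕ, Ideal (Cob Laz s)} (G : Gen D U i 𝔞) (H : Bd D U i t x)
    (hx : x.1 - x'.1 ∈ 𝔞 s) : Bd D U i t x' := by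
  obtain ⟨n, h, H⟩ := H
  exact ⟨n, h, by rwa [← G.cls_congr h hx]⟩

lemma Gen.bd_of_mem {𝔞 : ∀ s : ℕ, Ideal (Cob Laz s)} (G : Gen D U i 𝔞) (ht : t ≤ s)
    (hx : x.1 ∈ 𝔞 s) : Bd D U i t x :=
  (bd_zero ht).congr G (by simpa using neg_mem hx)

/-- The target of a differential. -/
lemma Dif.bd (H : Dif D U i x y) : Bd D U i s y := by
  obtain ⟨n, m, hn, h, h', hs, c, hc, hj⟩ := H
  refine ⟨m, h', by omega, c, ?_, hj⟩
  rw [← (CV U V).i_proj m hs, hc, Couple.i_k]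

lemma bd_d (x : Cob.wt Laz s w) (ht : t ≤ s) : Bd D U i t (Cob.dwt Laz s w x) :=
  (dif_d x).bd.mono ht

lemma Dif.bd_of_zero (H : Dif D U i (0 : Cob.wt Laz s w) y) : Bd D U i (s + 1) y := by
  obtain ⟨n, m, hn, h, h', hs, c, hc, hj⟩ := H
  exact ⟨m, h', hs, c, by rw [hc, map_zero, map_zero], hj⟩

lemma Bd.dif_zero (H : Bd D U i (s + 1) y) (hw : 2 * w' - s' = 2 * w - s - 1) :
    Dif D U i (0 : Cob.wt Laz s w) y := by
  obtain ⟨m, h', hs, c, hc, hj⟩ := H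
  exact ⟨m + 1, m, rfl, by omega, h', hs, c, by rw [hc, map_zero, map_zero], hj⟩

/-- Uniqueness of the differential. -/
lemma Dif.bd_sub (H : Dif D U i x y) (H' : Dif D U i x y') : Bd D U i (s + 1) (y - y') := by
  have := H.sub H'
  rw [sub_self] at this
  exact this.bd_of_zero

lemma Dif.add_bd (H : Dif D U i x y) (H' : Bd D U i (s + 1) y') : Dif D U i x (y + y') := by
  have := H.add (H'.dif_zero H.deg)
  rwa [add_zero] at this

lemma Dif.of_bd_sub (H : Dif D U i x y) (H' : Bd D U i (s + 1) (y' - y)) : Dif D U i x y' := by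
  have := H.add_bd H'
  rwa [add_sub_cancel] at this

lemma Dif.zero_of_bd (H : Dif D U i x y) (H' : Bd D U i (s + 1) y) :
    Dif D U i x (0 : Cob.wt Laz s' w') :=
  H.of_bd_sub (by rw [zero_sub]; exact H'.neg)

lemma Bd.perm (H : Bd D U i t x) : Perm D U i x := by
  obtain ⟨n, h, _, c, _, hj⟩ := H
  exact ⟨n, h, c, hj⟩

lemma Perm.elim (H : Perm D U i x) {n : ℤ} (h : n + (s : ℤ) = 2 * w) :
    ∃ c : (CV U V).D s n, (CV U V).j s n c = cls D U i s w n h x := by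
  obtain ⟨n₁, h₁, c, hc⟩ := H
  obtain rfl : n = n₁ := by omega
  exact ⟨c, hc⟩

lemma Perm.add (H : Perm D U i x) (H' : Perm D U i x') : Perm D U i (x + x') := by
  obtain ⟨n, h, c, hj⟩ := H
  obtain ⟨c', hj'⟩ := H'.elim h
  exact ⟨n, h, c + c', by rw [map_add, hj, hj', map_add]⟩

lemma Perm.zsmul (H : Perm D U i x) (a : ℤ) : Perm D U i (a • x) := by
  obtain ⟨n, h, c, hj⟩ := H
  exact ⟨n, h, a • c, by rw [map_zsmul, hj, map_zsmul]⟩

lemma Perm.congr {𝔞 : ∀ s : ℕ, Ideal (Cob Laz s)} (G : Gen D U i 𝔞) (H : Perm D U i x)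
    (hx : x.1 - x'.1 ∈ 𝔞 s) : Perm D U i x' := by
  obtain ⟨n, h, c, hc⟩ := H
  exact ⟨n, h, c, by rwa [← G.cls_congr h hx]⟩

/-- Permanent cycles support no differentials. -/
lemma Perm.dif_zero (H : Perm D U i x) (hs : s + 1 ≤ s') (hw : 2 * w' - s' = 2 * w - s - 1) :
    Dif D U i x (0 : Cob.wt Laz s' w') := by
  obtain ⟨n, h, c, hj⟩ := H
  exact ⟨n, n - 1, by ring, h, by omega, hs, 0,
    by rw [Couple.proj_zero', ← hj, Couple.k_j], by rw [map_zero, map_zero]⟩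

lemma Perm.bd (H : Perm D U i x) (H' : Dif D U i x y) : Bd D U i (s + 1) y := by
  have := H'.bd_sub (H.dif_zero H'.lt H'.deg)
  rwa [sub_zero] at this

lemma Dif.add_perm (H : Dif D U i x y) (H' : Perm D U i x') : Dif D U i (x + x') y := by
  have := H.add (H'.dif_zero H.lt H.deg)
  rwa [add_zero] at this

lemma Dif.of_perm_sub (H : Dif D U i x y) (H' : Perm D U i (x' - x)) : Dif D U i x' y := by
  have := H.add_perm H'
  rwa [add_sub_cancel] at this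

variable {𝔞 : ∀ s : ℕ, Ideal (Cob Laz s)} (G : Gen D U i 𝔞)

include G

/-- A boundary from the filtration `t` is the target of a differential. -/
theorem Gen.hit (H : Bd D U i t y) (ht : t + 1 ≤ s') {w₀ : ℤ}
    (hw : 2 * w' - s' = 2 * w₀ - t - 1) :
    ∃ u : Cob.wt Laz t w₀, (t + 2 ≤ s' → Cob.d t u.1 ∈ 𝔞 (t + 1)) ∧ Dif D U i u y := by
  obtain ⟨m, h', h0, c, hc, hj⟩ := H
  have h1 : (CV U V).i t m ((CV U V).proj m ht c) = 0 := by rw [Couple.i_proj, hc]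
  obtain ⟨z, hz⟩ := (CV U V).exact_i t (m + 1) m rfl _ h1
  have h : m + 1 + (t : ℤ) = 2 * w₀ := by omega
  by_cases h2 : t + 2 ≤ s'
  · have h3 : (CV U V).IsCocycle z := by
      intro l hl
      obtain rfl : l = m := by omega
      rw [Couple.d_apply, hz, ← (CV U V).i_proj l h2, Couple.j_i]
    obtain ⟨u, hu, rfl⟩ := G.exists_cocycle h z h3
    exact ⟨u, fun _ => hu, m + 1, m, rfl, h, h', ht, c, hz.symm, hj⟩
  · obtain ⟨u, rfl⟩ := G.cls_surj h z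
    exact ⟨u, fun h => absurd h h2, m + 1, m, rfl, h, h', ht, c, hz.symm, hj⟩

/-- There are no differentials of even length. -/
theorem Gen.bd_succ_of_even (H : Bd D U i t y) (ht : t + 1 ≤ s') (k : ℕ) (hk : s' = t + 2 * k) :
    Bd D U i (t + 1) y := by
  obtain ⟨m, h', h0, c, hc, hj⟩ := H
  have h1 : (CV U V).i t m ((CV U V).proj m ht c) = 0 := by rw [Couple.i_proj, hc]
  obtain ⟨z, hz⟩ := (CV U V).exact_i t (m + 1) m rfl _ h1
  refine ⟨m, h', ht, c, ?_, hj⟩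
  rw [← hz, G.E_odd (k := w' - k) (by subst hk; push_cast at h' ⊢; omega) z, map_zero]

/-- If all cocycles of the source only support boundaries, then nothing new is killed. -/
theorem Gen.bd_succ (H : Bd D U i t y) (ht : t + 2 ≤ s')
    (hv : ∀ (w₀ : ℤ) (u : Cob.wt Laz t w₀), Cob.d t u.1 ∈ 𝔞 (t + 1) → Dif D U i u y →
      Bd D U i (t + 1) y) : Bd D U i (t + 1) y := by
  rcases Int.even_or_odd' ((s' : ℤ) - t) with ⟨k, hk | hk⟩
  · exact G.bd_succ_of_even H (by omega) k.toNat (by omega)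
  · obtain ⟨u, hu, H'⟩ := G.hit H (by omega) (w₀ := w' - k) (by omega)
    exact hv _ u (hu ht) H'

/-- The next page. -/
theorem Gen.step (H : Dif D U i x y) (H' : Bd D U i (s + 1) y) {s'' : ℕ} {w'' : ℤ}
    (hs'' : s'' = s' + 2) (hw'' : w'' = w' + 1) :
    ∃ y'' : Cob.wt Laz s'' w'', Cob.d s'' y''.1 ∈ 𝔞 (s'' + 1) ∧ Dif D U i x y'' := by
  subst hs''
  obtain ⟨n, m, hn, h, h', hs, c, hc, hj⟩ := H.zero_of_bd H'
  rw [map_zero] at hj
  obtain ⟨c₁, rfl⟩ := (CV U V).exact_j _ _ _ hj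
  obtain ⟨c₂, rfl⟩ := (CV U V).exact_j _ _ c₁
    (G.E_odd (k := w') (by push_cast; omega) _)
  have h'' : m + ((s' + 2 : ℕ) : ℤ) = 2 * w'' := by push_cast; omega
  obtain ⟨y'', hy, hy'⟩ := G.exists_cocycle h'' _ ((CV U V).isCocycle_j c₂)
  refine ⟨y'', hy, n, m, hn, h, h'', by omega, c₂, ?_, hy'.symm⟩
  rw [← hc, ← Couple.proj_succ, ← Couple.proj_succ]

/-- Cocycles survive to `E₃`. -/
theorem Gen.start (hx : Cob.d s x.1 ∈ 𝔞 (s + 1)) {s'' : ℕ} {w'' : ℤ}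
    (hs'' : s'' = s + 3) (hw'' : w'' = w + 1) :
    ∃ y'' : Cob.wt Laz s'' w'', Cob.d s'' y''.1 ∈ 𝔞 (s'' + 1) ∧ Dif D U i x y'' :=
  G.step (dif_d x) (G.bd_of_mem le_rfl hx) hs'' hw''

/-- Boundaries of the first differential. -/
theorem Gen.bd_iff {y : Cob.wt Laz (s + 1) w} (hy : Cob.d (s + 1) y.1 ∈ 𝔞 (s + 2)) :
    Bd D U i s y ↔ ∃ z : Cob.wt Laz s w, y.1 - Cob.d s z.1 ∈ 𝔞 (s + 1) := by
  constructor
  · rintro ⟨m, h', h0, c, hc, hj⟩
    have h1 : (CV U V).i s m c = 0 := by rw [← proj_one]; exact hc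
    obtain ⟨z, hz⟩ := (CV U V).exact_i s (m + 1) m rfl _ h1
    obtain ⟨c', hc'⟩ := U.exists_of_isCobdy (𝟙_ T) (tensorRight V) (𝟙_ T) h'
      (coch D U i (s + 1) w y) ((G.cocycle_iff y).2 hy) ⟨z, by rw [Couple.d_apply, hz]; exact hj⟩
    obtain ⟨u, rfl⟩ := G.coch_surj c'
    refine ⟨u, ?_⟩
    rw [← coch_d, eq_comm, ← sub_eq_zero, ← map_sub, G.coch_eq_zero] at hc'
    exact hc'
  · rintro ⟨z, hz⟩
    exact (bd_d z le_rfl).congr G (by rw [Cob.coe_dwt, ← neg_sub]; exact neg_mem hz)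

/-- Boundaries in filtration zero. -/
theorem Gen.bd_zero_iff {y : Cob.wt Laz 0 w} : Bd D U i 0 y ↔ y.1 ∈ 𝔞 0 := by
  constructor
  · rintro ⟨m, h', h0, c, hc, hj⟩
    rw [Couple.proj_self] at hc
    rw [hc, map_zero, cls_apply] at hj
    rw [← G.coch_eq_zero]
    apply U.qE_zero_injective (𝟙_ T) (tensorRight V) (𝟙_ T) h'
    rw [← hj, map_zero]
  · exact G.bd_of_mem le_rfl

end Bd

section Conv

variable [MonoidalClosed T] [IsTriangulated T] [HasProducts.{0} T] [StableCat T]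
  {s s' : ℕ} {w w' : ℤ} {x : Cob.wt Laz s w} {y : Cob.wt Laz s' w'}

/-- Convergence: a class which survives long enough is a permanent cycle. -/
theorem Dif.perm (hV : BigCell T 0 V) (H : Dif D U i x y) (hs : 2 * w - s - 1 < s') :
    Perm D U i x := by
  obtain ⟨n, m, hn, h, h', hs', c, hc, -⟩ := H
  rw [Vale.Agent.P257.H314.D_eq_zero U hV (by omega) c, Couple.proj_zero'] at hc
  obtain ⟨z, hz⟩ := (CV U V).exact_k s n m hn _ hc.symm
  exact ⟨n, h, z, hz⟩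

/-- Convergence: if all differentials are boundaries then the class is a permanent cycle. -/
theorem Gen.perm {𝔞 : ∀ s : ℕ, Ideal (Cob Laz s)} (G : Gen D U i 𝔞) (hV : BigCell T 0 V)
    (hx : Cob.d s x.1 ∈ 𝔞 (s + 1))
    (H : ∀ (s' : ℕ) (w' : ℤ) (y : Cob.wt Laz s' w'), s + 3 ≤ s' → Cob.d s' y.1 ∈ 𝔞 (s' + 1) →
      Dif D U i x y → Bd D U i (s + 1) y) : Perm D U i x := by
  have key : ∀ k : ℕ, ∃ y : Cob.wt Laz (s + 3 + 2 * k) (w + 1 + k),
      Cob.d _ y.1 ∈ 𝔞 (s + 3 + 2 * k + 1) ∧ Dif D U i x y := by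
    intro k
    induction k with
    | zero => exact G.start hx rfl (by simp)
    | succ k ih =>
      obtain ⟨y, hy, hd⟩ := ih
      exact G.step hd (H _ _ y (by omega) hy hd) (by ring) (by push_cast; ring)
  obtain ⟨y, -, hd⟩ := key (2 * w).toNat
  exact hd.perm hV (by push_cast; omega)

end Conv

end Vale.Agent.P236L
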