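import Vale.Agent.P236L.Leib
import Vale.Agent.P236L.CupAlg

/-!
# P236, block LEIB: products with permanent cycles

* `exists_mul`: the left unital product of an object `S / q` killed by `q`;
* `Perm.mul`, `Dif.mul_perm`, `Perm.mul_dif`, `Bd.mul_perm`, `Perm.mul_bd`.
-/

open CategoryTheory MonoidalCategory Limits Pretriangulated MonObj

universe v u

set_option linter.unusedSectionVars false

namespace Vale.Agent.P236L

open Vale.Agent.P251 Vale.Agent.P251.T Vale.Agent.P251.F Vale.Agent.P251.I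
  Vale.Agent.P251.M Vale.Agent.P257.H712 Vale.Agent.P257.H820
open Vale.Agent.P251.S hiding IC

variable {T : Type u} [Category.{v} T] [Preadditive T] [HasZeroObject T] [HasShift T ℤ]
  [∀ n : ℤ, (shiftFunctor T n).Additive] [Pretriangulated T] [MonoidalCategory T]
  [SymmetricCategory T] [TensorTriangulated T]

/-- The left unital product of `V = S / q`. -/
theorem exists_mul [HasCoproducts.{0} T] {q : ℤ} {V : T} {i : 𝟙_ T ⟶ V} {δ : V ⟶ (𝟙_ T)⟦(1 : ℤ)⟧}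
    (hC : Triangle.mk (q • 𝟙 (𝟙_ T)) i δ ∈ distTriang T) (hV : q • 𝟙 V = 0) :
    ∃ m : V ⊗ V ⟶ V, (i ▷ V) ≫ m = (λ_ V).hom := by
  obtain ⟨b, hb⟩ := (Vale.Agent.P236Z.Dt.dist_red hC V).desc₂ (𝟙 V)
    (by rw [Category.comp_id, hV])
  refine ⟨(β_ V V).hom ≫ b, ?_⟩
  rw [Vale.Agent.P236Z.Dt.red, Category.assoc, Iso.inv_comp_eq, Category.comp_id] at hb
  rw [BraidedCategory.braiding_naturality_left_assoc, hb, braiding_rightUnitor]

section Tower

variable {R : T} [MonObj R] (U : UnitCof R)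

lemma sh_sh_comp {P Z Y : T} {n t t' s s' : ℤ} (h : n + t = s) (h' : n + t' = s')
    (ht : t + 1 = t') (hs : s + 1 = s') (c : P⟦n⟧ ⟶ Z) (g : Z⟦t⟧ ⟶ Y) :
    sh s 1 s' hs (sh n t s h c ≫ g) = sh n t' s' h' c ≫ sh t 1 t' ht g := by
  have e1 := shiftFunctorAdd'_assoc_hom_app (C := T) n t 1 s t' s' h ht (by rw [h, hs]) P
  have e2 : c⟦t'⟧' ≫ (shiftFunctorAdd' T t 1 t' ht).hom.app Z =
      (shiftFunctorAdd' T t 1 t' ht).hom.app (P⟦n⟧) ≫ (c⟦t⟧')⟦(1 : ℤ)⟧' :=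
    (shiftFunctorAdd' T t 1 t' ht).hom.naturality c
  simp only [sh, AddEquiv.coe_mk, Equiv.coe_fn_mk, Functor.map_comp, Category.assoc]
  rw [reassoc_of% e2, ← reassoc_of% e1]

lemma pj_sh {P Z : T} (r : ℕ) (A : T) {n t t' s s' : ℤ} (h : n + t = s) (h' : n + t' = s')
    (ht : t + (r : ℤ) = t') (hs : s + (r : ℤ) = s') (c : P⟦n⟧ ⟶ Z)
    (g : Z⟦t'⟧ ⟶ U.cobar.B r A) :
    pj U P r A s s' hs (sh n t' s' h' c ≫ g) = sh n t s h c ≫ pj U Z r A t t' ht g := by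
  induction r generalizing A t s with
  | zero =>
    obtain rfl : t' = t := by rw [← ht]; simp
    obtain rfl : s' = s := by rw [← hs]; simp
    rfl
  | succ r ih =>
    have ht' : t + 1 + (r : ℤ) = t' := by rw [← ht]; push_cast; ring
    have hs' : s + 1 + (r : ℤ) = s' := by rw [← hs]; push_cast; ring
    have h1 : n + (t + 1) = s + 1 := by rw [← h]; ring
    rw [pj_succ U r A s s' hs hs', AddEquiv.symm_apply_eq, sh_sh_comp h h1 rfl rfl,
      pj_succ U r A t t' ht ht', AddEquiv.apply_symm_apply, ← Category.assoc]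
    exact congrArg (· ≫ U.bdry A) (ih (U.J ⊗ A) h1 ht' hs' g)

lemma pj_xch (a s : ℕ) {Z A : T} {t t' : ℤ} (h : t + (s : ℤ) = t') (c : Z⟦t'⟧ ⟶ U.cobar.B s A) :
    pj U (U.cobar.B a Z) s (U.cobar.B a A) t t' h
      (U.κB t' a Z ≫ U.cobar.Bm a c ≫ xch U a s A) =
      U.κB t a Z ≫ U.cobar.Bm a (pj U Z s A t t' h c) := by
  induction a generalizing Z A with
  | zero =>
    exact (congrArg (pj U Z s A t t' h) ((Category.id_comp _).trans (Category.comp_id _))).trans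
      (Category.id_comp _).symm
  | succ a ih =>
    have e : U.κB t' (a + 1) Z ≫ U.cobar.Bm (a + 1) c ≫ xch U (a + 1) s A =
        U.κB t' a (U.J ⊗ Z) ≫ U.cobar.Bm a (lt U.J c ≫ inB U U.J s A) ≫
          xch U a s (U.J ⊗ A) := by
      rw [lt, UnitCof.κB_succ, xch_succ, CobarData.Bm_succ]
      simp only [CobarData.Bm_comp, Category.assoc]
    rw [e]
    refine (ih _).trans ?_
    rw [pj_in, lt, CobarData.Bm_comp, UnitCof.κB_succ, Category.assoc]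
    rfl

lemma ext_unit (a : ℕ) {Z A : T} {M : ℤ} (c : Z⟦M⟧ ⟶ A) :
    ext U a (c ≫ unitMap R A) = (U.κB M a Z ≫ U.cobar.Bm a c) ≫ unitMap R _ := by
  rw [ext, CobarData.Bm_comp, Category.assoc, Bm_unit_mvB, Category.assoc]

lemma gV_unit {V A : T} (a : V ⊗ A ⟶ A) {M : ℤ} (c : (𝟙_ T)⟦M⟧ ⟶ A) :
    gV a (c ≫ unitMap R A) = (((ρ_ V).inv)⟦M⟧' ≫ lt V c ≫ a) ≫ unitMap R A := by
  rw [gV, lt_comp]
  simp only [Category.assoc]
  rw [whisker_unitMap_sw_assoc, ← unitMap_nat]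

lemma null_iff {P V : T} {s t a : ℕ} (h : s + t = a) {n k k' : ℤ} (h2 : n + (a : ℤ) = k')
    (hk : k + (s : ℤ) = k') (y : ((U.tow V).couple P).E a n) :
    Null ((U.tow V).couple P) t y ↔ ∃ c : P⟦k'⟧ ⟶ U.cobar.B s (U.cobar.B t V),
      pj U P s (U.cobar.B t V) k k' hk c = 0 ∧
        c ≫ unitMap R _ = tE U P V h2 y ≫ (R ◁ bc U h V) := by
  have ht : t ≤ a := by omega
  have h1 : n + (t : ℤ) = k := by omega
  have key : ∀ c : ((U.tow V).couple P).D a n,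
      (((U.tow V).couple P).proj n ht c = 0 ∧ ((U.tow V).couple P).j a n c = y) ↔
      (pj U P s (U.cobar.B t V) k k' hk (tD U P V h2 c ≫ bc U h V) = 0 ∧
      (tD U P V h2 c ≫ bc U h V) ≫ unitMap R _ = tE U P V h2 y ≫ (R ◁ bc U h V)) := by
    intro c
    rw [Category.assoc, unitMap_nat, ← Category.assoc, ← tE_j, cancel_mono,
      (tE U P V h2).injective.eq_iff, ← tD_proj U s h ht h1 h2 hk, AddEquiv.map_eq_zero_iff]
  constructor
  · rintro ⟨_, c, hc⟩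
    exact ⟨_, (key c).1 hc⟩
  · rintro ⟨c, hc⟩
    obtain ⟨c', rfl⟩ : ∃ c' : ((U.tow V).couple P).D a n, tD U P V h2 c' ≫ bc U h V = c :=
      ⟨(tD U P V h2).symm (c ≫ inv (bc U h V)), by
        rw [AddEquiv.apply_symm_apply, Category.assoc, IsIso.inv_hom_id, Category.comp_id]⟩
    exact ⟨ht, c', (key c').2 hc⟩

end Tower

variable [HasCoproducts.{0} T] {D : MUData T} {U : UnitCof D.R} {V : T} {i : 𝟙_ T ⟶ V}

theorem perm_iff {a : ℕ} {w : ℤ} (x : Cob.wt Laz a w) :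
    Perm D U i x ↔ ∃ c : (𝟙_ T)⟦2 * w⟧ ⟶ U.cobar.B a V, c ≫ unitMap D.R _ = Xi D U i x := by
  have h1 : (2 * w - a) + (a : ℤ) = 2 * w := by ring
  rw [← tE_fE_cls D U i h1]
  constructor
  · intro H
    obtain ⟨c, hj⟩ := H.elim h1
    refine ⟨tD U _ V h1 ((TV U V).fD (𝟙_ T) a _ c), ?_⟩
    rw [← tE_j, Tow.Mor.j_fD]
    exact congrArg _ (congrArg _ hj)
  · rintro ⟨c, hj⟩
    obtain ⟨c, rfl⟩ := (tD U _ V h1).surjective c
    obtain ⟨c, rfl⟩ := (fD_bijective (TV U V) (𝟙_ T) a _).2 c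
    rw [← tE_j, Tow.Mor.j_fD] at hj
    exact ⟨_, h1, c, fE_injective (TV U V) (𝟙_ T) _ _ ((tE U _ V h1).injective hj)⟩

theorem bd_iff_map {s t a : ℕ} (h : s + t = a) {w k : ℤ} (hk : k + (s : ℤ) = 2 * w)
    (y : Cob.wt Laz a w) :
    Bd D U i t y ↔ ∃ c : (𝟙_ T)⟦2 * w⟧ ⟶ U.cobar.B s (U.cobar.B t V),
      pj U (𝟙_ T) s (U.cobar.B t V) k (2 * w) hk c = 0 ∧
        c ≫ unitMap D.R _ = Xi D U i y ≫ (D.R ◁ bc U h V) := by
  have h1 : (2 * w - a) + (a : ℤ) = 2 * w := by ring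
  rw [← tE_fE_cls D U i h1, ← null_iff U h h1 hk]
  constructor
  · intro H
    obtain ⟨c, hc, hj⟩ := H.elim h1 H.le
    refine ⟨H.le, (TV U V).fD (𝟙_ T) a _ c, ?_, ?_⟩
    · rw [proj_fD]
      exact (congrArg _ hc).trans (map_zero _)
    · rw [Tow.Mor.j_fD]
      exact congrArg _ hj
  · rintro ⟨ht, c, hc, hj⟩
    obtain ⟨c, rfl⟩ := (fD_bijective (TV U V) (𝟙_ T) a _).2 c
    rw [proj_fD] at hc
    rw [Tow.Mor.j_fD] at hj
    exact ⟨_, h1, ht, c, (fD_bijective (TV U V) (𝟙_ T) _ _).1 (hc.trans (map_zero _).symm),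
      fE_injective (TV U V) (𝟙_ T) _ _ hj⟩

variable {m : V ⊗ V ⟶ V} (hm : (i ▷ V) ≫ m = (λ_ V).hom)
  {a b c : ℕ} (h : a + b = c) {w v u : ℤ} (k : w + v = u)
  {x : Cob.wt Laz a w} {y : Cob.wt Laz b v}

include hm

/-- The product of two permanent cycles. -/
theorem Perm.mul (Hx : Perm D U i x) (Hy : Perm D U i y) : Perm D U i (cupw h k x y) := by
  obtain ⟨c, hc⟩ := (perm_iff x).1 Hx
  obtain ⟨c', hc'⟩ := (perm_iff y).1 Hy
  have s1 : 2 * w + 2 * v = 2 * u := by omega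
  have e := pr_Xi hm h k s1 x y (hc' ▸ coc_unit c')
  rw [← hc, ← hc', gV_unit, pr_unit_left, ext_unit, ← Category.assoc] at e
  obtain ⟨c₁, e⟩ : ∃ c₁ : (𝟙_ T)⟦2 * u⟧ ⟶ U.cobar.B a (U.cobar.B b V),
    c₁ ≫ unitMap D.R _ = Xi D U i (cupw h k x y) ≫ (D.R ◁ bc U h V) := ⟨_, e⟩
  refine (perm_iff _).2 ⟨c₁ ≫ inv (bc U h V), ?_⟩
  rw [Category.assoc, unitMap_nat, ← Category.assoc, e, Category.assoc,
    ← MonoidalCategory.whiskerLeft_comp, IsIso.hom_inv_id, MonoidalCategory.whiskerLeft_id,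
    Category.comp_id]

/-- The product of a boundary and a permanent cycle. -/
theorem Bd.mul_perm (hv : 0 ≤ v) {t t' : ℕ} (ht : t + b = t') (Hx : Bd D U i t x)
    (Hy : Perm D U i y) : Bd D U i t' (cupw h k x y) := by
  obtain ⟨n, rfl⟩ := Int.eq_ofNat_of_zero_le hv
  obtain ⟨s, hs⟩ : ∃ s, s + t = a := ⟨a - t, by have := Hx.le; omega⟩
  have k1 : (2 * w - s) + (s : ℤ) = 2 * w := by ring
  have k2 : (2 * u - s) + (s : ℤ) = 2 * u := by ring
  have s1 : 2 * w + 2 * (n : ℤ) = 2 * u := by omega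
  obtain ⟨cx, hc0, hc⟩ := (bd_iff_map hs k1 x).1 Hx
  obtain ⟨c', hc'⟩ := (perm_iff y).1 Hy
  have e := pr_bc U hs s1 (Xi D U i x) (gV (actB U m b) (Xi D U i y))
  rw [pr_Xi hm h k s1 x y (hc' ▸ coc_unit c'), ← hc, ← hc', gV_unit, ext_unit, pr_unit_left,
    ext_unit] at e
  have e0 := (B_add U ht V).symm
  refine (bd_iff_map (show s + t' = c by omega) k2 _).2
    ⟨((sh _ _ _ s1 cx ≫ U.κB _ s _) ≫ U.cobar.Bm s (U.κB _ t V ≫ U.cobar.Bm t
      (((ρ_ V).inv)⟦2 * (n : ℤ)⟧' ≫ lt V c' ≫ actB U m b))) ≫ U.cobar.Bm s (eqToHom e0), ?_, ?_⟩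
  · rw [pj_nat, pj_nat, pj_κB U n s _ k1 k2 (by omega) s1, hc0, map_zero, zero_comp, zero_comp]
  · rw [Category.assoc, unitMap_nat (U.cobar.Bm s (eqToHom e0)), ← Category.assoc,
      Category.assoc (sh _ _ _ s1 cx), Category.assoc (sh _ _ _ s1 cx), e, Bm_eqToHom, bc, bc, bc]
    simp only [Category.assoc, ← MonoidalCategory.whiskerLeft_comp, eqToHom_trans]

/-- The product of a permanent cycle and a boundary. -/
theorem Perm.mul_bd {t t' : ℕ} (ht : a + t = t') (Hx : Perm D U i x) (Hy : Bd D U i t y) :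
    Bd D U i t' (cupw h k x y) := by
  obtain ⟨s, hs⟩ : ∃ s, s + t = b := ⟨b - t, by have := Hy.le; omega⟩
  have k1 : (2 * v - s) + (s : ℤ) = 2 * v := by ring
  have k2 : (2 * u - s) + (s : ℤ) = 2 * u := by ring
  have s1 : 2 * w + 2 * v = 2 * u := by omega
  have hc : s + t' = c := by omega
  obtain ⟨cy, hc0, hcy⟩ := (bd_iff_map hs k1 y).1 Hy
  obtain ⟨cx, hcx⟩ := (perm_iff x).1 Hx
  obtain ⟨cy', hcy'⟩ := (perm_iff y).1 Hy.perm
  have e0 := (B_add U ht V).symm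
  obtain ⟨cg, hg0, hg⟩ : ∃ cg : V⟦2 * v⟧ ⟶ U.cobar.B s (U.cobar.B t V),
      pj U V s (U.cobar.B t V) _ _ k1 cg = 0 ∧
      cg ≫ unitMap D.R _ = gV (actB U m b) (Xi D U i y) ≫ (D.R ◁ bc U hs V) := by
    refine ⟨((ρ_ V).inv)⟦2 * v⟧' ≫ (lt V cy ≫ inB U V s _) ≫ U.cobar.Bm s (actB U m t), ?_, ?_⟩
    · rw [pj_pre, pj_nat, pj_in, hc0, lt, MonoidalPreadditive.whiskerLeft_zero, comp_zero,
        zero_comp, comp_zero]
    · rw [← gV_nat (actB_bc U m hs), ← hcy, gV_unit, Category.assoc (lt V cy)]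
  have z1 : pr U a s1 (Xi D U i x) (cg ≫ unitMap D.R _) =
      Xi D U i (cupw h k x y) ≫ (D.R ◁ bc U h V) ≫ (D.R ◁ U.cobar.Bm a (bc U hs V)) := by
    rw [hg, pr_nat, pr_Xi hm h k s1 x y (hcy' ▸ coc_unit cy'), Category.assoc]
  have z2 : pr U a s1 (Xi D U i x) (cg ≫ unitMap D.R _) =
      (sh _ _ _ s1 cx ≫ U.κB _ a V ≫ U.cobar.Bm a cg) ≫ unitMap D.R _ := by
    rw [← hcx, pr_unit_left, ext_unit]
    simp only [Category.assoc]
  have z3 : pj U (𝟙_ T) s (U.cobar.B t' V) _ _ k2 ((sh _ _ _ s1 cx ≫ U.κB _ a V ≫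
      U.cobar.Bm a cg ≫ xch U a s _) ≫ U.cobar.Bm s (eqToHom e0)) = 0 := by
    rw [pj_nat, pj_sh U s _ (show 2 * w + (2 * v - s) = 2 * u - s by omega) s1 k1 k2, pj_xch, hg0,
      CobarData.Bm_zero', comp_zero, comp_zero, zero_comp]
  have z4 : ((sh _ _ _ s1 cx ≫ U.κB _ a V ≫ U.cobar.Bm a cg ≫ xch U a s _) ≫
      U.cobar.Bm s (eqToHom e0)) ≫ unitMap D.R _ =
      (pr U a s1 (Xi D U i x) (cg ≫ unitMap D.R _) ≫ (D.R ◁ xch U a s _)) ≫
        (D.R ◁ U.cobar.Bm s (eqToHom e0)) := by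
    rw [z2]
    simp only [Category.assoc]
    rw [← unitMap_nat_assoc, ← unitMap_nat]
  generalize (sh _ _ _ s1 cx ≫ U.κB _ a V ≫ U.cobar.Bm a cg ≫ xch U a s _) ≫
      U.cobar.Bm s (eqToHom e0) = ce at z3 z4
  rcases s with _ | s
  · obtain rfl : cg = 0 := by
      obtain e : 2 * v - ((0 : ℕ) : ℤ) = 2 * v := by simp
      revert hg0
      generalize 2 * v - ((0 : ℕ) : ℤ) = l at k1 e
      subst e
      exact id
    rw [zero_comp, pr, ext, CobarData.Bm_zero', zero_comp, comp_zero, oc,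
      MonoidalPreadditive.whiskerLeft_zero, comp_zero, comp_zero, zero_comp, eq_comm,
      ← MonoidalCategory.whiskerLeft_comp, bc, bc, Bm_eqToHom, eqToHom_trans,
      Preadditive.IsIso.comp_right_eq_zero] at z1
    exact (bd_iff_map hc k2 _).2 ⟨0, map_zero _, by rw [z1, zero_comp, zero_comp]⟩
  · obtain ⟨e, w', hw'⟩ := ((cbo_xch U a s _ _ (z2 ▸ coc_unit _)).cast
      (congrArg (U.cobar.B (s + 1)) e0)).obj (congrArg (U.cobar.B s) e0)
    have H : Bd D U i t' ((-1 : ℤ) ^ (a * (s + 1)) • cupw h k x y) := by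
      refine (bd_iff_map hc k2 _).2 ⟨ce - w' ≫ U.cobar.k s _, ?_, ?_⟩
      · rw [map_sub, z3, pj_k, sub_zero]
      · rw [Preadditive.sub_comp, z4, k_eq, Category.assoc w', Category.assoc (U.ρ ▷ _), ← hw',
          Bm_eqToHom, Preadditive.sub_comp, sub_sub_cancel, Xi_zsmul, Preadditive.zsmul_comp,
          Preadditive.zsmul_comp, z1, bc, bc, bc, Bm_eqToHom]
        simp only [Category.assoc, ← MonoidalCategory.whiskerLeft_comp, eqToHom_trans]
    have H' := H.zsmul ((-1 : ℤ) ^ (a * (s + 1)))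
    rwa [smul_smul, ← mul_pow, neg_one_mul, neg_neg, one_pow, one_smul] at H'

variable [IsTriangulated T]

/-- A differential times a permanent cycle. -/
theorem Dif.mul_perm {a' c' : ℕ} {w' u' : ℤ} {x' : Cob.wt Laz a' w'} (hl : a + 3 ≤ a')
    (hv : 0 ≤ v) (h' : a' + b = c') (k' : w' + v = u') (Hx : Dif D U i x x')
    (Hy : Perm D U i y) : Dif D U i (cupw h k x y) (cupw h' k' x' y) := by
  have d := Hx.deg
  have H := Dif.leibniz hm hl hv h h' (show a + (b + (a' - a)) = c' by omega) k k'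
    (show w + (v + (w' - w)) = u' by omega) Hx (Hy.dif_zero (by omega) (by omega))
  rwa [cupw_zero_right, smul_zero, add_zero] at H

/-- A permanent cycle times a differential. -/
theorem Perm.mul_dif {b' c' : ℕ} {v' u' : ℤ} {y' : Cob.wt Laz b' v'} (hl : b + 3 ≤ b')
    (hv : 0 ≤ v) (h' : a + b' = c') (k' : w + v' = u') (Hx : Perm D U i x)
    (Hy : Dif D U i y y') : Dif D U i (cupw h k x y) ((-1 : ℤ) ^ a • cupw h' k' x y') := by
  have d := Hy.deg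
  have H := Dif.leibniz hm (show a + 3 ≤ a + (b' - b) by omega) hv h
    (show a + (b' - b) + b = c' by omega) h' k
    (show w + (v' - v) + v = u' by omega) k' (Hx.dif_zero (by omega) (by omega)) Hy
  rwa [cupw_zero_left, zero_add] at H

end Vale.Agent.P236L
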