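import Vale.Agent.P236L.CupAlg
import Vale.Agent.P236K.Spec

/-!
# P236: graded commutativity of the cup product

The reversal of the vertices, with the sign `eps`, is homotopic to the identity (prism operator
`tP`); it exchanges the two factors of a cup product.
-/

set_option linter.unusedSectionVars false

namespace Vale.Agent.P236L

open Vale.Agent.P251 Vale.Agent.P251.F Vale.Agent.P251.I Vale.Agent.P257.H314

section Tuples

/-- Formal combinations of tuples of length `m`. -/
abbrev Tu (m : ℕ) (V : Type) : Type := FreeAbelianGroup (Fin m → V)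

variable {V W : Type} {m : ℕ}

/-- The cone on a vertex. -/
def tcons (v : V) : Tu m V →+ Tu (m + 1) V :=
  FreeAbelianGroup.lift fun t => FreeAbelianGroup.of (Fin.cons v t : Fin (m + 1) → V)

/-- The boundary. -/
def tbd : Tu (m + 1) V →+ Tu m V :=
  FreeAbelianGroup.lift fun t =>
    ∑ i : Fin (m + 1), ((-1 : ℤ) ^ (i : ℕ)) • FreeAbelianGroup.of (t ∘ i.succAbove)

/-- The sign of the reversal of `m` letters. -/
def eps : ℕ → ℤ
  | 0 => 1
  | m + 1 => (-1) ^ m * eps m

/-- The signed reversal. -/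
def trev : Tu m V →+ Tu m V :=
  FreeAbelianGroup.lift fun t => eps m • FreeAbelianGroup.of (t ∘ Fin.rev)

/-- The direct image. -/
def tmap (α : V → W) : Tu m V →+ Tu m W :=
  FreeAbelianGroup.lift fun t => FreeAbelianGroup.of (α ∘ t)

/-- The prism operator. -/
def tP : ∀ m : ℕ, Tu m V →+ Tu (m + 1) V
  | 0 => 0
  | m + 1 => FreeAbelianGroup.lift fun t => tcons (t 0) (trev (FreeAbelianGroup.of t)) -
      tcons (t 0) (tP m (FreeAbelianGroup.of (Fin.tail t)))

lemma tcons_of (v : V) (t : Fin m → V) :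
    tcons v (FreeAbelianGroup.of t) = FreeAbelianGroup.of (Fin.cons v t : Fin (m + 1) → V) :=
  FreeAbelianGroup.lift_apply_of _ _

lemma tbd_of (t : Fin (m + 1) → V) : tbd (FreeAbelianGroup.of t) =
    ∑ i : Fin (m + 1), ((-1 : ℤ) ^ (i : ℕ)) • FreeAbelianGroup.of (t ∘ i.succAbove) :=
  FreeAbelianGroup.lift_apply_of _ _

lemma trev_of (t : Fin m → V) :
    trev (FreeAbelianGroup.of t) = eps m • FreeAbelianGroup.of (t ∘ Fin.rev) :=
  FreeAbelianGroup.lift_apply_of _ _

lemma tmap_of (α : V → W) (t : Fin m → V) :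
    tmap α (FreeAbelianGroup.of t) = FreeAbelianGroup.of (α ∘ t) :=
  FreeAbelianGroup.lift_apply_of _ _

lemma tP_of (t : Fin (m + 1) → V) : tP (m + 1) (FreeAbelianGroup.of t) =
    tcons (t 0) (trev (FreeAbelianGroup.of t)) -
      tcons (t 0) (tP m (FreeAbelianGroup.of (Fin.tail t))) :=
  FreeAbelianGroup.lift_apply_of _ _

lemma tu_ext {A : Type} [AddCommGroup A] {f g : Tu m V →+ A}
    (h : ∀ t, f (FreeAbelianGroup.of t) = g (FreeAbelianGroup.of t)) (c : Tu m V) : f c = g c :=
  DFunLike.congr_fun (FreeAbelianGroup.lift_ext f g h) c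

lemma tbd_tcons (v : V) (c : Tu (m + 1) V) : tbd (tcons v c) = c - tcons v (tbd c) := by
  refine tu_ext (f := tbd.comp (tcons v)) (g := AddMonoidHom.id _ - (tcons v).comp tbd)
    (fun t => ?_) c
  change tbd (tcons v (.of t)) = .of t - tcons v (tbd (.of t))
  rw [tcons_of, tbd_of, tbd_of, Fin.sum_univ_succ, map_sum, sub_eq_add_neg,
    ← Finset.sum_neg_distrib]
  congr 1
  refine Finset.sum_congr rfl fun i _ => ?_
  have e : (Fin.cons v t : Fin (m + 2) → V) ∘ i.succ.succAbove =
      (Fin.cons v (t ∘ i.succAbove) : Fin (m + 1) → V) := by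
    funext k
    refine Fin.cases ?_ (fun k => ?_) k
    · simp
    · simp
  rw [map_zsmul, tcons_of, e, Fin.val_succ, pow_succ, mul_neg_one, neg_smul]

lemma tbd_trev (c : Tu (m + 1) V) : tbd (trev c) = trev (tbd c) := by
  refine tu_ext (f := tbd.comp trev) (g := trev.comp tbd) (fun t => ?_) c
  change tbd (trev _) = trev (tbd _)
  rw [trev_of, map_zsmul, tbd_of, tbd_of, map_sum, Finset.smul_sum,
    ← Equiv.sum_comp Fin.revPerm]
  refine Finset.sum_congr rfl fun i _ => ?_
  have e : (t ∘ Fin.rev) ∘ (Fin.revPerm i).succAbove = (t ∘ i.succAbove) ∘ Fin.rev := by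
    funext k
    simp [Fin.rev_succAbove]
  have e2 : eps (m + 1) * (-1) ^ ((Fin.revPerm i : Fin (m + 1)) : ℕ) = (-1) ^ (i : ℕ) * eps m := by
    have e3 : m = (i : ℕ) + ((Fin.revPerm i : Fin (m + 1)) : ℕ) := by
      have := i.2
      simp only [Fin.revPerm_apply, Fin.val_rev]
      omega
    generalize ((Fin.revPerm i : Fin (m + 1)) : ℕ) = j at e3
    have e4 : ((-1 : ℤ) ^ j) * (-1) ^ j = 1 := by rw [← mul_pow]; simp
    have e5 : ((-1 : ℤ) ^ m) = (-1) ^ (i : ℕ) * (-1) ^ j := by rw [← pow_add, ← e3]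
    rw [eps, e5]
    linear_combination ((-1 : ℤ) ^ (i : ℕ) * eps m) * e4
  rw [e, map_zsmul, trev_of, smul_smul, smul_smul, e2]

lemma tP_tcons (v : V) (c : Tu m V) :
    tP (m + 1) (tcons v c) = tcons v (trev (tcons v c)) - tcons v (tP m c) := by
  refine tu_ext (f := (tP (m + 1)).comp (tcons v))
    (g := ((tcons v).comp trev).comp (tcons v) - (tcons v).comp (tP m)) (fun t => ?_) c
  change tP (m + 1) (tcons v (.of t)) =
    tcons v (trev (tcons v (.of t))) - tcons v (tP m (.of t))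
  rw [tcons_of, tP_of, Fin.cons_zero, Fin.tail_cons]

/-- The prism operator is a homotopy between the signed reversal and the identity. -/
theorem tbd_tP (c : Tu (m + 1) V) : tbd (tP (m + 1) c) + tP m (tbd c) = trev c - c := by
  induction m with
  | zero =>
    refine tu_ext (f := tbd.comp (tP 1) + (tP 0).comp tbd) (g := trev - AddMonoidHom.id _)
      (fun t => ?_) c
    change tbd (tP 1 _) + 0 = trev _ - FreeAbelianGroup.of t
    have e : t ∘ Fin.rev = t := by
      funext k
      exact congrArg t (Subsingleton.elim (α := Fin 1) _ _)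
    have e1 : trev (FreeAbelianGroup.of t) = FreeAbelianGroup.of t := by
      rw [trev_of, e]
      exact one_smul _ _
    have e2 : tcons (t 0) (tbd (FreeAbelianGroup.of t)) = FreeAbelianGroup.of t := by
      rw [tbd_of, Fin.sum_univ_one, map_zsmul, tcons_of, Fin.val_zero, pow_zero, one_smul]
      congr 1
      funext k
      exact congrArg t (Subsingleton.elim (α := Fin 1) _ _) ▸ (by
        refine Fin.cases rfl (fun k => k.elim0) k)
    rw [tP_of, e1, map_sub, tbd_tcons, e2]
    change _ - tbd (tcons (t 0) 0) + 0 = _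
    rw [map_zero, map_zero, sub_zero, add_zero]
  | succ m ih =>
    refine tu_ext (f := tbd.comp (tP (m + 2)) + (tP (m + 1)).comp tbd)
      (g := trev - AddMonoidHom.id _) (fun t => ?_) c
    change tbd (tP (m + 2) _) + tP (m + 1) (tbd _) = trev _ - FreeAbelianGroup.of t
    have e : FreeAbelianGroup.of t = tcons (t 0) (FreeAbelianGroup.of (Fin.tail t)) := by
      rw [tcons_of, Fin.cons_self_tail]
    rw [e]
    generalize FreeAbelianGroup.of (Fin.tail t) = l
    have h := congrArg (tcons (t 0)) (ih l)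
    rw [map_add, map_sub] at h
    rw [tP_tcons, map_sub, tbd_tcons, tbd_tcons, tbd_trev, tbd_tcons, map_sub, map_sub, map_sub,
      tP_tcons]
    rw [← sub_eq_zero] at h ⊢
    rw [← h]
    abel

lemma tmap_tcons (α : V → W) (v : V) (c : Tu m V) :
    tmap α (tcons v c) = tcons (α v) (tmap α c) := by
  refine tu_ext (f := (tmap α).comp (tcons v)) (g := (tcons (α v)).comp (tmap α)) (fun t => ?_) c
  change tmap α (tcons v _) = tcons (α v) (tmap α _)
  rw [tcons_of, tmap_of, tmap_of, tcons_of, Fin.comp_cons]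

lemma tmap_tP (α : V → W) (c : Tu m V) : tmap α (tP m c) = tP m (tmap α c) := by
  induction m with
  | zero => exact map_zero _
  | succ m ih =>
    refine tu_ext (f := (tmap α).comp (tP (m + 1))) (g := (tP (m + 1)).comp (tmap α))
      (fun t => ?_) c
    change tmap α (tP (m + 1) _) = tP (m + 1) (tmap α _)
    rw [tP_of, map_sub, tmap_tcons, tmap_tcons, ih, tmap_of, tmap_of, tP_of, trev_of, trev_of,
      map_zsmul, tmap_of]
    rfl

end Tuples

section Act

variable {N : Type} [CommRing N] [LawRing N] {m n l : ℕ}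

/-- The action of formal combinations of tuples on cochains. -/
noncomputable def tact (z : Cob N m) : Tu (m + 1) (Fin (n + 1)) →+ Cob N n :=
  FreeAbelianGroup.lift fun t => Cob.map t z

lemma tact_of (z : Cob N m) (t : Fin (m + 1) → Fin (n + 1)) :
    tact z (FreeAbelianGroup.of t) = Cob.map t z :=
  FreeAbelianGroup.lift_apply_of _ _

lemma tact_d (z : Cob N m) (c : Tu (m + 2) (Fin (n + 1))) :
    tact (Cob.d m z) c = tact z (tbd c) := by
  refine tu_ext (f := tact (Cob.d m z)) (g := (tact z).comp tbd) (fun t => ?_) c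
  change _ = tact z (tbd (.of t))
  rw [tact_of, tbd_of, Cob.d_apply, map_sum, map_sum]
  refine Finset.sum_congr rfl fun i _ => ?_
  rw [map_zsmul, map_zsmul, tact_of, Cob.map_map]

lemma map_tact (α : Fin (n + 1) → Fin (l + 1)) (z : Cob N m) (c : Tu (m + 1) (Fin (n + 1))) :
    Cob.map α (tact z c) = tact z (tmap α c) := by
  refine tu_ext (f := (Cob.map α : Cob N n →+* Cob N l).toAddMonoidHom.comp (tact z))
    (g := (tact z).comp (tmap α)) (fun t => ?_) c
  change Cob.map α (tact z (.of t)) = tact z (tmap α (.of t))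
  rw [tact_of, tmap_of, tact_of, Cob.map_map]

lemma tact_mem (z : Cob N m) (S : AddSubgroup (Cob N n))
    (h : ∀ t : Fin (m + 1) → Fin (n + 1), Cob.map t z ∈ S) (c : Tu (m + 1) (Fin (n + 1))) :
    tact z c ∈ S := by
  induction c using FreeAbelianGroup.induction_on with
  | zero => rw [map_zero]; exact zero_mem _
  | of t => rw [tact_of]; exact h t
  | neg t ht => rw [map_neg]; exact neg_mem ht
  | add a b ha hb => rw [map_add]; exact add_mem ha hb

/-- The signed reversal of a cochain. -/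
noncomputable def crev (z : Cob N n) : Cob N n := eps (n + 1) • Cob.map Fin.rev z

/-- The homotopy. -/
noncomputable def chom (z : Cob N (n + 1)) : Cob N n :=
  tact z (tP (n + 1) (FreeAbelianGroup.of id))

theorem crev_sub (z : Cob N (n + 1)) :
    crev z - z = chom (Cob.d (n + 1) z) + Cob.d n (chom z) := by
  have h := congrArg (tact z)
    (tbd_tP (FreeAbelianGroup.of (id : Fin (n + 2) → Fin (n + 2))))
  rw [map_sub, map_add, trev_of, map_zsmul, tact_of, tact_of, Cob.map_id, ← tact_d] at h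
  refine h.symm.trans ?_
  congr 1
  rw [tbd_of, map_sum, map_sum, Cob.d_apply]
  refine Finset.sum_congr rfl fun i _ => ?_
  rw [map_zsmul, map_zsmul, chom, map_tact, tmap_tP, tmap_of]
  rfl

lemma crev_zero (z : Cob N 0) : crev z = z := by
  have e : (Fin.rev : Fin 1 → Fin 1) = id := funext fun _ => Subsingleton.elim _ _
  rw [crev, e, Cob.map_id]
  exact one_smul _ _

lemma isWt_crev {w : ℤ} {z : Cob N n} (hz : Cob.IsWt w z) : Cob.IsWt w (crev z) :=
  (hz.map _).zsmul _

lemma isWt_chom {w : ℤ} {z : Cob N (n + 1)} (hz : Cob.IsWt w z) : Cob.IsWt w (chom z) :=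
  tact_mem z (Cob.wt N n w) (fun t => hz.map t) _

lemma eps_add (a b : ℕ) : eps (a + b + 1) = (-1) ^ (a * b) * (eps (a + 1) * eps (b + 1)) := by
  induction b with
  | zero => simp [eps]
  | succ b ih =>
    rw [← add_assoc, eps, ih, eps.eq_2 (b + 1)]
    ring

lemma crev_cupc {a b c : ℕ} (h : a + b = c) (h' : b + a = c) (x : Cob N a) (y : Cob N b) :
    crev (cupc h x y) = (-1 : ℤ) ^ (a * b) • cupc h' (crev y) (crev x) := by
  have e1 : Fin.rev ∘ frontc h = backc h' ∘ Fin.rev := by
    funext k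
    ext
    have := k.2
    simp only [frontc, backc, Function.comp, Fin.val_rev]
    omega
  have e2 : Fin.rev ∘ backc h = frontc h' ∘ Fin.rev := by
    funext k
    ext
    have := k.2
    simp only [frontc, backc, Function.comp, Fin.val_rev]
    omega
  subst h
  rw [crev, crev, crev, cupc_zsmul_left, cupc_zsmul_right, smul_smul, smul_smul, eps_add, cupc,
    cupc, map_mul, Cob.map_map, Cob.map_map, Cob.map_map, Cob.map_map, e1, e2,
    mul_comm (Cob.map _ x)]
  congr 1
  ring

end Act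

section Comm

variable {p k : ℕ} [Fact p.Prime]

variable (p k) in
/-- Coboundaries modulo `IC p k`. -/
def Cbd : ∀ {s : ℕ} {w : ℤ}, Cob.wt Laz s w → Prop
  | 0, _, z => z.1 ∈ IC p k 0
  | s + 1, w, z => ∃ y : Cob.wt Laz s w, z.1 - Cob.d s y.1 ∈ IC p k (s + 1)

variable {s : ℕ} {w : ℤ}

lemma cbd_of_mem {z : Cob.wt Laz s w} (hz : z.1 ∈ IC p k s) : Cbd p k z := by
  cases s with
  | zero => exact hz
  | succ s => exact ⟨0, by simpa using hz⟩

lemma cbd_zero : Cbd p k (0 : Cob.wt Laz s w) := cbd_of_mem (zero_mem _)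

lemma cbd_d (y : Cob.wt Laz s w) : Cbd p k (Cob.dwt Laz s w y) :=
  ⟨y, by rw [Cob.coe_dwt, sub_self]; exact zero_mem _⟩

lemma Cbd.add {z z' : Cob.wt Laz s w} (h : Cbd p k z) (h' : Cbd p k z') : Cbd p k (z + z') := by
  cases s with
  | zero => exact add_mem h h'
  | succ s =>
    obtain ⟨y, hy⟩ := h
    obtain ⟨y', hy'⟩ := h'
    refine ⟨y + y', ?_⟩
    have := add_mem hy hy'
    rwa [sub_add_sub_comm, ← map_add] at this

lemma Cbd.zsmul {z : Cob.wt Laz s w} (h : Cbd p k z) (a : ℤ) : Cbd p k (a • z) := by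
  cases s with
  | zero => exact zsmul_mem h a
  | succ s =>
    obtain ⟨y, hy⟩ := h
    refine ⟨a • y, ?_⟩
    have := zsmul_mem hy a
    rwa [smul_sub, ← map_zsmul] at this

lemma Cbd.neg {z : Cob.wt Laz s w} (h : Cbd p k z) : Cbd p k (-z) := by
  have := h.zsmul (-1)
  rwa [neg_one_zsmul] at this

lemma Cbd.sub {z z' : Cob.wt Laz s w} (h : Cbd p k z) (h' : Cbd p k z') : Cbd p k (z - z') := by
  rw [sub_eq_add_neg]
  exact h.add h'.neg

lemma Cbd.cocycle {z : Cob.wt Laz (s + 1) w} (h : Cbd p k z) :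
    Cob.d (s + 1) z.1 ∈ IC p k (s + 2) := by
  obtain ⟨y, hy⟩ := h
  have := d_mem_IC hy
  rwa [map_sub, Cob.d_d, sub_zero] at this

variable {a b c : ℕ} (h : a + b = c) {v u : ℤ} (hw : w + v = u)

/-- A coboundary times a cocycle is a coboundary. -/
lemma Cbd.cup_left {x : Cob.wt Laz a w} (hx : Cbd p k x) {y : Cob.wt Laz b v}
    (hy : Cob.d b y.1 ∈ IC p k (b + 1)) : Cbd p k (cupw h hw x y) := by
  cases a with
  | zero => exact cbd_of_mem (cupc_mem_left h hx _)
  | succ a =>
    obtain ⟨e, he⟩ := hx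
    obtain rfl : c = a + b + 1 := by omega
    refine ⟨cupw rfl hw e y, ?_⟩
    rw [coe_cupw, coe_cupw, d_cupc rfl h (by omega), ← sub_sub, ← cupc_sub_left]
    exact sub_mem (cupc_mem_left _ he _) (zsmul_mem (cupc_mem_right _ _ hy) _)

/-- A cocycle times a coboundary is a coboundary. -/
lemma Cbd.cup_right {x : Cob.wt Laz a w} (hx : Cob.d a x.1 ∈ IC p k (a + 1))
    {y : Cob.wt Laz b v} (hy : Cbd p k y) : Cbd p k (cupw h hw x y) := by
  cases b with
  | zero => exact cbd_of_mem (cupc_mem_right h _ hy)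
  | succ b =>
    obtain ⟨e, he⟩ := hy
    obtain rfl : c = a + b + 1 := by omega
    refine ⟨(-1 : ℤ) ^ a • cupw rfl hw x e, ?_⟩
    have e4 : ((-1 : ℤ) ^ a) * (-1) ^ a = 1 := by rw [← mul_pow]; simp
    rw [AddSubgroup.coe_zsmul, map_zsmul, coe_cupw, coe_cupw, d_cupc rfl (by omega) h, smul_add,
      smul_smul, e4, one_smul, ← sub_sub, sub_right_comm, ← cupc_sub_right]
    exact sub_mem (cupc_mem_right _ _ he) (zsmul_mem (cupc_mem_left _ hx _) _)

/-- The signed reversal of a homogeneous cochain. -/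
noncomputable def wrev (z : Cob.wt Laz s w) : Cob.wt Laz s w := ⟨crev z.1, isWt_crev z.2⟩

lemma cbd_wrev_sub {z : Cob.wt Laz s w} (hz : Cob.d s z.1 ∈ IC p k (s + 1)) :
    Cbd p k (wrev z - z) := by
  cases s with
  | zero =>
    change crev z.1 - z.1 ∈ _
    rw [crev_zero, sub_self]
    exact zero_mem _
  | succ s =>
    refine ⟨⟨chom z.1, isWt_chom z.2⟩, ?_⟩
    change crev z.1 - z.1 - Cob.d s (chom z.1) ∈ _
    rw [crev_sub, add_sub_cancel_right]
    exact tact_mem _ (IC p k (s + 1)).toAddSubgroup (fun t => map_mem_IC t hz) _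

lemma wrev_cocycle {z : Cob.wt Laz s w} (hz : Cob.d s z.1 ∈ IC p k (s + 1)) :
    Cob.d s (wrev z).1 ∈ IC p k (s + 1) := by
  cases s with
  | zero =>
    change Cob.d 0 (crev z.1) ∈ _
    rwa [crev_zero]
  | succ s =>
    have := add_mem (cbd_wrev_sub hz).cocycle hz
    rwa [← map_add, AddSubgroup.coe_sub, sub_add_cancel] at this

/-- Graded commutativity of the cup product of cocycles modulo `IC p k`. -/
theorem cbd_comm (h' : b + a = c) (hw' : v + w = u) {x : Cob.wt Laz a w} {y : Cob.wt Laz b v}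
    (hx : Cob.d a x.1 ∈ IC p k (a + 1)) (hy : Cob.d b y.1 ∈ IC p k (b + 1)) :
    Cbd p k (cupw h hw x y - (-1 : ℤ) ^ (a * b) • cupw h' hw' y x) := by
  have h1 := cbd_wrev_sub (z := cupw h hw x y) (d_cupc_mem h hx hy)
  have h2 : wrev (cupw h hw x y) = (-1 : ℤ) ^ (a * b) • cupw h' hw' (wrev y) (wrev x) :=
    Subtype.ext (crev_cupc h h' _ _)
  have h3 := (cbd_wrev_sub hy).cup_left h' hw' (wrev_cocycle hx)
  have h4 := Cbd.cup_right h' hw' hy (cbd_wrev_sub hx)
  have h5 := ((h3.add h4).zsmul ((-1 : ℤ) ^ (a * b))).sub h1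
  rw [cupw_sub_left, cupw_sub_right, h2, sub_add_sub_cancel, smul_sub] at h5
  convert h5 using 1
  abel

end Comm

section Three

open Vale.Agent.P236K

variable {s T : ℕ}

lemma isB_iff (z : Co s T) : IsB z ↔ Cbd 3 1 z := by
  cases s <;> rfl

lemma isB_of_mem {z : Co s T} (hz : z.1 ∈ IC 3 1 s) : IsB z := (isB_iff z).2 (cbd_of_mem hz)

lemma isB_zero : IsB (0 : Co s T) := (isB_iff _).2 cbd_zero

lemma isB_add {z z' : Co s T} (h : IsB z) (h' : IsB z') : IsB (z + z') :=
  (isB_iff _).2 (((isB_iff _).1 h).add ((isB_iff _).1 h'))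

lemma isB_zsmul {z : Co s T} (h : IsB z) (a : ℤ) : IsB (a • z) :=
  (isB_iff _).2 (((isB_iff _).1 h).zsmul a)

lemma isB_neg {z : Co s T} (h : IsB z) : IsB (-z) := (isB_iff _).2 ((isB_iff _).1 h).neg

lemma isB_sub {z z' : Co s T} (h : IsB z) (h' : IsB z') : IsB (z - z') :=
  (isB_iff _).2 (((isB_iff _).1 h).sub ((isB_iff _).1 h'))

variable {a s' U T' : ℕ} (h : a + s = s') (hT : U + T = T')

lemma isZ_cupT {x : Co a U} {z : Co s T} (hx : IsZ x) (hz : IsZ z) : IsZ (cupT h hT x z) :=
  d_cupc_mem h hx hz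

lemma isB_cupT_left {x : Co a U} {z : Co s T} (hx : IsB x) (hz : IsZ z) :
    IsB (cupT h hT x z) :=
  (isB_iff _).2 (((isB_iff _).1 hx).cup_left h _ hz)

lemma isB_cupT_right {x : Co a U} {z : Co s T} (hx : IsZ x) (hz : IsB z) :
    IsB (cupT h hT x z) :=
  (isB_iff _).2 (Cbd.cup_right h _ hx ((isB_iff _).1 hz))

/-- Graded commutativity modulo `3`. -/
theorem isB_comm (h' : s + a = s') (hT' : T + U = T') {x : Co a U} {z : Co s T} (hx : IsZ x)
    (hz : IsZ z) : IsB (cupT h hT x z - (-1 : ℤ) ^ (a * s) • cupT h' hT' z x) :=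
  (isB_iff _).2 (cbd_comm h _ h' _ hx hz)

end Three

end Vale.Agent.P236L
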