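import Vale.Agent.P236L.Sph
import Vale.Agent.P257.H712.Main
import Vale.Agent.P236Z.Dt.Moore

/-!
# P236, block LEIB: differentials of the `MU` tower of `V` in terms of cochains

`V` is an object with a map `i : 𝟙 ⟶ V`, `C = CV U V` is the couple of the tower `(tow 𝟙) ⊗ V`.

* `cls D U i s w n h : Cob.wt Laz s w →+ C.E s n` (`n + s = 2 w`), the class of a cochain;
* `Dif D U i x y`: `x` (filtration `s`, weight `w`) survives to `E_{s' - s}` and the
  differential of `x` is represented by `y` (filtration `s'`, weight `w'`);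
* `Bd D U i t y`: `y` is killed by differentials from the filtrations `≥ t`;
* `Perm D U i x`: `x` is the class of an element of `D s n`;
* `Gen D U i 𝔞`: the cobar complex of `V` is `Cob Laz / 𝔞`;
* `cupw`: the cup product of homogeneous cochains, with explicit degrees.
-/

open CategoryTheory MonoidalCategory Limits Pretriangulated MonObj

set_option linter.unusedSectionVars false

universe v u

namespace Vale.Agent.P236L

open Vale.Agent.P251 Vale.Agent.P251.T Vale.Agent.P251.F Vale.Agent.P251.I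
  Vale.Agent.P251.M Vale.Agent.P257.H712
open Vale.Agent.P251.S hiding IC

section Algebra

variable {N : Type} [CommRing N] [LawRing N]

/-- The first `a + 1` vertices. -/
def frontc {a b c : ℕ} (h : a + b = c) : Fin (a + 1) → Fin (c + 1) := fun i => ⟨i, by omega⟩

/-- The last `b + 1` vertices. -/
def backc {a b c : ℕ} (h : a + b = c) : Fin (b + 1) → Fin (c + 1) := fun i => ⟨a + i, by omega⟩

/-- The cup product with an explicit degree. -/
noncomputable def cupc {a b c : ℕ} (h : a + b = c) (x : Cob N a) (y : Cob N b) : Cob N c :=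
  Cob.map (frontc h) x * Cob.map (backc h) y

lemma cupc_rfl {a b : ℕ} (x : Cob N a) (y : Cob N b) : cupc rfl x y = Cob.cup x y := rfl

lemma isWt_cupc {a b c : ℕ} (h : a + b = c) {w v u : ℤ} (hw : w + v = u) {x : Cob N a}
    {y : Cob N b} (hx : Cob.IsWt w x) (hy : Cob.IsWt v y) : Cob.IsWt u (cupc h x y) :=
  hw ▸ (hx.map _).mul (hy.map _)

/-- The cup product of homogeneous cochains. -/
noncomputable def cupw {a b c : ℕ} (h : a + b = c) {w v u : ℤ} (hw : w + v = u)
    (x : Cob.wt N a w) (y : Cob.wt N b v) : Cob.wt N c u :=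
  ⟨cupc h x.1 y.1, isWt_cupc h hw x.2 y.2⟩

@[simp] lemma coe_cupw {a b c : ℕ} (h : a + b = c) {w v u : ℤ} (hw : w + v = u)
    (x : Cob.wt N a w) (y : Cob.wt N b v) : (cupw h hw x y).1 = cupc h x.1 y.1 := rfl

end Algebra

variable {T : Type u} [Category.{v} T] [Preadditive T] [HasZeroObject T]
    [HasShift T ℤ] [∀ n : ℤ, (shiftFunctor T n).Additive] [Pretriangulated T]
    [MonoidalCategory T] [SymmetricCategory T] [TensorTriangulated T] [HasCoproducts.{0} T]
    (D : MUData T) (U : UnitCof D.R) {V : T} (i : 𝟙_ T ⟶ V)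

/-- The cochain `𝟙⟦2 w⟧ ⟶ Q (s+1) 𝟙 ⊗ V` of a homogeneous element of `Cob Laz s`. -/
noncomputable def coch (s : ℕ) (w : ℤ) : Cob.wt Laz s w →+
    ((𝟙_ T)⟦2 * w⟧ ⟶ (tensorRight V).obj (U.cobar.Q (s + 1) (𝟙_ T))) :=
  AddMonoidHom.mk' (fun z => (sM T w).inv ≫ phiV D U i s w z)
    fun z z' => by rw [map_add, Preadditive.comp_add]

lemma coch_apply (s : ℕ) (w : ℤ) (z : Cob.wt Laz s w) :
    coch D U i s w z = (sM T w).inv ≫ phiV D U i s w z := rfl

/-- The class of a cochain in the `E₁`-term. -/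
noncomputable def cls (s : ℕ) (w n : ℤ) (h : n + (s : ℤ) = 2 * w) :
    Cob.wt Laz s w →+ (CV U V).E s n :=
  (U.qE (𝟙_ T) (tensorRight V) (𝟙_ T) h).comp (coch D U i s w)

lemma cls_apply (s : ℕ) (w n : ℤ) (h : n + (s : ℤ) = 2 * w) (z : Cob.wt Laz s w) :
    cls D U i s w n h z = U.qE (𝟙_ T) (tensorRight V) (𝟙_ T) h (coch D U i s w z) := rfl

/-- `x` survives to `E_{s' - s}`, and its differential is represented by `y`. -/
def Dif {s s' : ℕ} {w w' : ℤ} (x : Cob.wt Laz s w) (y : Cob.wt Laz s' w') : Prop :=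
  ∃ (n m : ℤ) (hn : n = m + 1) (h : n + (s : ℤ) = 2 * w) (h' : m + (s' : ℤ) = 2 * w')
    (hs : s + 1 ≤ s') (c : (CV U V).D s' m),
    (CV U V).proj m hs c = (CV U V).k s n m hn (cls D U i s w n h x) ∧
      (CV U V).j s' m c = cls D U i s' w' m h' y

/-- `y` is killed by differentials from the filtrations `≥ t`. -/
def Bd (t : ℕ) {s : ℕ} {w : ℤ} (y : Cob.wt Laz s w) : Prop :=
  ∃ (n : ℤ) (h : n + (s : ℤ) = 2 * w), Null (CV U V) t (cls D U i s w n h y)

/-- `x` is a permanent cycle, the class of an element of `D s n`. -/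
def Perm {s : ℕ} {w : ℤ} (x : Cob.wt Laz s w) : Prop :=
  ∃ (n : ℤ) (h : n + (s : ℤ) = 2 * w) (c : (CV U V).D s n),
    (CV U V).j s n c = cls D U i s w n h x

/-- The cobar complex of `V` is `Cob Laz / 𝔞`. -/
structure Gen (𝔞 : ∀ s : ℕ, Ideal (Cob Laz s)) : Prop where
  surj (s : ℕ) (w : ℤ)
    (f : (stdEven T).S w ⟶ (tensorRight V).obj (U.cobar.Q (s + 1) (𝟙_ T))) :
    ∃ z : Cob.wt Laz s w, f = phiV D U i s w z
  ker (s : ℕ) (w : ℤ) (z : Cob.wt Laz s w) : phiV D U i s w z = 0 ↔ z.1 ∈ 𝔞 s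
  odd (s : ℕ) (k : ℤ)
    (f : (𝟙_ T)⟦2 * k + 1⟧ ⟶ (tensorRight V).obj (U.cobar.Q (s + 1) (𝟙_ T))) : f = 0

variable {D U i}

/-- Cyclic objects. -/
theorem gen_of_cyc {p h : ℕ} (H : Vale.Agent.P257.H314.Cyc D p h i) :
    Gen D U i (Vale.Agent.P257.H314.IC p h) where
  surj s w f := H.phi_surj U s w f
  ker s w z := H.phi_ker U s w z
  odd s k f := H.phi_odd U s k f

/-- Moore objects `S / p ^ b`. -/
theorem gen_of_moore {p : ℕ} [Fact p.Prime] (hp : p ≠ 2) {b : ℕ} {δ : V ⟶ (𝟙_ T)⟦(1 : ℤ)⟧}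
    (hM : H.Dist ((p : ℤ) ^ b • 𝟙 (𝟙_ T)) i δ) :
    Gen D U i (fun s => Ideal.span {((p : Cob Laz s)) ^ b}) where
  surj s w f := Vale.Agent.P236Z.Dt.red_surj D U hp hM s w f
  ker s w z := by
    rw [Ideal.mem_span_singleton]
    constructor
    · intro h
      obtain ⟨y, hy⟩ := Vale.Agent.P236Z.Dt.red_ker D U hp hM s w z h
      refine ⟨y.1, ?_⟩
      rw [hy, AddSubgroup.coe_zsmul, zsmul_eq_mul]
      push_cast
      rfl
    · rintro ⟨y, hy⟩
      have h2 : z = ((p : ℤ) ^ b) • (⟨Cob.pr Laz s w y, Cob.isWt_pr w y⟩ : Cob.wt Laz s w) := by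
        apply Subtype.ext
        have h3 := congrArg (Cob.pr Laz s w) hy
        rw [Cob.pr_eq_self z.2] at h3
        have h4 : (p : Cob Laz s) ^ b * y = ((p : ℤ) ^ b) • y := by
          rw [zsmul_eq_mul]; push_cast; rfl
        rw [h3, h4, map_zsmul]
        rfl
      rw [h2, phiV_apply, map_zsmul]
      exact Vale.Agent.P236Z.Dt.zsmul_red' hM _
  odd s k f := by
    rw [← cancel_epi (Vale.Agent.P236Z.Dt.eO k).hom, comp_zero]
    exact Vale.Agent.P236Z.Dt.red_odd D U hp hM s k _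

end Vale.Agent.P236L
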