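import Vale.Agent.P236L.Swap
import Vale.Agent.P236L.Defs

/-!
# P236, block LEIB: the product in the `E₁`-term is the cup product

* `omc U a b Y : Q a (R ⊗ Q (b + 1) Y) ⟶ Q (a + b + 1) Y`;
* `realizes_cup`: the product of cochains realizes the cup product.
-/

open CategoryTheory MonoidalCategory Limits Pretriangulated MonObj

universe v u

set_option linter.unusedSectionVars false

namespace Vale.Agent.P236L

open Vale.Agent.P251 Vale.Agent.P251.T Vale.Agent.P251.F Vale.Agent.P251.I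
  Vale.Agent.P251.M Vale.Agent.P257.H712 Vale.Agent.P257.H820
open Vale.Agent.P251.S hiding IC

section Monoids

variable {T : Type u} [Category.{v} T] [MonoidalCategory T] [SymmetricCategory T]

/-- The concatenation `R^{⊗ (a+1)} ⊗ R^{⊗ (b+1)} ⟶ R^{⊗ (a+b+1)}`. -/
def cnc (R : T) [MonObj R] (a : ℕ) : ∀ b : ℕ, Am R (a + 1) ⊗ Am R (b + 1) ⟶ Am R (a + b + 1)
  | 0 => ((Am R a ⊗ R) ◁ (λ_ R).hom) ≫ (α_ (Am R a) R R).hom ≫ (Am R a ◁ μ[R])
  | b + 1 => (α_ (Am R (a + 1)) (Am R (b + 1)) R).inv ≫ (cnc R a b ▷ R)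

variable (R : T) [MonObj R]

lemma cnc_zero (a : ℕ) : cnc R a 0 =
    ((Am R a ⊗ R) ◁ (λ_ R).hom) ≫ (α_ (Am R a) R R).hom ≫ (Am R a ◁ μ[R]) := rfl

lemma cnc_succ (a b : ℕ) : cnc R a (b + 1) =
    (α_ (Am R (a + 1)) (Am R (b + 1)) R).inv ≫ (cnc R a b ▷ R) := rfl

variable [IsCommMonObj R]

instance isMonHom_cnc (a b : ℕ) : IsMonHom (cnc R a b) := by
  induction b with
  | zero =>
    rw [cnc_zero]
    infer_instance
  | succ b ih =>
    rw [cnc_succ]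
    infer_instance

lemma inlM_cnc (a b : ℕ) (i : Fin (a + 1)) :
    Am.v R i ≫ inlM (Am R (a + 1)) (Am R (b + 1)) ≫ cnc R a b =
      Am.v R (frontc (rfl : a + b = a + b) i) := by
  induction b with
  | zero =>
    have h : inlM (Am R a ⊗ R) (𝟙_ T ⊗ R) ≫ ((Am R a ⊗ R) ◁ (λ_ R).hom) ≫
        (α_ (Am R a) R R).hom ≫ (Am R a ◁ μ[R]) = 𝟙 _ := by
      rw [inlM_whiskerLeft_assoc, inlM_associator_assoc, ← MonoidalCategory.whiskerLeft_comp,
        inlM_mul, MonoidalCategory.whiskerLeft_id]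
    exact (congrArg (Am.v R i ≫ ·) h).trans (Category.comp_id _)
  | succ b ih =>
    have h1 : frontc (rfl : a + (b + 1) = a + (b + 1)) i =
      (frontc (rfl : a + b = a + b) i).castSucc := rfl
    have h2 : inlM (Am R (a + 1)) (Am R (b + 1 + 1)) ≫
        (α_ (Am R (a + 1)) (Am R (b + 1)) R).inv =
        inlM (Am R (a + 1)) (Am R (b + 1)) ≫ inlM (Am R (a + 1) ⊗ Am R (b + 1)) R :=
      inlM_associator_inv _ _ _
    rw [h1]
    refine Eq.trans ?_ (Am.v_castSucc R _).symm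
    rw [← ih, cnc_succ, reassoc_of% h2, inlM_whiskerRight]
    simp only [Category.assoc]
    rfl

lemma inrM_cnc (a b : ℕ) (i : Fin (b + 1)) :
    Am.v R i ≫ inrM (Am R (a + 1)) (Am R (b + 1)) ≫ cnc R a b =
      Am.v R (backc (rfl : a + b = a + b) i) := by
  induction b with
  | zero =>
    obtain rfl : i = Fin.last 0 := by revert i; decide
    have h2 : inrM (𝟙_ T) R ≫ (λ_ R).hom = 𝟙 R := by
      have h : η[(𝟙_ T)] = 𝟙 (𝟙_ T) := rfl
      rw [inrM, h, id_whiskerRight, Category.comp_id, Iso.inv_hom_id]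
    have h : inrM (𝟙_ T) R ≫ inrM (Am R a ⊗ R) (𝟙_ T ⊗ R) ≫ ((Am R a ⊗ R) ◁ (λ_ R).hom) ≫
        (α_ (Am R a) R R).hom ≫ (Am R a ◁ μ[R]) = inrM (Am R a) R := by
      rw [inrM_whiskerLeft_assoc, reassoc_of% h2, inrM_associator_assoc, inrM_whiskerLeft,
        inrM_mul_assoc]
    have h3 : backc (rfl : a + 0 = a + 0) (Fin.last 0) = Fin.last a := rfl
    rw [h3, Am.v_last]
    exact h.trans (Am.v_last R a).symm
  | succ b ih =>
    have h2 : inrM (Am R (a + 1)) (Am R (b + 1 + 1)) ≫ cnc R a (b + 1) =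
        (inrM (Am R (a + 1)) (Am R (b + 1)) ≫ cnc R a b) ▷ R := by
      rw [comp_whiskerRight, ← inrM_associator_inv, Category.assoc]
      rfl
    rw [h2]
    refine Fin.lastCases ?_ (fun j => ?_) i
    · have h3 : backc (rfl : a + (b + 1) = a + (b + 1)) (Fin.last (b + 1)) =
        Fin.last (a + b + 1) := rfl
      rw [h3, Am.v_last]
      exact (inrM_whiskerRight _).trans (Am.v_last R _).symm
    · have h3 : backc (rfl : a + (b + 1) = a + (b + 1)) j.castSucc =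
        (backc (rfl : a + b = a + b) j).castSucc := rfl
      rw [h3, Am.v_castSucc]
      refine Eq.trans ?_ (Am.v_castSucc R _).symm
      rw [← ih j, Category.assoc, inlM_whiskerRight]
      simp only [Category.assoc]
      rfl

lemma cnc_eq (a b : ℕ) : cnc R a b = descM (Am.map R (frontc (rfl : a + b = a + b)))
    (Am.map R (backc (rfl : a + b = a + b))) := by
  apply hom_ext_tensor (X := Am R (a + 1)) (Y := Am R (b + 1))
  · rw [inlM_descM]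
    exact (Am.map_eq_of R _ _ (inlM_cnc R a b)).symm
  · rw [inrM_descM]
    exact (Am.map_eq_of R _ _ (inrM_cnc R a b)).symm

lemma gmul_cnc (E : EvenSpheres T) {w v u : ℤ} (h : w + v = u) (a b : ℕ)
    (x : E.S w ⟶ Am R (a + 1)) (y : E.S v ⟶ Am R (b + 1)) :
    EvenSpheres.gmul h (x ≫ Am.map R (frontc (rfl : a + b = a + b)))
      (y ≫ Am.map R (backc (rfl : a + b = a + b))) = E.ext h x y ≫ cnc R a b := by
  rw [cnc_eq, descM, EvenSpheres.gmul, EvenSpheres.ext_comp, Category.assoc]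

omit [SymmetricCategory T] [IsCommMonObj R] in
lemma cnc_aux (A Y : T) : (A ◁ mulMap R Y) ≫ (α_ A R Y).inv =
    (α_ A R (R ⊗ Y)).inv ≫ ((A ⊗ R) ◁ ((λ_ (R ⊗ Y)).inv ≫ (α_ (𝟙_ T) R Y).inv)) ≫
      (α_ (A ⊗ R) (𝟙_ T ⊗ R) Y).inv ≫
        ((((A ⊗ R) ◁ (λ_ R).hom) ≫ (α_ A R R).hom ≫ (A ◁ μ[R])) ▷ Y) := by
  rw [mulMap]
  monoidal

end Monoids

variable {T : Type u} [Category.{v} T] [Preadditive T] [HasZeroObject T] [HasShift T ℤ]
  [∀ n : ℤ, (shiftFunctor T n).Additive] [Pretriangulated T] [MonoidalCategory T]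
  [SymmetricCategory T] [TensorTriangulated T]

section Cobar

variable {R : T} [MonObj R] (U : UnitCof R)

/-- The multiplication `Q a (R ⊗ Q (b + 1) Y) ⟶ Q (a + b + 1) Y`. -/
def omc (a : ℕ) : ∀ (b : ℕ) (Y : T),
    U.cobar.Q (a + 1) (U.cobar.Q (b + 1) Y) ⟶ U.cobar.Q (a + b + 1) Y
  | 0, Y => U.cobar.Qm a (mulMap R Y)
  | b + 1, Y => omc a b (R ⊗ Y)

lemma omc_zero (a : ℕ) (Y : T) : omc U a 0 Y = U.cobar.Qm a (mulMap R Y) := rfl

lemma omc_succ (a b : ℕ) (Y : T) : omc U a (b + 1) Y = omc U a b (R ⊗ Y) := rfl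

@[reassoc]
lemma omc_nat (a b : ℕ) {Y Y' : T} (f : Y ⟶ Y') :
    U.cobar.Qm (a + 1) (U.cobar.Qm (b + 1) f) ≫ omc U a b Y' =
      omc U a b Y ≫ U.cobar.Qm (a + b + 1) f := by
  induction b generalizing Y Y' with
  | zero =>
    exact (U.cobar.Qm_comp a _ _).symm.trans
      ((congrArg (U.cobar.Qm a) (mulMap_nat f)).trans (U.cobar.Qm_comp a _ _))
  | succ b ih => exact ih (R ◁ f)

lemma omc_q (a b : ℕ) (Y : T) :
    U.cobar.Qm a ((R ◁ U.cobar.q b Y) ≫ mulMap R (U.cobar.B b Y)) ≫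
      U.cobar.q a (U.cobar.B b Y) =
      omc U a b Y ≫ U.cobar.q (a + b) Y ≫ (R ◁ bc U (rfl : a + b = a + b) Y) := by
  induction b generalizing Y with
  | zero =>
    have h1 : (R ◁ U.cobar.q 0 Y) ≫ mulMap R (U.cobar.B 0 Y) = mulMap R Y :=
      (congrArg (· ≫ mulMap R Y) (MonoidalCategory.whiskerLeft_id _ _)).trans
        (Category.id_comp _)
    have h2 : U.cobar.q (a + 0) Y ≫ (R ◁ bc U (rfl : a + 0 = a + 0) Y) = U.cobar.q a Y :=
      (congrArg (U.cobar.q a Y ≫ ·) (MonoidalCategory.whiskerLeft_id _ _)).trans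
        (Category.comp_id _)
    rw [h1, h2]
    rfl
  | succ b ih =>
    have h1 := omc_nat U a b (U.ρ ▷ Y)
    rw [CobarData.q_succ, MonoidalCategory.whiskerLeft_comp, Category.assoc, CobarData.Qm_comp,
      Category.assoc]
    refine (congrArg (U.cobar.Qm (a + 1) (U.cobar.Qm (b + 1) (U.ρ ▷ Y)) ≫ ·)
      (ih (U.J ⊗ Y))).trans ?_
    refine ((reassoc_of% h1) _).trans ?_
    exact congrArg (omc U a b (R ⊗ Y) ≫ ·) (Category.assoc _ _ _).symm

lemma omc_θ (a b : ℕ) (Y : T) :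
    omc U a b Y ≫ (U.θ (a + b + 1) Y).hom =
      (U.θ (a + 1) (U.cobar.Q (b + 1) Y)).hom ≫ (Am R (a + 1) ◁ (U.θ (b + 1) Y).hom) ≫
        (α_ (Am R (a + 1)) (Am R (b + 1)) Y).inv ≫ (cnc R a b ▷ Y) := by
  induction b generalizing Y with
  | zero =>
    have h1 := U.θ_naturality a (mulMap R Y)
    have h2 : omc U a 0 Y ≫ (U.θ (a + 0 + 1) Y).hom = U.cobar.Qm a (mulMap R Y) ≫
      (U.θ a (R ⊗ Y)).hom ≫ (α_ (Am R a) R Y).inv := rfl
    rw [h2, reassoc_of% h1, cnc_aux]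
    exact (Category.assoc _ _ _).symm
  | succ b ih =>
    have h2 : omc U a (b + 1) Y ≫ (U.θ (a + (b + 1) + 1) Y).hom =
        (omc U a b (R ⊗ Y) ≫ (U.θ (a + b + 1) (R ⊗ Y)).hom) ≫
          (α_ (Am R (a + b + 1)) R Y).inv := (Category.assoc _ _ _).symm
    have h3 : (U.θ (b + 1 + 1) Y).hom =
        (U.θ (b + 1) (R ⊗ Y)).hom ≫ (α_ (Am R (b + 1)) R Y).inv := rfl
    have h5 : (α_ (Am R (a + 1)) (Am R (b + 1)) (R ⊗ Y)).inv ≫
        (α_ (Am R (a + 1) ⊗ Am R (b + 1)) R Y).inv =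
        (Am R (a + 1) ◁ (α_ (Am R (b + 1)) R Y).inv) ≫
          (α_ (Am R (a + 1)) (Am R (b + 1) ⊗ R) Y).inv ≫
          ((α_ (Am R (a + 1)) (Am R (b + 1)) R).inv ▷ Y) := by
      monoidal
    rw [h2, ih (R ⊗ Y), h3, cnc_succ]
    simp only [Category.assoc, MonoidalCategory.whiskerLeft_comp, comp_whiskerRight]
    rw [associator_inv_naturality_left, reassoc_of% h5]

/-- The product of cochains, in terms of the concatenation. -/
lemma omc_cnc (k : ℤ) {X : T} (a b : ℕ) (f : X ⟶ U.cobar.Q (a + 1) (𝟙_ T))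
    (z : (𝟙_ T)⟦k⟧ ⟶ U.cobar.Q (b + 1) (𝟙_ T)) :
    f⟦k⟧' ≫ U.κQ k (a + 1) (𝟙_ T) ≫ U.cobar.Qm (a + 1) z ≫ omc U a b (𝟙_ T) ≫
      (U.θU (a + b + 1)).hom =
      (tensorSph k X).inv ≫ ((f ≫ (U.θU (a + 1)).hom) ⊗ₘ (z ≫ (U.θU (b + 1)).hom)) ≫
        cnc R a b := by
  have h1 : (α_ (Am R (a + 1)) (Am R (b + 1)) (𝟙_ T)).inv ≫ (cnc R a b ▷ 𝟙_ T) ≫
      (ρ_ (Am R (a + b + 1))).hom = (Am R (a + 1) ◁ (ρ_ (Am R (b + 1))).hom) ≫ cnc R a b := by
    rw [rightUnitor_naturality, rightUnitor_tensor_hom_assoc, Iso.inv_hom_id_assoc]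
  have h2 : U.κQ k (a + 1) (𝟙_ T) ≫ (U.θ (a + 1) ((𝟙_ T)⟦k⟧)).hom =
      ((U.θU (a + 1)).hom)⟦k⟧' ≫ (tensorSph k (Am R (a + 1))).inv := by
    rw [UnitCof.κQ_θ, UnitCof.θU, tensorSph, Iso.trans_hom, Iso.trans_inv, Functor.map_comp,
      Functor.mapIso_inv,
      Category.assoc, ← Functor.map_comp_assoc (shiftFunctor T k) (ρ_ _).hom, Iso.hom_inv_id,
      CategoryTheory.Functor.map_id, Category.id_comp]
    rfl
  have h3 : ((f ≫ (U.θU (a + 1)).hom) ▷ ((𝟙_ T)⟦k⟧)) = (tensorSph k X).hom ≫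
      (f ≫ (U.θU (a + 1)).hom)⟦k⟧' ≫ (tensorSph k (Am R (a + 1))).inv := by
    rw [← tensorSph_naturality_assoc, Iso.hom_inv_id, Category.comp_id]
  have h4 : omc U a b (𝟙_ T) ≫ (U.θU (a + b + 1)).hom =
      (U.θ (a + 1) (U.cobar.Q (b + 1) (𝟙_ T))).hom ≫
        (Am R (a + 1) ◁ (U.θU (b + 1)).hom) ≫ cnc R a b := by
    rw [UnitCof.θU, UnitCof.θU, Iso.trans_hom, Iso.trans_hom, ← Category.assoc, omc_θ]
    simp only [Category.assoc, MonoidalCategory.whiskerLeft_comp]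
    rw [h1]
  rw [h4, UnitCof.θ_naturality_assoc, reassoc_of% h2, tensorHom_def, h3, Functor.map_comp]
  simp only [Category.assoc, MonoidalCategory.whiskerLeft_comp, Iso.inv_hom_id_assoc]

end Cobar

variable [HasCoproducts.{0} T] {M : MUData T} {U : UnitCof M.R}

/-- The product of cochains realizes the cup product. -/
theorem realizes_cup {a b : ℕ} {w v w' t k t' : ℤ} {α : (stdEven T).S w ≅ (𝟙_ T)⟦t⟧}
    {β : (stdEven T).S v ≅ (𝟙_ T)⟦k⟧} {x : Cob Laz a} {y : Cob Laz b}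
    {f : (𝟙_ T)⟦t⟧ ⟶ U.cobar.Q (a + 1) (𝟙_ T)} {z : (𝟙_ T)⟦k⟧ ⟶ U.cobar.Q (b + 1) (𝟙_ T)}
    (hf : Realizes M U α x f) (hz : Realizes M U β y z) (hw : w + v = w') (ht : t + k = t') :
    Realizes M U (prodSph α β hw ht) (cupc (rfl : a + b = a + b) x y)
      (sh t k t' ht f ≫ U.κQ k (a + 1) (𝟙_ T) ≫ U.cobar.Qm (a + 1) z ≫ omc U a b (𝟙_ T)) := by
  have h1 : M.ev (a + b) (Cob.map (frontc (rfl : a + b = a + b)) x) =
      HRing.of (stdEven T) (Am M.R (a + b + 1)) w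
        ((α.hom ≫ f ≫ (U.θU (a + 1)).hom) ≫ Am.map M.R (frontc (rfl : a + b = a + b))) := by
    rw [← M.ev_map, hf, HRing.map_of]
  have h2 : M.ev (a + b) (Cob.map (backc (rfl : a + b = a + b)) y) =
      HRing.of (stdEven T) (Am M.R (a + b + 1)) v
        ((β.hom ≫ z ≫ (U.θU (b + 1)).hom) ≫ Am.map M.R (backc (rfl : a + b = a + b))) := by
    rw [← M.ev_map, hz, HRing.map_of]
  have h3 : (prodSph α β hw ht).hom ≫ (sh t k t' ht f ≫ U.κQ k (a + 1) (𝟙_ T) ≫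
      U.cobar.Qm (a + 1) z ≫ omc U a b (𝟙_ T)) ≫ (U.θU (a + b + 1)).hom =
      (stdEven T).ext hw (α.hom ≫ f ≫ (U.θU (a + 1)).hom) (β.hom ≫ z ≫ (U.θU (b + 1)).hom) ≫
        cnc M.R a b := by
    have h4 := omc_cnc U k a b f z
    simp only [prodSph, Iso.trans_hom, Iso.symm_hom, Iso.app_inv, sh, AddEquiv.coe_mk,
      Equiv.coe_fn_mk, Category.assoc, Iso.inv_hom_id_app_assoc]
    rw [h4, Iso.hom_inv_id_assoc, EvenSpheres.ext, tensorIso_hom,
      tensorHom_comp_tensorHom_assoc, Category.assoc]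
  rw [Realizes, cupc, map_mul]
  refine (congrArg₂ (· * ·) h1 h2).trans ?_
  refine (of_mul_of hw _ _).trans ?_
  rw [gmul_cnc, ← h3]

variable (M U)

/-- The cochain `𝟙⟦2 w⟧ ⟶ Q (s+1) 𝟙` of a homogeneous element of `Cob Laz s`. -/
noncomputable def ch {s : ℕ} {w : ℤ} (x : Cob.wt Laz s w) :
    (𝟙_ T)⟦2 * w⟧ ⟶ U.cobar.Q (s + 1) (𝟙_ T) := (sM T w).inv ≫ M.phi U s w x

theorem ch_cup {a b : ℕ} {w v u : ℤ} (hw : w + v = u) (ht : 2 * w + 2 * v = 2 * u)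
    (x : Cob.wt Laz a w) (y : Cob.wt Laz b v) :
    ch M U (cupw (rfl : a + b = a + b) hw x y) =
      sh (2 * w) (2 * v) (2 * u) ht (ch M U x) ≫ U.κQ (2 * v) (a + 1) (𝟙_ T) ≫
        U.cobar.Qm (a + 1) (ch M U y) ≫ omc U a b (𝟙_ T) := by
  have h := realizes_cup ((realizes_iff (sM T w) x (ch M U x)).2 rfl)
    ((realizes_iff (sM T v) y (ch M U y)).2 rfl) hw ht
  rw [prodSph_sM] at h
  exact ((realizes_iff (sM T u) (cupw (rfl : a + b = a + b) hw x y) _).1 h).symm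

end Vale.Agent.P236L
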