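import Vale.Agent.P236L.Pj

/-!
# P236, block LEIB: extension of maps along the tower

* `lt X g`: the map `(X ⊗ Z)⟦t⟧ ⟶ X ⊗ Y` of `g : Z⟦t⟧ ⟶ Y`;
* `inB U X s A : X ⊗ B s A ⟶ B s (X ⊗ A)`;
* `ext U a g : (B a Z)⟦M⟧ ⟶ R ⊗ B a A` for `g : Z⟦M⟧ ⟶ R ⊗ A`;
* `xch U a s A : B a (B s A) ⟶ B s (B a A)`;
* `pr U a h v g`: the product in the `E₁`-term;
* `leib1`: the Leibniz rule in filtration `a`.
-/

open CategoryTheory MonoidalCategory Limits Pretriangulated MonObj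

universe v u

set_option linter.unusedSectionVars false

namespace Vale.Agent.P236L

open Vale.Agent.P251.T Vale.Agent.P251.S Vale.Agent.P257.H820 Vale.Agent.P257.H712

variable {T : Type u} [Category.{v} T] [Preadditive T] [HasZeroObject T] [HasShift T ℤ]
  [∀ n : ℤ, (shiftFunctor T n).Additive] [Pretriangulated T] [MonoidalCategory T]
  [SymmetricCategory T] [TensorTriangulated T]

variable {R : T} [MonObj R]

/-- Tensoring on the left. -/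
noncomputable def lt (X : T) {Z Y : T} {t : ℤ} (g : Z⟦t⟧ ⟶ Y) : (X ⊗ Z)⟦t⟧ ⟶ X ⊗ Y :=
  (csh X t Z).inv ≫ (X ◁ g)

@[reassoc]
lemma lt_comp (X : T) {Z Y Y' : T} {t : ℤ} (g : Z⟦t⟧ ⟶ Y) (f : Y ⟶ Y') :
    lt X (g ≫ f) = lt X g ≫ (X ◁ f) := by
  rw [lt, lt, MonoidalCategory.whiskerLeft_comp, Category.assoc]

lemma lt_sh (X : T) {Z Y : T} {t k t' : ℤ} (h : t + k = t') (g : Z⟦t⟧ ⟶ Y) :
    sh t k t' h (lt X g) = lt X (sh t k t' h g) ≫ (csh X k Y).hom := by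
  have h1 := csh_add X Z t k t' h
  have h4 : (csh X t' Z).inv ≫ (X ◁ (shiftFunctorAdd' T t k t' h).hom.app Z) ≫
      (csh X k (Z⟦t⟧)).hom = (shiftFunctorAdd' T t k t' h).hom.app (X ⊗ Z) ≫
        ((csh X t Z).inv)⟦k⟧' := by
    rw [Iso.inv_comp_eq, ← cancel_epi (X ◁ (shiftFunctorAdd' T t k t' h).inv.app Z),
      ← MonoidalCategory.whiskerLeft_comp_assoc, Iso.inv_hom_id_app,
      MonoidalCategory.whiskerLeft_id, Category.id_comp, reassoc_of% h1,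
      Iso.inv_hom_id_app_assoc, ← Functor.map_comp, Iso.hom_inv_id,
      CategoryTheory.Functor.map_id, Category.comp_id]
  simp only [lt, sh, AddEquiv.coe_mk, Equiv.coe_fn_mk, MonoidalCategory.whiskerLeft_comp,
    Category.assoc, Functor.map_comp]
  rw [csh_nat, reassoc_of% h4]

variable (U : UnitCof R)

/-- Moving a factor in: `X ⊗ B s A ⟶ B s (X ⊗ A)`. -/
def inB (X : T) : ∀ (s : ℕ) (A : T), X ⊗ U.cobar.B s A ⟶ U.cobar.B s (X ⊗ A)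
  | 0, _ => 𝟙 _
  | s + 1, A => inB X s (U.J ⊗ A) ≫ U.cobar.Bm s (sw X U.J A)

lemma inB_zero (X A : T) : inB U X 0 A = 𝟙 _ := rfl

lemma inB_succ (X : T) (s : ℕ) (A : T) :
    inB U X (s + 1) A = inB U X s (U.J ⊗ A) ≫ U.cobar.Bm s (sw X U.J A) := rfl

@[reassoc]
lemma sw_bdry (X A : T) :
    sw X U.J A ≫ U.bdry (X ⊗ A) = (X ◁ U.bdry A) ≫ (csh X 1 A).hom := by
  have h1 : sw X ((𝟙_ T)⟦(1 : ℤ)⟧) A ≫ (β_ ((𝟙_ T)⟦(1 : ℤ)⟧) (X ⊗ A)).hom =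
      (X ◁ (β_ ((𝟙_ T)⟦(1 : ℤ)⟧) A).hom) ≫ (α_ X A _).inv := by
    rw [Iso.eq_comp_inv, Category.assoc, ← sw_braid, sw_sw_assoc]
  rw [UnitCof.bdry_eq, UnitCof.bdry_eq, ← sw_nat_mid_assoc, sOne, sOne, reassoc_of% h1, csh_one]
  simp only [MonoidalCategory.whiskerLeft_comp, Category.assoc]
  rw [← MonoidalCategory.whiskerLeft_comp_assoc X (TensorTriangulated.e A).hom, Iso.hom_inv_id,
    MonoidalCategory.whiskerLeft_id, Category.id_comp]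

lemma pj_in (X : T) {Z : T} (r : ℕ) (A : T) (t t' : ℤ) (h : t + (r : ℤ) = t')
    (c : Z⟦t'⟧ ⟶ U.cobar.B r A) :
    pj U (X ⊗ Z) r (X ⊗ A) t t' h (lt X c ≫ inB U X r A) = lt X (pj U Z r A t t' h c) := by
  induction r generalizing A t t' with
  | zero =>
    obtain rfl : t' = t := by rw [← h]; simp
    exact Category.comp_id _
  | succ r ih =>
    have h' : t + 1 + (r : ℤ) = t' := by rw [← h]; push_cast; ring
    have h1 := pj_nat U r (t + 1) t' h' (lt X c ≫ inB U X r (U.J ⊗ A)) (sw X U.J A)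
    rw [ih (U.J ⊗ A) (t + 1) t' h' c, Category.assoc] at h1
    rw [pj_succ U r _ t t' h h', pj_succ U r A t t' h h', AddEquiv.symm_apply_eq, lt_sh,
      AddEquiv.apply_symm_apply, lt_comp, inB_succ]
    refine (congrArg (· ≫ U.bdry (X ⊗ A)) h1).trans ?_
    simp only [Category.assoc]
    rw [sw_bdry]

lemma pj_κB (n : ℕ) {P : T} (r : ℕ) (A : T) {t t' s s' : ℤ} (h : t + (r : ℤ) = t')
    (hs : s + (r : ℤ) = s') (k : t + 2 * (n : ℤ) = s) (k' : t' + 2 * (n : ℤ) = s')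
    (c : P⟦t'⟧ ⟶ U.cobar.B r A) :
    pj U P r (A⟦2 * (n : ℤ)⟧) s s' hs (sh t' _ s' k' c ≫ U.κB (2 * (n : ℤ)) r A) =
      sh t _ s k (pj U P r A t t' h c) := by
  induction r generalizing A t t' s s' with
  | zero =>
    obtain rfl : t' = t := by rw [← h]; simp
    obtain rfl : s' = s := by rw [← hs]; simp
    exact Category.comp_id _
  | succ r ih =>
    have h' : t + 1 + (r : ℤ) = t' := by rw [← h]; push_cast; ring
    have hs' : s + 1 + (r : ℤ) = s' := by rw [← hs]; push_cast; ring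
    have k1 : t + 1 + 2 * (n : ℤ) = s + 1 := by rw [← k]; ring
    have h1 := pj_nat U r (s + 1) s' hs' (sh t' _ s' k' c ≫ U.κB (2 * (n : ℤ)) r (U.J ⊗ A))
      (csh U.J (2 * (n : ℤ)) A).inv
    rw [ih (U.J ⊗ A) h' hs' k1 k' c, Category.assoc] at h1
    have h2 : (csh U.J (2 * (n : ℤ)) A).inv ≫ U.bdry (A⟦2 * (n : ℤ)⟧) =
        (U.bdry A)⟦2 * (n : ℤ)⟧' ≫ (shiftFunctorComm T (1 : ℤ) (2 * (n : ℤ))).hom.app A := by
      rw [Iso.inv_comp_eq, U.bdry_csh]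
    rw [pj_succ U r _ s s' hs hs', AddEquiv.symm_apply_eq, UnitCof.κB_succ,
      ← sh_sh_comm t 1 (2 * (n : ℤ)) (t + 1) s (s + 1) rfl k1 k rfl, pj_succ U r A t t' h h',
      AddEquiv.apply_symm_apply, sh_comp]
    refine (congrArg (· ≫ U.bdry (A⟦2 * (n : ℤ)⟧)) h1).trans ?_
    simp only [Category.assoc]
    rw [h2]

variable {U}

lemma Lf.lt (X : T) {Z A : T} {r : ℕ} {t t' : ℤ} {h : t + (r : ℤ) = t'} {f : Z⟦t⟧ ⟶ R ⊗ A}
    {c : Z⟦t'⟧ ⟶ U.cobar.B (r + 1) A} (H : Lf U r h f c) :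
    Lf U r h (lt X f ≫ sw X R A) (lt X c ≫ inB U X (r + 1) A) := by
  have h1 := pj_nat U r t t' h (P236L.lt X c ≫ inB U X r (U.J ⊗ A)) (sw X U.J A)
  rw [pj_in, Category.assoc] at h1
  refine h1.trans ?_
  rw [H, lt_comp, Category.assoc, Category.assoc, sw_nat_mid]

lemma Lf.κ (n : ℕ) {P Z : T} {r : ℕ} {t t' s s' : ℤ} {h : t + (r : ℤ) = t'}
    (hs : s + (r : ℤ) = s') (k : t + 2 * (n : ℤ) = s) (k' : t' + 2 * (n : ℤ) = s')
    {v : P⟦t⟧ ⟶ R ⊗ Z} {c : P⟦t'⟧ ⟶ U.cobar.B (r + 1) Z} (H : Lf U r h v c) :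
    Lf U r hs (oc k v (𝟙 _)) (sh t' _ s' k' c ≫ U.κB (2 * (n : ℤ)) (r + 1) Z) := by
  have h1 := pj_nat U r s s' hs (sh t' _ s' k' c ≫ U.κB (2 * (n : ℤ)) r (U.J ⊗ Z))
    (csh U.J (2 * (n : ℤ)) Z).inv
  rw [pj_κB U n r _ h hs k k', Category.assoc] at h1
  refine h1.trans ?_
  rw [H, oc, sh_comp, MonoidalCategory.whiskerLeft_id, Category.comp_id, Category.assoc,
    Category.assoc, csh_inv_tlMap]

variable (U)

/-- The extension of `g : Z⟦M⟧ ⟶ R ⊗ A` to filtration `a`. -/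
noncomputable def ext (a : ℕ) {Z A : T} {M : ℤ} (g : Z⟦M⟧ ⟶ R ⊗ A) :
    (U.cobar.B a Z)⟦M⟧ ⟶ R ⊗ U.cobar.B a A :=
  U.κB M a Z ≫ U.cobar.Bm a g ≫ mvB U R a A

lemma ext_zero {Z A : T} {M : ℤ} (g : Z⟦M⟧ ⟶ R ⊗ A) : ext U 0 g = g :=
  (Category.id_comp _).trans (Category.comp_id _)

lemma ext_succ (a : ℕ) {Z A : T} {M : ℤ} (g : Z⟦M⟧ ⟶ R ⊗ A) :
    ext U (a + 1) g = ext U a (lt U.J g ≫ sw U.J R A) := by
  rw [ext, ext, lt, UnitCof.κB_succ, mvB_succ, CobarData.Bm_succ]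
  simp only [CobarData.Bm_comp, Category.assoc]

/-- The exchange `B a (B s A) ⟶ B s (B a A)`. -/
def xch : ∀ (a s : ℕ) (A : T),
    U.cobar.B a (U.cobar.B s A) ⟶ U.cobar.B s (U.cobar.B a A)
  | 0, _, _ => 𝟙 _
  | a + 1, s, A => U.cobar.Bm a (inB U U.J s A) ≫ xch a s (U.J ⊗ A)

lemma xch_zero (s : ℕ) (A : T) : xch U 0 s A = 𝟙 _ := rfl

lemma xch_succ (a s : ℕ) (A : T) :
    xch U (a + 1) s A = U.cobar.Bm a (inB U U.J s A) ≫ xch U a s (U.J ⊗ A) := rfl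

variable {U}

lemma Lf.ext (a : ℕ) {Z A : T} {r : ℕ} {t t' : ℤ} {h : t + (r : ℤ) = t'} {f : Z⟦t⟧ ⟶ R ⊗ A}
    {c : Z⟦t'⟧ ⟶ U.cobar.B (r + 1) A} (H : Lf U r h f c) :
    Lf U r h (ext U a f) (U.κB t' a Z ≫ U.cobar.Bm a c ≫ xch U a (r + 1) A) := by
  induction a generalizing Z A with
  | zero =>
    rw [ext_zero]
    have e : U.κB t' 0 Z ≫ U.cobar.Bm 0 c ≫ xch U 0 (r + 1) A = c :=
      (Category.id_comp _).trans (Category.comp_id _)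
    rw [e]
    exact H
  | succ a ih =>
    have e : U.κB t' (a + 1) Z ≫ U.cobar.Bm (a + 1) c ≫ xch U (a + 1) (r + 1) A =
        U.κB t' a (U.J ⊗ Z) ≫ U.cobar.Bm a (P236L.lt U.J c ≫ inB U U.J (r + 1) A) ≫
          xch U a (r + 1) (U.J ⊗ A) := by
      rw [P236L.lt, UnitCof.κB_succ, xch_succ, CobarData.Bm_succ]
      simp only [CobarData.Bm_comp, Category.assoc]
    rw [ext_succ, e]
    exact ih (H.lt U.J)

variable (U)

/-- The product in the `E₁`-term. -/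
noncomputable def pr (a : ℕ) {P Z A : T} {n M N : ℤ} (h : n + M = N)
    (v : P⟦n⟧ ⟶ R ⊗ U.cobar.B a Z) (g : Z⟦M⟧ ⟶ R ⊗ A) : P⟦N⟧ ⟶ R ⊗ U.cobar.B a A :=
  oc h v (ext U a g) ≫ mulMap R (U.cobar.B a A)

@[reassoc]
lemma Bm_unit_mvB (a : ℕ) (Y : T) :
    U.cobar.Bm a (unitMap R Y) ≫ mvB U R a Y = unitMap R (U.cobar.B a Y) := by
  induction a generalizing Y with
  | zero => exact Category.comp_id _
  | succ a ih =>
    rw [mvB_succ, CobarData.Bm_succ, ← CobarData.Bm_comp_assoc]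
    refine Eq.trans ?_ (ih (U.J ⊗ Y))
    congr 2
    exact whisker_unitMap_sw U.J Y

lemma pr_unit_left (a : ℕ) {P Z A : T} {n M N : ℤ} (h : n + M = N)
    (c : P⟦n⟧ ⟶ U.cobar.B a Z) (g : Z⟦M⟧ ⟶ R ⊗ A) :
    pr U a h (c ≫ unitMap R _) g = sh n M N h c ≫ ext U a g := by
  rw [pr, oc, sh_comp, ← unitMap_csh]
  simp only [Category.assoc, Iso.hom_inv_id_assoc]
  rw [← unitMap_nat_assoc, unitMap_mulMap, Category.comp_id]

lemma pr_unit_right (a : ℕ) {P Z A : T} {n M N : ℤ} (h : n + M = N)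
    (v : P⟦n⟧ ⟶ R ⊗ U.cobar.B a Z) (c : Z⟦M⟧ ⟶ A) :
    pr U a h v (c ≫ unitMap R A) = oc h v (U.κB M a Z ≫ U.cobar.Bm a c) := by
  rw [pr, ext, CobarData.Bm_comp, Category.assoc, Bm_unit_mvB, ← Category.assoc, oc_comp,
    Category.assoc, whiskerLeft_unitMap_mulMap, Category.comp_id]

/-- **The Leibniz rule in filtration `a`.** -/
theorem leib1 [IsTriangulated T] {r : ℕ} (hr : 2 ≤ r) (a : ℕ) {P Z A : T} (k : ℕ)
    {n n' N tf te : ℤ} (hn : n + (r : ℤ) = n') (hN : n + 2 * (k : ℤ) = N)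
    (hf : 2 * (k : ℤ) + (r : ℤ) = tf) (he : N + (r : ℤ) = te)
    (h1 : n + tf = te) (h2 : n' + 2 * (k : ℤ) = te)
    (v : P⟦n⟧ ⟶ R ⊗ U.cobar.B a Z) (c : P⟦n'⟧ ⟶ U.cobar.B (r + 1) (U.cobar.B a Z))
    (Hv : Lf U r hn v c)
    (g : Z⟦2 * (k : ℤ)⟧ ⟶ R ⊗ A) (cg : Z⟦tf⟧ ⟶ U.cobar.B (r + 1) A) (Hg : Lf U r hf g cg) :
    ∃ e : P⟦te⟧ ⟶ U.cobar.B (r + 1) (U.cobar.B a A), Lf U r he (pr U a hN v g) e ∧
      e ≫ unitMap R _ = pr U a h1 v (cg ≫ unitMap R _) ≫ (R ◁ xch U a (r + 1) A) +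
        pr U (r + 1) h2 (c ≫ unitMap R _) (ext U a g) := by
  obtain ⟨e, he1, he2⟩ := leib0 U hr hN hf he h1 _ _ (Hg.ext a) v _ (Hv.κ k he hN h2)
  refine ⟨e, he1, he2.trans ?_⟩
  rw [pr_unit_right, pr_unit_left, ← oc_comp, Category.assoc, Category.assoc]
  rfl

end Vale.Agent.P236L
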