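import Vale.Agent.P236L.Tr

/-!
# P236, block LEIB: the Leibniz rule

`Dif.leibniz`: if `d x = y` and `d x' = y'` are differentials of the same length `≥ 3`, then
`d (x x') = y x' + (-1) ^ a x y'`.
-/

open CategoryTheory MonoidalCategory Limits Pretriangulated MonObj

universe v u

set_option linter.unusedSectionVars false

namespace Vale.Agent.P236L

open Vale.Agent.P251 Vale.Agent.P251.T Vale.Agent.P251.F Vale.Agent.P251.I
  Vale.Agent.P251.M Vale.Agent.P257.H712 Vale.Agent.P257.H820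
open Vale.Agent.P251.S hiding IC

variable {T : Type u} [Category.{v} T] [Preadditive T] [HasZeroObject T] [HasShift T ℤ]
  [∀ n : ℤ, (shiftFunctor T n).Additive] [Pretriangulated T] [MonoidalCategory T]
  [SymmetricCategory T] [TensorTriangulated T]

section Tower

variable {R : T} [MonObj R] (U : UnitCof R)

/-! ### Formal properties of the product -/

@[reassoc]
lemma mvB_nat (X : T) (s : ℕ) {Y Y' : T} (f : Y ⟶ Y') :
    U.cobar.Bm s (X ◁ f) ≫ mvB U X s Y' = mvB U X s Y ≫ (X ◁ U.cobar.Bm s f) := by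
  induction s generalizing Y Y' with
  | zero => exact (Category.comp_id _).trans (Category.id_comp _).symm
  | succ s ih =>
    have h := sw_nat_right U.J X f
    rw [mvB_succ, mvB_succ, Category.assoc, CobarData.Bm_succ, CobarData.Bm_succ,
      ← ih (U.J ◁ f), ← CobarData.Bm_comp_assoc, ← CobarData.Bm_comp_assoc]
    exact congrArg (fun x => U.cobar.Bm s x ≫ mvB U X s (U.J ⊗ Y')) h

lemma pr_nat (a : ℕ) {P Z A A' : T} {n M N : ℤ} (h : n + M = N)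
    (v : P⟦n⟧ ⟶ R ⊗ U.cobar.B a Z) (g : Z⟦M⟧ ⟶ R ⊗ A) (f : A ⟶ A') :
    pr U a h v (g ≫ (R ◁ f)) = pr U a h v g ≫ (R ◁ U.cobar.Bm a f) := by
  have e : ext U a (g ≫ (R ◁ f)) = ext U a g ≫ (R ◁ U.cobar.Bm a f) := by
    rw [ext, ext, CobarData.Bm_comp, Category.assoc, mvB_nat, Category.assoc, Category.assoc]
  rw [pr, pr, e, oc_comp, Category.assoc, Category.assoc, mulMap_nat]

lemma ext_bc {s a c : ℕ} (hc : s + a = c) {Z A : T} {M : ℤ} (g : Z⟦M⟧ ⟶ R ⊗ A) :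
    (bc U hc Z)⟦M⟧' ≫ ext U s (ext U a g) = ext U c g ≫ (R ◁ bc U hc A) := by
  subst hc
  induction a generalizing Z A with
  | zero =>
    rw [ext_zero]
    exact ((congrArg (· ≫ ext U s g) (CategoryTheory.Functor.map_id _ _)).trans
      (Category.id_comp _)).trans ((congrArg (ext U s g ≫ ·)
        (MonoidalCategory.whiskerLeft_id _ _)).trans (Category.comp_id _)).symm
  | succ a ih =>
    rw [ext_succ]
    refine (ih _).trans ?_
    exact congrArg (· ≫ (R ◁ bc U rfl (U.J ⊗ A))) (ext_succ U (s + a) g).symm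

lemma pr_bc {s a c : ℕ} (hc : s + a = c) {P Z A : T} {n M N : ℤ} (h : n + M = N)
    (v : P⟦n⟧ ⟶ R ⊗ U.cobar.B c Z) (g : Z⟦M⟧ ⟶ R ⊗ A) :
    pr U s h (v ≫ (R ◁ bc U hc Z)) (ext U a g) = pr U c h v g ≫ (R ◁ bc U hc A) := by
  rw [pr, pr, oc, oc, sh_comp]
  simp only [Category.assoc]
  rw [csh_inv_nat_assoc, ← MonoidalCategory.whiskerLeft_comp_assoc, ext_bc,
    MonoidalCategory.whiskerLeft_comp_assoc, mulMap_nat]

lemma pr_q (a : ℕ) {P Z A : T} {n M N : ℤ} (h : n + M = N)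
    (τ : P⟦n⟧ ⟶ U.cobar.Q (a + 1) Z) (g : Z⟦M⟧ ⟶ R ⊗ A) (hg : Coc U g) :
    pr U a h (τ ≫ U.cobar.q a Z) g = sh n M N h τ ≫ U.κQ M (a + 1) Z ≫
      U.cobar.Qm a ((R ◁ g) ≫ mulMap R A) ≫ U.cobar.q a A := by
  rw [prim_q U g hg.prim, UnitCof.κQ_q_assoc, pr, oc, sh_comp, ext,
    MonoidalCategory.whiskerLeft_comp]
  simp only [Category.assoc]

variable {U}

lemma Coc.pre {P P' X : T} {z : P ⟶ R ⊗ X} (H : Coc U z) (φ : P' ⟶ P) : Coc U (φ ≫ z) := by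
  unfold Coc at H ⊢
  rw [Category.assoc, H, comp_zero]

lemma coc_unit {P X : T} (c : P ⟶ X) : Coc U (c ≫ unitMap R X) := by
  unfold Coc
  rw [Category.assoc, U.unitMap_ρ_assoc, zero_comp, comp_zero]

lemma Coc.oc {P Z Y : T} {n M N : ℤ} (h : n + M = N) {v : P⟦n⟧ ⟶ R ⊗ Z} (H : Coc U v)
    (g : Z⟦M⟧ ⟶ Y) : Coc U (oc h v g) := by
  have h1 : Coc U (sh n M N h v ≫ (csh R M Z).inv) := by
    unfold Coc at H ⊢
    have h2 := congrArg (sh n M N h) H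
    rw [map_zero, sh_comp, Functor.map_comp, ← unitMap_csh] at h2
    have h3 : (csh U.J M Z).inv ≫ unitMap R (U.J ⊗ Z⟦M⟧) = (unitMap R ((U.J ⊗ Z)⟦M⟧) ≫
        (csh R M (U.J ⊗ Z)).hom) ≫ (csh R M (U.J ⊗ Z)).inv ≫ (R ◁ (csh U.J M Z).inv) := by
      rw [Category.assoc, Iso.hom_inv_id_assoc, unitMap_nat]
    rw [Category.assoc, ← csh_inv_tlMap_assoc, h3, Category.assoc, reassoc_of% h2, zero_comp]
  have h4 := h1.nat g
  rw [Category.assoc] at h4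
  exact h4

lemma pj_k {P : T} (r : ℕ) (A : T) (t t' : ℤ) (h : t + ((r + 1 : ℕ) : ℤ) = t')
    (w : P⟦t'⟧ ⟶ R ⊗ U.cobar.B r A) :
    pj U P (r + 1) A t t' h (w ≫ U.cobar.k r A) = 0 := by
  induction r generalizing A t t' with
  | zero =>
    obtain rfl : t' = t + 1 := by rw [← h]; simp
    have h0 : (U.ρ ▷ A) ≫ U.bdry A = 0 :=
      comp_distTriang_mor_zero₂₃ _ (U.triangle_distinguished A)
    rw [pj_succ U 0 A t (t + 1) h (by simp), pj_zero, AddEquiv.map_eq_zero_iff]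
    exact (Category.assoc _ _ _).trans ((congrArg (w ≫ ·) h0).trans comp_zero)
  | succ r ih =>
    have h' : t + 1 + ((r + 1 : ℕ) : ℤ) = t' := by rw [← h]; push_cast; ring
    rw [pj_succ U (r + 1) A t t' h h', AddEquiv.map_eq_zero_iff]
    exact (congrArg (· ≫ U.bdry A) (ih (U.J ⊗ A) (t + 1) t' h' w)).trans zero_comp

lemma Lf.of_cbo {P A : T} {r : ℕ} (hr : 1 ≤ r) {t t' : ℤ} {h : t + (r : ℤ) = t'}
    {f : P⟦t⟧ ⟶ R ⊗ A} {c : P⟦t'⟧ ⟶ U.cobar.B (r + 1) A} (H : Lf U r h f c)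
    {y : P⟦t'⟧ ⟶ R ⊗ U.cobar.B (r + 1) A} (hy : CbO U (U.cobar.B r A) (c ≫ unitMap R _ - y)) :
    ∃ c' : P⟦t'⟧ ⟶ U.cobar.B (r + 1) A, Lf U r h f c' ∧ c' ≫ unitMap R _ = y := by
  obtain ⟨e, w, hw⟩ := hy
  refine ⟨c - w ≫ U.cobar.k r A, ?_, ?_⟩
  · obtain ⟨r, rfl⟩ : ∃ q, r = q + 1 := ⟨r - 1, by omega⟩
    refine (map_sub (pj U P (r + 1) (U.J ⊗ A) t t' h) _ _).trans ?_
    rw [H]
    exact sub_eq_self.2 (pj_k r (U.J ⊗ A) t t' h w)
  · rw [Preadditive.sub_comp, k_eq, Category.assoc, Category.assoc, ← hw, sub_sub_cancel]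

/-! ### The action of `V` -/

variable (U)

@[reassoc]
lemma uN_inB {V : T} (i : 𝟙_ T ⟶ V) (s : ℕ) (W : T) :
    uN i (U.cobar.B s W) ≫ inB U V s W = U.cobar.Bm s (uN i W) := by
  induction s generalizing W with
  | zero => exact Category.comp_id _
  | succ s ih =>
    rw [inB_succ, reassoc_of% (ih (U.J ⊗ W)), ← CobarData.Bm_comp, uN_sw]
    rfl

@[reassoc]
lemma inB_bc (X : T) {s b c : ℕ} (h : s + b = c) (A : T) :
    (X ◁ bc U h A) ≫ inB U X s (U.cobar.B b A) ≫ U.cobar.Bm s (inB U X b A) =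
      inB U X c A ≫ bc U h (X ⊗ A) := by
  subst h
  induction b generalizing A with
  | zero =>
    rw [inB_zero, CobarData.Bm_id]
    exact (congrArg (· ≫ inB U X s A ≫ 𝟙 _) (MonoidalCategory.whiskerLeft_id _ _)).trans
      (Category.id_comp _)
  | succ b ih =>
    have h1 := Bm_bc U (rfl : s + b = s + b) (sw X U.J A)
    rw [inB_succ, CobarData.Bm_comp]
    refine ((reassoc_of% (ih (U.J ⊗ A))) _).trans ?_
    rw [← h1]
    exact (Category.assoc _ _ _).symm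

/-- The action of `V` on `B b V`. -/
def actB {V : T} (m : V ⊗ V ⟶ V) (b : ℕ) : V ⊗ U.cobar.B b V ⟶ U.cobar.B b V :=
  inB U V b V ≫ U.cobar.Bm b m

lemma uN_actB {V : T} (i : 𝟙_ T ⟶ V) (m : V ⊗ V ⟶ V) (hm : (i ▷ V) ≫ m = (λ_ V).hom) (b : ℕ) :
    uN i (U.cobar.B b V) ≫ actB U m b = 𝟙 _ := by
  rw [actB, uN_inB_assoc, ← CobarData.Bm_comp, uN, Category.assoc, hm, Iso.inv_hom_id,
    CobarData.Bm_id]

lemma actB_bc {V : T} (m : V ⊗ V ⟶ V) {s b c : ℕ} (h : s + b = c) :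
    (V ◁ bc U h V) ≫ inB U V s (U.cobar.B b V) ≫ U.cobar.Bm s (actB U m b) =
      actB U m c ≫ bc U h V := by
  rw [actB, actB, CobarData.Bm_comp, inB_bc_assoc, Category.assoc, Bm_bc]

variable {U}

/-- The extension of `x : 𝟙⟦M⟧ ⟶ R ⊗ A` to `V`. -/
noncomputable def gV {V A : T} (a : V ⊗ A ⟶ A) {M : ℤ} (x : (𝟙_ T)⟦M⟧ ⟶ R ⊗ A) :
    V⟦M⟧ ⟶ R ⊗ A :=
  ((ρ_ V).inv)⟦M⟧' ≫ (lt V x ≫ sw V R A) ≫ (R ◁ a)

lemma i_gV {V A : T} (i : 𝟙_ T ⟶ V) {a : V ⊗ A ⟶ A} (ha : uN i A ≫ a = 𝟙 A) {M : ℤ}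
    (x : (𝟙_ T)⟦M⟧ ⟶ R ⊗ A) : i⟦M⟧' ≫ gV a x = x := by
  have h1 : i ≫ (ρ_ V).inv = uN i (𝟙_ T) := by
    rw [uN, rightUnitor_inv_naturality, unitors_inv_equal]
  rw [gV, lt, ← Functor.map_comp_assoc, h1, ← uN_csh]
  simp only [Category.assoc, Iso.hom_inv_id_assoc]
  rw [← uN_nat_assoc, uN_sw_assoc, ← MonoidalCategory.whiskerLeft_comp, ha,
    MonoidalCategory.whiskerLeft_id, Category.comp_id]

lemma Coc.gV {V A : T} (a : V ⊗ A ⟶ A) {M : ℤ} {x : (𝟙_ T)⟦M⟧ ⟶ R ⊗ A} (H : Coc U x) :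
    Coc U (gV a x) := by
  refine Coc.pre (Coc.nat ?_ a) _
  rw [lt, Category.assoc]
  exact (coc_of_prim (prim_sw V x H.prim)).pre _

lemma gV_nat {V A A' : T} {a : V ⊗ A ⟶ A} {a' : V ⊗ A' ⟶ A'} {f : A ⟶ A'}
    (hf : (V ◁ f) ≫ a' = a ≫ f) {M : ℤ} (x : (𝟙_ T)⟦M⟧ ⟶ R ⊗ A) :
    gV a' (x ≫ (R ◁ f)) = gV a x ≫ (R ◁ f) := by
  rw [gV, gV, lt_comp]
  simp only [Category.assoc]
  rw [sw_nat_right_assoc, ← MonoidalCategory.whiskerLeft_comp, hf,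
    MonoidalCategory.whiskerLeft_comp]

lemma Lf.gV {V A : T} (a : V ⊗ A ⟶ A) {r : ℕ} {t t' : ℤ} {h : t + (r : ℤ) = t'}
    {x : (𝟙_ T)⟦t⟧ ⟶ R ⊗ A} {c : (𝟙_ T)⟦t'⟧ ⟶ U.cobar.B (r + 1) A} (H : Lf U r h x c) :
    ∃ c' : V⟦t'⟧ ⟶ U.cobar.B (r + 1) A, Lf U r h (gV a x) c' ∧ c' ≫ unitMap R _ =
      P236L.gV (inB U V (r + 1) A ≫ U.cobar.Bm (r + 1) a) (c ≫ unitMap R _) := by
  refine ⟨_, ((H.lt V).nat a).pre (ρ_ V).inv, ?_⟩
  rw [P236L.gV, lt_comp]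
  simp only [Category.assoc]
  rw [whisker_unitMap_sw_assoc, ← unitMap_nat, Category.assoc]

end Tower

variable [HasCoproducts.{0} T] {D : MUData T} {U : UnitCof D.R} {V : T} {i : 𝟙_ T ⟶ V}

/-- The product in the `E₁`-term is the cup product. -/
theorem pr_Xi {m : V ⊗ V ⟶ V} (hm : (i ▷ V) ≫ m = (λ_ V).hom) {a b c : ℕ} (hc : a + b = c)
    {w v u : ℤ} (hw : w + v = u) (ht : 2 * w + 2 * v = 2 * u) (x : Cob.wt Laz a w)
    (y : Cob.wt Laz b v) (hy : Coc U (Xi D U i y)) :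
    pr U a ht (Xi D U i x) (gV (actB U m b) (Xi D U i y)) =
      Xi D U i (cupw hc hw x y) ≫ (D.R ◁ bc U hc V) := by
  subst hc
  have e1 : Xi D U i x = (ch D U x ≫ U.cobar.Qm (a + 1) i) ≫ U.cobar.q a V :=
    (Category.assoc _ _ _).symm
  have e2 : U.cobar.Qm (a + 1) (i⟦2 * v⟧') ≫
      U.cobar.Qm a ((D.R ◁ gV (actB U m b) (Xi D U i y)) ≫ mulMap D.R (U.cobar.B b V)) =
      U.cobar.Qm (a + 1) (ch D U y) ≫ U.cobar.Qm (a + 1) (U.cobar.Qm (b + 1) i) ≫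
        U.cobar.Qm a ((D.R ◁ U.cobar.q b V) ≫ mulMap D.R (U.cobar.B b V)) := by
    rw [CobarData.Qm_succ, CobarData.Qm_succ, CobarData.Qm_succ _ a, ← CobarData.Qm_comp,
      ← CobarData.Qm_comp, ← CobarData.Qm_comp]
    refine congrArg (U.cobar.Qm a) ?_
    refine (MonoidalCategory.whiskerLeft_comp_assoc _ _ _ _).symm.trans ?_
    rw [i_gV i (uN_actB U i m hm b), Xi, MonoidalCategory.whiskerLeft_comp,
      MonoidalCategory.whiskerLeft_comp, Category.assoc, Category.assoc]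
  rw [e1, pr_q U a ht _ _ (hy.gV _), sh_comp, Category.assoc, UnitCof.κQ_nat_assoc,
    reassoc_of% e2, omc_q, omc_nat_assoc, Xi, ch_cup D U hw ht]
  simp only [Category.assoc]

/-- **The Leibniz rule.** -/
theorem Dif.leibniz [IsTriangulated T] {m : V ⊗ V ⟶ V} (hm : (i ▷ V) ≫ m = (λ_ V).hom)
    {a a' b b' c c' : ℕ} {w w' v v' u u' : ℤ} (hl : a + 3 ≤ a') (hv : 0 ≤ v)
    (h1 : a + b = c) (h2 : a' + b = c') (h3 : a + b' = c')
    (k1 : w + v = u) (k2 : w' + v = u') (k3 : w + v' = u')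
    {x : Cob.wt Laz a w} {y : Cob.wt Laz a' w'} {x' : Cob.wt Laz b v} {y' : Cob.wt Laz b' v'}
    (Hx : Dif D U i x y) (Hx' : Dif D U i x' y') :
    Dif D U i (cupw h1 k1 x x') (cupw h2 k2 y x' + (-1 : ℤ) ^ a • cupw h3 k3 x y') := by
  obtain ⟨k, rfl⟩ := Int.eq_ofNat_of_zero_le hv
  obtain ⟨r, ha⟩ : ∃ r, r + 1 + a = a' := ⟨a' - a - 1, by omega⟩
  have hb : r + 1 + b = b' := by omega
  have hc : r + 1 + c = c' := by omega
  have hr : 2 ≤ r := by omega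
  have d1 := Hx.deg
  have t1 : 2 * w + (r : ℤ) = 2 * w' := by omega
  have t2 : 2 * (k : ℤ) + (r : ℤ) = 2 * v' := by omega
  have t3 : 2 * u + (r : ℤ) = 2 * u' := by omega
  have s1 : 2 * w + 2 * (k : ℤ) = 2 * u := by omega
  have s2 : 2 * w' + 2 * (k : ℤ) = 2 * u' := by omega
  have s3 : 2 * w + 2 * v' = 2 * u' := by omega
  obtain ⟨cx, Lx, ux⟩ := (dif_iff D U i r ha t1 x y).1 Hx
  obtain ⟨cx', Lx', ux'⟩ := (dif_iff D U i r hb t2 x' y').1 Hx'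
  obtain ⟨cg, Lg, ug⟩ := Lx'.gV (actB U m b)
  have cy' : Coc U (Xi D U i y') := by
    have h := (coc_unit (U := U) cx').nat (inv (bc U hb V))
    rwa [ux', Category.assoc, ← MonoidalCategory.whiskerLeft_comp, IsIso.hom_inv_id,
      MonoidalCategory.whiskerLeft_id, Category.comp_id] at h
  rw [ux', gV_nat (actB_bc U m hb)] at ug
  obtain ⟨e, Le, ue⟩ := leib1 U hr a k t1 s1 t2 t3 s3 s2 _ cx Lx _ cg Lg
  have cz : Coc U (pr U a s3 (Xi D U i x) (cg ≫ unitMap D.R _)) := by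
    rw [pr_unit_right]
    exact (Lx.coc (by omega)).oc _ _
  have cb := cbo_xch U a r _ _ cz
  have sg : (-1 : ℤ) ^ (a * (r + 1)) = (-1) ^ a := by
    obtain ⟨q, hq⟩ : ∃ q, r = 2 * q := ⟨r / 2, by omega⟩
    rw [hq, show a * (2 * q + 1) = 2 * (a * q) + a by ring, pow_add, pow_mul]
    simp
  rw [ux, pr_bc, pr_Xi hm h2 k2 s2 y x' (Lx'.coc (by omega))] at ue
  rw [sg] at cb
  rw [pr_Xi hm h1 k1 s1 x x' (Lx'.coc (by omega))] at Le
  have e0 := (B_add U h1 V).symm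
  have Le' := Le.nat (eqToHom e0)
  rw [Category.assoc, ← MonoidalCategory.whiskerLeft_comp, bc, eqToHom_trans, eqToHom_refl,
    MonoidalCategory.whiskerLeft_id, Category.comp_id] at Le'
  refine (dif_iff D U i r hc t3 _ _).2 (Le'.of_cbo (by omega) ?_)
  refine ((cb.cast (congrArg (U.cobar.B (r + 1)) e0)).obj (congrArg (U.cobar.B r) e0)).congr ?_
  rw [Category.assoc e, unitMap_nat (U.cobar.Bm (r + 1) (eqToHom e0)), ← Category.assoc e, ue,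
    Bm_eqToHom, Preadditive.sub_comp,
    Preadditive.add_comp, Xi_add, Xi_zsmul, Preadditive.add_comp, Preadditive.zsmul_comp,
    Preadditive.zsmul_comp]
  have z1 : (pr U a s3 (Xi D U i x) (cg ≫ unitMap D.R _) ≫
      (D.R ◁ eqToHom (B_comm U a (r + 1) (U.cobar.B b V)))) ≫
        (D.R ◁ eqToHom (congrArg (U.cobar.B (r + 1)) e0)) =
      Xi D U i (cupw h3 k3 x y') ≫ (D.R ◁ bc U hc V) := by
    rw [ug, pr_nat, pr_Xi hm h3 k3 s3 x y' cy', bc, bc, bc, Bm_eqToHom]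
    simp only [Category.assoc, ← MonoidalCategory.whiskerLeft_comp, eqToHom_trans]
  have z2 : ((Xi D U i (cupw h2 k2 y x') ≫ (D.R ◁ bc U h2 V)) ≫
      (D.R ◁ bc U ha (U.cobar.B b V))) ≫ (D.R ◁ eqToHom (congrArg (U.cobar.B (r + 1)) e0)) =
      Xi D U i (cupw h2 k2 y x') ≫ (D.R ◁ bc U hc V) := by
    rw [bc, bc, bc]
    simp only [Category.assoc, ← MonoidalCategory.whiskerLeft_comp, eqToHom_trans]
  rw [z1, z2]
  abel

end Vale.Agent.P236L
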