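import Vale.Agent.P236L.Sph
import Vale.Agent.P257.H820.Leib4
import Vale.Agent.P257.H766.NPack

/-!
# P236, block LEIB: the Leibniz rule for maps out of arbitrary test objects

* `pj U P r A`: the total collapse `Hom (P⟦t + r⟧, B r A) → Hom (P⟦t⟧, A)` of the tower;
* `Lf U r h f c`: the boundary of `f : P⟦t⟧ ⟶ R ⊗ A` is the collapse of `c`;
* `leib0`: the Leibniz rule.
-/

open CategoryTheory MonoidalCategory Limits Pretriangulated MonObj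

universe v u

set_option linter.unusedSectionVars false

namespace Vale.Agent.P236L

open Vale.Agent.P251.T Vale.Agent.P251.S Vale.Agent.P257.H820 Vale.Agent.P257.H712

variable {T : Type u} [Category.{v} T] [Preadditive T] [HasZeroObject T] [HasShift T ℤ]
  [∀ n : ℤ, (shiftFunctor T n).Additive] [Pretriangulated T] [MonoidalCategory T]
  [SymmetricCategory T] [TensorTriangulated T]

variable {R : T} [MonObj R]

/-- The Leibniz rule in the tower of `I`. -/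
theorem leibnizI {F : UFib R} {q : ℕ} (P : NPack F q) {A X Q : T}
    (f : X ⟶ R ⊗ A) (cf : X ⟶ (IB F.I (q + 2) A)⟦(1 : ℤ)⟧)
    (hf : f ≫ F.bI A = cf ≫ (IBcol F.ε (q + 1) (F.I ⊗ A))⟦(1 : ℤ)⟧')
    (x : Q ⟶ R ⊗ X) (cx : Q ⟶ (IB F.I (q + 2) X)⟦(1 : ℤ)⟧)
    (hx : x ≫ F.bI X = cx ≫ (IBcol F.ε (q + 1) (F.I ⊗ X))⟦(1 : ℤ)⟧') :
    ∃ e : Q ⟶ (IB F.I (q + 2) A)⟦(1 : ℤ)⟧,
      e ≫ (IBcol F.ε (q + 1) (F.I ⊗ A))⟦(1 : ℤ)⟧' = (x ≫ (R ◁ f) ≫ mulMap R A) ≫ F.bI A ∧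
      e ≫ (unitMap R (IB F.I (q + 2) A))⟦(1 : ℤ)⟧' =
        (x ≫ (R ◁ cf)) ≫ (csh R 1 (IB F.I (q + 2) A)).hom +
        cx ≫ (IBm F.I (q + 2) f)⟦(1 : ℤ)⟧' ≫ (IBmv F.I R (q + 2) A)⟦(1 : ℤ)⟧' := by
  obtain ⟨a', ha1, ha2⟩ := P.exists_lift_Θ f cf hf
  obtain ⟨y, hy1, hy2⟩ := P.exists_lift_Θ x cx hx
  obtain ⟨z, e₀, w, hz1, hz2, hw⟩ := P.toNData.leibniz a' _ ha2 y _ hy2
  obtain ⟨w', hw'⟩ : ∃ w' : Q ⟶ F.I ⊗ (P.K ⊗ A), w'⟦(1 : ℤ)⟧' = w ≫ F.bI (P.K ⊗ A) :=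
    ⟨(shiftFunctor T (1 : ℤ)).preimage _, Functor.map_preimage _ _⟩
  have hw1 : w' ≫ ep F.ε (P.K ⊗ A) = 0 := by
    apply (shiftFunctor T (1 : ℤ)).map_injective
    rw [Functor.map_comp, hw', Category.assoc, bI_ep, comp_zero, Functor.map_zero]
  have hz1' : z ≫ (P.r ▷ A) = x ≫ (R ◁ f) ≫ mulMap R A := by
    rw [hz1, hy1, ha1]
  have he1 : (e₀ - w') ≫ ep F.ε (P.K ⊗ A) = z ≫ (P.pr ▷ A) := by
    rw [Preadditive.sub_comp, hw1, sub_zero, hz2]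
  have he2 : (e₀ - w') ≫ unitMap R (F.I ⊗ (P.K ⊗ A)) =
      (y ≫ (P.r ▷ X)) ≫ (R ◁ (cf ≫ (P.Θ A).inv)) +
        (cx ≫ (P.Θ X).inv) ≫ (F.I ◁ (P.K ◁ (a' ≫ (P.r ▷ A)))) ≫
          (F.I ◁ sw P.K R A) ≫ sw F.I R (P.K ⊗ A) := by
    apply (shiftFunctor T (1 : ℤ)).map_injective
    have h1 : (w' ≫ unitMap R (F.I ⊗ (P.K ⊗ A)))⟦(1 : ℤ)⟧' = w ≫ F.dI (P.K ⊗ A) := by
      rw [Functor.map_comp, hw', UFib.dI, Category.assoc]
    rw [← h1, ← sub_eq_zero, ← Functor.map_sub] at hw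
    rw [← sub_eq_zero, ← Functor.map_sub, ← hw]
    congr 1
    rw [Preadditive.sub_comp]
    abel
  refine ⟨(e₀ - w') ≫ (P.Θ A).hom, ?_, ?_⟩
  · rw [Category.assoc, P.Θ_col, reassoc_of% he1, ← P.comm, ← hz1', Category.assoc]
  · have h2 : (P.Θ A).hom ≫ (unitMap R (IB F.I (q + 2) A))⟦(1 : ℤ)⟧' =
        unitMap R (F.I ⊗ (P.K ⊗ A)) ≫ (R ◁ (P.Θ A).hom) ≫
          (csh R 1 (IB F.I (q + 2) A)).hom := by
      rw [← unitMap_csh, unitMap_nat_assoc]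
    rw [Category.assoc, h2, reassoc_of% he2, Preadditive.add_comp]
    congr 1
    · simp only [Category.assoc]
      rw [reassoc_of% hy1]
      rw [← MonoidalCategory.whiskerLeft_comp_assoc, Category.assoc, Iso.inv_hom_id,
        Category.comp_id]
    · rw [ha1]
      simp only [Category.assoc]
      rw [P.Θ_sw, P.Θ_nat_assoc, Iso.inv_hom_id_assoc]

variable (U : UnitCof R)

/-- The total collapse of the tower. -/
noncomputable def pj (P : T) : ∀ (r : ℕ) (A : T) (t t' : ℤ), t + (r : ℤ) = t' →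
    ((P⟦t'⟧ ⟶ U.cobar.B r A) →+ (P⟦t⟧ ⟶ A))
  | 0, A, _, _, h => (cst P A (by rw [← h, Nat.cast_zero, add_zero])).toAddMonoidHom
  | r + 1, A, t, t', h => (sh t 1 (t + 1) rfl).symm.toAddMonoidHom.comp
      ((AddMonoidHom.mk' (fun y => y ≫ U.bdry A) (fun _ _ => Preadditive.add_comp ..)).comp
        (pj P r (U.J ⊗ A) (t + 1) t' (by rw [← h]; push_cast; ring)))

variable {P : T}

lemma pj_zero (A : T) (t : ℤ) (h : t + ((0 : ℕ) : ℤ) = t) (c : P⟦t⟧ ⟶ U.cobar.B 0 A) :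
    pj U P 0 A t t h c = c := rfl

lemma pj_succ (r : ℕ) (A : T) (t t' : ℤ) (h : t + ((r + 1 : ℕ) : ℤ) = t')
    (h' : t + 1 + (r : ℤ) = t') (c : P⟦t'⟧ ⟶ U.cobar.B (r + 1) A) :
    pj U P (r + 1) A t t' h c =
      (sh t 1 (t + 1) rfl).symm (pj U P r (U.J ⊗ A) (t + 1) t' h' c ≫ U.bdry A) := rfl

lemma pj_nat (r : ℕ) {A A' : T} (t t' : ℤ) (h : t + (r : ℤ) = t') (c : P⟦t'⟧ ⟶ U.cobar.B r A)
    (g : A ⟶ A') : pj U P r A' t t' h (c ≫ U.cobar.Bm r g) = pj U P r A t t' h c ≫ g := by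
  induction r generalizing A A' t t' with
  | zero =>
    obtain rfl : t' = t := by rw [← h]; simp
    rfl
  | succ r ih =>
    have h' : t + 1 + (r : ℤ) = t' := by rw [← h]; push_cast; ring
    rw [pj_succ U r A' t t' h h', pj_succ U r A t t' h h', sh_symm_comp, Category.assoc,
      ← U.bdry_nat, ← Category.assoc]
    congr 2
    exact ih (t + 1) t' h' c (U.J ◁ g)

lemma sh_pre {P P' Y : T} (φ : P' ⟶ P) (t k t' : ℤ) (h : t + k = t') (f : P⟦t⟧ ⟶ Y) :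
    sh t k t' h (φ⟦t⟧' ≫ f) = φ⟦t'⟧' ≫ sh t k t' h f := by
  have e : φ⟦t'⟧' ≫ (shiftFunctorAdd' T t k t' h).hom.app P =
      (shiftFunctorAdd' T t k t' h).hom.app P' ≫ (φ⟦t⟧')⟦k⟧' :=
    (shiftFunctorAdd' T t k t' h).hom.naturality φ
  simp only [sh, AddEquiv.coe_mk, Equiv.coe_fn_mk, Functor.map_comp]
  rw [reassoc_of% e]

lemma pj_pre {P' : T} (φ : P' ⟶ P) (r : ℕ) (A : T) (t t' : ℤ) (h : t + (r : ℤ) = t')
    (c : P⟦t'⟧ ⟶ U.cobar.B r A) :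
    pj U P' r A t t' h (φ⟦t'⟧' ≫ c) = φ⟦t⟧' ≫ pj U P r A t t' h c := by
  induction r generalizing A t t' with
  | zero =>
    obtain rfl : t' = t := by rw [← h]; simp
    rfl
  | succ r ih =>
    have h' : t + 1 + (r : ℤ) = t' := by rw [← h]; push_cast; ring
    rw [pj_succ U r A t t' h h', pj_succ U r A t t' h h', AddEquiv.symm_apply_eq, sh_pre,
      AddEquiv.apply_symm_apply, ← Category.assoc]
    congr 1
    exact ih (U.J ⊗ A) (t + 1) t' h' c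

/-- The boundary of `f` is the collapse of `c`. -/
def Lf (r : ℕ) {A : T} {t t' : ℤ} (h : t + (r : ℤ) = t') (f : P⟦t⟧ ⟶ R ⊗ A)
    (c : P⟦t'⟧ ⟶ U.cobar.B (r + 1) A) : Prop :=
  pj U P r (U.J ⊗ A) t t' h c = f ≫ (U.ρ ▷ A)

variable {U}

lemma Lf.nat {r : ℕ} {A A' : T} {t t' : ℤ} {h : t + (r : ℤ) = t'} {f : P⟦t⟧ ⟶ R ⊗ A}
    {c : P⟦t'⟧ ⟶ U.cobar.B (r + 1) A} (H : Lf U r h f c) (g : A ⟶ A') :
    Lf U r h (f ≫ (R ◁ g)) (c ≫ U.cobar.Bm (r + 1) g) := by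
  refine (pj_nat U r t t' h c (U.J ◁ g)).trans ?_
  rw [H, Category.assoc, Category.assoc, whisker_exchange]

lemma Lf.pre {P' : T} (φ : P' ⟶ P) {r : ℕ} {A : T} {t t' : ℤ} {h : t + (r : ℤ) = t'}
    {f : P⟦t⟧ ⟶ R ⊗ A} {c : P⟦t'⟧ ⟶ U.cobar.B (r + 1) A} (H : Lf U r h f c) :
    Lf U r h (φ⟦t⟧' ≫ f) (φ⟦t'⟧' ≫ c) := by
  refine (pj_pre U φ r _ t t' h c).trans ?_
  rw [H, Category.assoc]

@[reassoc]
lemma csI_col {I : T} (ε : I ⟶ 𝟙_ T) (s : ℕ) (Z : T) :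
    (csI I s Z).hom ≫ (IBcol ε s Z)⟦(1 : ℤ)⟧' = IBcol ε s (Z⟦(1 : ℤ)⟧) := by
  induction s generalizing Z with
  | zero =>
    rw [csI_zero_hom, IBcol_zero, IBcol_zero, Category.id_comp]
    exact CategoryTheory.Functor.map_id _ _
  | succ s ih =>
    rw [csI_succ_hom, IBcol_succ, IBcol_succ, Functor.map_comp, Category.assoc,
      reassoc_of% (ih (I ⊗ Z)), IBcol_nat_assoc, csh_ep]

section Link

variable {F : UFib R} (L : Link U F)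

lemma ψ_col (r : ℕ) (A : T) : (L.ψ r A).hom ≫ (IBcol F.ε r (F.I ⊗ A))⟦(1 : ℤ)⟧' =
    IBcol F.ε r (U.J ⊗ A) ≫ (L.χ A).hom := by
  rw [Link.ψ_hom, Category.assoc, csI_col, IBcol_nat]

lemma ΦB_col (r : ℕ) (A : T) (t t' : ℤ) (h : t + (r : ℤ) = t') (c : P⟦t'⟧ ⟶ U.cobar.B r A) :
    L.ΦB P r A t t' h c ≫ IBcol F.ε r A = pj U P r A t t' h c := by
  induction r generalizing A t t' with
  | zero =>
    obtain rfl : t' = t := by rw [← h]; simp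
    exact Category.comp_id _
  | succ r ih =>
    have h' : t + 1 + (r : ℤ) = t' := by rw [← h]; push_cast; ring
    rw [pj_succ U r A t t' h h', Link.ΦB_succ, sh_symm_comp, IBcol_succ, Functor.map_comp,
      Category.assoc, reassoc_of% (ψ_col L r A), ← L.bdry_eq, ← ih (U.J ⊗ A) (t + 1) t' h' c,
      Category.assoc]

/-- The translation to the tower of `I`. -/
noncomputable def toI' (P : T) (r : ℕ) (A : T) (t t' : ℤ) (h : t + (r : ℤ) = t') :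
    (P⟦t'⟧ ⟶ U.cobar.B (r + 1) A) ≃+ (P⟦t⟧ ⟶ (IB F.I (r + 1) A)⟦(1 : ℤ)⟧) :=
  (L.ΦB P r (U.J ⊗ A) t t' h).trans (postE _ (L.ψ r A))

lemma toI'_apply (r : ℕ) (A : T) (t t' : ℤ) (h : t + (r : ℤ) = t')
    (c : P⟦t'⟧ ⟶ U.cobar.B (r + 1) A) :
    toI' L P r A t t' h c = L.ΦB P r (U.J ⊗ A) t t' h c ≫ (L.ψ r A).hom := rfl

lemma lf_iff (r : ℕ) {A : T} {t t' : ℤ} (h : t + (r : ℤ) = t') (f : P⟦t⟧ ⟶ R ⊗ A)
    (c : P⟦t'⟧ ⟶ U.cobar.B (r + 1) A) : Lf U r h f c ↔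
      f ≫ F.bI A = (-toI' L P r A t t' h c) ≫ (IBcol F.ε r (F.I ⊗ A))⟦(1 : ℤ)⟧' := by
  rw [toI'_apply, Preadditive.neg_comp, Category.assoc, ψ_col, ← Category.assoc, ΦB_col, Lf,
    ← cancel_mono (L.χ A).hom, Category.assoc, L.ρ_χ, Preadditive.comp_neg, eq_neg_iff_add_eq_zero,
    eq_neg_iff_add_eq_zero, add_comm]

end Link

/-- **The Leibniz rule.** -/
theorem leib0 [IsTriangulated T] (U : UnitCof R) {r : ℕ} (hr : 2 ≤ r) {P Z A : T}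
    {n M N tf te : ℤ} (hN : n + M = N) (hf : M + (r : ℤ) = tf) (he : N + (r : ℤ) = te)
    (hoc : n + tf = te)
    (f : Z⟦M⟧ ⟶ R ⊗ A) (cf : Z⟦tf⟧ ⟶ U.cobar.B (r + 1) A) (Hf : Lf U r hf f cf)
    (v : P⟦n⟧ ⟶ R ⊗ Z) (cx : P⟦te⟧ ⟶ U.cobar.B (r + 1) (Z⟦M⟧))
    (Hx : Lf U r he (oc hN v (𝟙 (Z⟦M⟧))) cx) :
    ∃ e : P⟦te⟧ ⟶ U.cobar.B (r + 1) A, Lf U r he (oc hN v f ≫ mulMap R A) e ∧
      e ≫ unitMap R (U.cobar.B (r + 1) A) =
        oc hoc v cf + cx ≫ U.cobar.Bm (r + 1) f ≫ mvB U R (r + 1) A := by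
  obtain ⟨F, ⟨L⟩⟩ := exists_link U
  obtain ⟨q, rfl⟩ : ∃ q, r = q + 1 := ⟨r - 1, by omega⟩
  obtain ⟨Pk⟩ := Vale.Agent.P257.H766.exists_npack F q (by omega)
  have h3 : ∀ {Y : T} (g : Z⟦M⟧ ⟶ Y), oc hN v (𝟙 (Z⟦M⟧)) ≫ (R ◁ g) = oc hN v g := fun g => by
    rw [← oc_comp, Category.id_comp]
  obtain ⟨e, he1, he2⟩ := leibnizI Pk f _ ((lf_iff L _ hf f cf).1 Hf) _ _
    ((lf_iff L _ he _ cx).1 Hx)
  rw [← Category.assoc (oc hN v _), h3] at he1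
  rw [h3, oc_neg, Preadditive.neg_comp, Preadditive.neg_comp, ← neg_add] at he2
  obtain ⟨y, hy⟩ := (toI' L P (q + 1) A N te he).surjective (-e)
  refine ⟨y, ?_, ?_⟩
  · rw [lf_iff L, hy, neg_neg, he1]
  · apply (L.ΦR P (q + 1) (U.J ⊗ A) N te he).injective
    rw [← cancel_mono (R ◁ (L.ψ (q + 1) A).hom), ← cancel_mono (csh R 1 _).hom]
    have h4 := L.ΦR_un (q + 1) (U.J ⊗ A) N te he y
    have h5 := L.ΦR_oc (q + 1) (U.J ⊗ A) hf hN he v cf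
    have h6 := L.ΦR_mv (q + 1) (U.J ⊗ A) N te he
      (cx ≫ U.cobar.Bm (q + 1) (U.J ◁ f) ≫ U.cobar.Bm (q + 1) (sw U.J R A))
    have h7 : cx ≫ U.cobar.Bm (q + 1 + 1) f ≫ mvB U R (q + 1 + 1) A =
        (cx ≫ U.cobar.Bm (q + 1) (U.J ◁ f) ≫ U.cobar.Bm (q + 1) (sw U.J R A)) ≫
          mvB U R (q + 1) (U.J ⊗ A) := by
      rw [mvB_succ, CobarData.Bm_succ]
      simp only [Category.assoc]
    have h8 := L.ΦB_nat (q + 1) N te he (cx ≫ U.cobar.Bm (q + 1) (U.J ◁ f)) (sw U.J R A)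
    have h9 := L.ΦB_nat (q + 1) N te he cx (U.J ◁ f)
    rw [Category.assoc, h9] at h8
    rw [h8] at h6
    refine Eq.trans (congrArg (fun z => (z ≫ (R ◁ (L.ψ (q + 1) A).hom)) ≫ (csh R 1 _).hom) h4) ?_
    rw [map_add, h7, h6, h5, Preadditive.add_comp, Preadditive.add_comp, ← oc_comp]
    simp only [Category.assoc]
    rw [L.mv_ψ, reassoc_of% (L.ψ_nat (q + 1) f), ← unitMap_nat_assoc, unitMap_csh,
      ← Category.assoc, ← toI'_apply, hy, Preadditive.neg_comp, he2, neg_neg, toI'_apply,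
      toI'_apply]
    simp only [Category.assoc]

end Vale.Agent.P236L
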