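import Vale.Agent.P236L.Comm
import Vale.Agent.P236L.Mul
import Vale.Agent.P257.H314.Line

/-!
# P236: the sparse calculus of differentials for `V = S / 3`

All statements are about cochains `Co s T`.  Differentials have length `4 k + 1`.
-/

open CategoryTheory MonoidalCategory Limits Pretriangulated

set_option linter.unusedSectionVars false

universe v u

namespace Vale.Agent.P236L

open Vale.Agent.P251 Vale.Agent.P251.T Vale.Agent.P251.F Vale.Agent.P251.I
  Vale.Agent.P251.M Vale.Agent.P257.H314 Vale.Agent.P236K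
open Vale.Agent.P251.S hiding IC

lemma cbd_of_algVan {p k s : ℕ} {w : ℤ} (h : AlgVan p k s w) {z : Cob.wt Laz s w}
    (hz : Cob.d s z.1 ∈ IC p k (s + 1)) : Cbd p k z := by
  cases s with
  | zero => exact h z.1 z.2 hz
  | succ s =>
    obtain ⟨y, hy, h⟩ := h z.1 z.2 hz
    exact ⟨⟨y, hy⟩, h⟩

/-- Cocycles of odd or small weight are coboundaries. -/
lemma cbd_of_line {s : ℕ} {w : ℤ} (hw : ¬ ∃ W : ℕ, w = 2 * (W : ℤ) ∧ s ≤ W) {z : Cob.wt Laz s w}
    (hz : Cob.d s z.1 ∈ IC 3 1 (s + 1)) : Cbd 3 1 z := by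
  refine cbd_of_algVan (algVan_line (p := 3) (h := 1) le_rfl ?_) hz
  rintro ⟨⟨l, hl⟩, h⟩
  push_cast at hl h
  exact hw ⟨l.toNat, by omega, by omega⟩

lemma isB_of_lt {s W : ℕ} (h : W < s) {z : Co s W} (hz : IsZ z) : IsB z :=
  (isB_iff z).2 (cbd_of_line (by rintro ⟨l, h1, h2⟩; omega) hz)

lemma isZ_zero {s W : ℕ} : IsZ (0 : Co s W) := by
  change Cob.d s 0 ∈ _
  rw [map_zero]
  exact zero_mem _

lemma isZ_add {s W : ℕ} {z z' : Co s W} (h : IsZ z) (h' : IsZ z') : IsZ (z + z') := by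
  change Cob.d s (z.1 + z'.1) ∈ _
  rw [map_add]
  exact add_mem h h'

lemma isZ_sub {s W : ℕ} {z z' : Co s W} (h : IsZ z) (h' : IsZ z') : IsZ (z - z') := by
  change Cob.d s (z.1 - z'.1) ∈ _
  rw [map_sub]
  exact sub_mem h h'

lemma isZ_zsmul {s W : ℕ} {z : Co s W} (h : IsZ z) (a : ℤ) : IsZ (a • z) := by
  change Cob.d s (a • z.1) ∈ _
  rw [map_zsmul]
  exact zsmul_mem h a

lemma isZ_of_isB {s W : ℕ} {z : Co s W} (h : IsB z) : IsZ z := by
  cases s with
  | zero => exact d_mem_IC h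
  | succ s => exact Cbd.cocycle (p := 3) (k := 1) h

variable {T : Type u} [Category.{v} T] [Preadditive T] [HasZeroObject T]
    [HasShift T ℤ] [∀ n : ℤ, (shiftFunctor T n).Additive] [Pretriangulated T]
    [MonoidalCategory T] [SymmetricCategory T] [TensorTriangulated T] [HasCoproducts.{0} T]
    {D : MUData T} {U : UnitCof D.R} {V : T} {i : 𝟙_ T ⟶ V}

section General

variable {p k : ℕ} [Fact p.Prime] (G : Gen D U i (IC p k)) {s t : ℕ} {w : ℤ}

include G

lemma Gen.bd_of_cbd {z : Cob.wt Laz s w} (hz : Cbd p k z) (ht : t ≤ s - 1) : Bd D U i t z := by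
  cases s with
  | zero => exact G.bd_of_mem ht hz
  | succ s =>
    obtain ⟨y, hy⟩ := hz
    exact (bd_d y ht).congr G (by rw [Cob.coe_dwt, ← neg_sub]; exact neg_mem hy)

lemma Gen.cbd_of_bd {z : Cob.wt Laz s w} (hz : Cob.d s z.1 ∈ IC p k (s + 1)) (ht : s ≤ t + 1)
    (H : Bd D U i t z) : Cbd p k z := by
  cases s with
  | zero => exact G.bd_zero_iff.1 (H.mono (Nat.zero_le _))
  | succ s => exact (G.bd_iff hz).1 (H.mono (by omega))

lemma Gen.perm_of_cbd {z : Cob.wt Laz s w} (hz : Cbd p k z) : Perm D U i z :=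
  (G.bd_of_cbd hz le_rfl).perm

end General

variable (G : Gen D U i (IC 3 1)) {s s' t W W' : ℕ}

include G

lemma Gen.bd_of_isB {z : Co s W} (hz : IsB z) (ht : t ≤ s - 1) : Bd D U i t z :=
  G.bd_of_cbd ((isB_iff z).1 hz) ht

lemma Gen.perm_of_isB {z : Co s W} (hz : IsB z) : Perm D U i z :=
  G.perm_of_cbd ((isB_iff z).1 hz)

/-- `Perm` only depends on the cohomology class. -/
lemma Gen.perm_congr {z z' : Co s W} (H : Perm D U i z) (h : IsB (z' - z)) : Perm D U i z' := by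
  have := H.add (G.perm_of_isB h)
  rwa [add_sub_cancel] at this

/-- `Bd` only depends on the cohomology class. -/
lemma Gen.bd_congr {z z' : Co s W} (H : Bd D U i t z) (h : IsB (z' - z)) (ht : t ≤ s - 1) :
    Bd D U i t z' := by
  have := H.add (G.bd_of_isB h ht)
  rwa [add_sub_cancel] at this

/-- `Dif` only depends on the cohomology classes. -/
lemma Gen.dif_congr {x x' : Co s W} {y y' : Co s' W'} (H : Dif D U i x y) (hs : s + 2 ≤ s')
    (hx : IsB (x' - x)) (hy : IsB (y' - y)) : Dif D U i x' y' :=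
  (H.of_perm_sub (G.perm_of_isB hx)).of_bd_sub (G.bd_of_isB hy (by omega))

/-- Only the differentials of length `4 k + 1` kill something. -/
theorem Gen.bd_succ4 {y : Co s W} (H : Bd D U i t y) (ht : t + 2 ≤ s)
    (hv : ∀ k W₀ : ℕ, s = t + 4 * k + 1 → W = W₀ + k → ∀ u : Co t W₀, IsZ u → Dif D U i u y →
      Bd D U i (t + 1) y) : Bd D U i (t + 1) y := by
  refine G.bd_succ H ht fun w₀ u hu hd => ?_
  by_cases h : ∃ W₀ : ℕ, w₀ = 2 * (W₀ : ℤ) ∧ t ≤ W₀
  · obtain ⟨W₀, rfl, -⟩ := h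
    have e := hd.deg
    exact hv (W - W₀) W₀ (by omega) (by omega) u hu hd
  · exact (G.perm_of_cbd (cbd_of_line h hu)).bd hd

/-- The rule `B_succ`. -/
theorem Gen.bd_succ_of_perm {y : Co s W} (H : Bd D U i t y) (ht : t + 2 ≤ s)
    (hv : ∀ k W₀ : ℕ, s = t + 4 * k + 1 → W = W₀ + k → ∀ u : Co t W₀, IsZ u → Perm D U i u) :
    Bd D U i (t + 1) y :=
  G.bd_succ4 H ht fun k W₀ h1 h2 u hu hd => (hv k W₀ h1 h2 u hu).bd hd

/-- Raising the filtration of the source through lengths which are not `1` modulo `4`. -/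
theorem Gen.bd_up {y : Co s W} (H : Bd D U i t y) {t' : ℕ} (ht : t' + 1 ≤ s)
    (hv : ∀ r k : ℕ, t ≤ r → r < t' → s ≠ r + 4 * k + 1) : Bd D U i t' y := by
  by_cases h : t' ≤ t
  · exact H.mono h
  · have key : ∀ n : ℕ, t + n ≤ t' → Bd D U i (t + n) y := by
      intro n
      induction n with
      | zero => exact fun _ => H
      | succ n ih =>
        intro hn
        exact G.bd_succ4 (t := t + n) (ih (by omega)) (by omega)
          fun k _ h1 => absurd h1 (hv _ k (by omega) (by omega))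
    have := key (t' - t) (by omega)
    rwa [show t + (t' - t) = t' by omega] at this

/-- There are no differentials of lengths `2, 3, 4`. -/
theorem Gen.isB_of_bd {y : Co s W} (hy : IsZ y) (H : Bd D U i t y) (ht : s ≤ t + 4) : IsB y := by
  refine (isB_iff y).2 ?_
  cases s with
  | zero => exact G.cbd_of_bd hy (by omega) H
  | succ s => exact G.cbd_of_bd hy le_rfl (G.bd_up H le_rfl fun r k h1 h2 => by omega)

/-- A boundary is the target of a differential (rules `B_elim5`, `B_elim9`). -/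
theorem Gen.bd_elim {k : ℕ} (hk : 1 ≤ k) (h1 : s' = s + 4 * k + 1) (h2 : W' = W + k)
    {y : Co s' W'} (H : Bd D U i t y) (ht : s ≤ t + 3) :
    ∃ a : Co s W, IsZ a ∧ Dif D U i a y := by
  have H' : Bd D U i s y := G.bd_up H (by omega) fun r l h3 h4 => by omega
  obtain ⟨a, ha, hd⟩ := G.hit H' (by omega) (w₀ := 2 * (W : ℤ)) (by omega)
  exact ⟨a, ha (by omega), hd⟩

/-- The next differential. -/
theorem Gen.next {x : Co s W} {y : Co s' W'} (H : Dif D U i x y) (H' : Bd D U i (s + 1) y)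
    {s'' W'' : ℕ} (h1 : s'' = s' + 4) (h2 : W'' = W' + 1) :
    ∃ y'' : Co s'' W'', IsZ y'' ∧ Dif D U i x y'' := by
  obtain ⟨y₁, hy₁, hd⟩ := G.step H H' rfl rfl
  have := H.lt
  exact G.step hd (G.bd_of_cbd (cbd_of_line (by rintro ⟨l, h, -⟩; omega) hy₁) (by omega))
    (by omega) (by omega)

/-- Existence of `d₅`. -/
theorem Gen.ex5 {x : Co s W} (hx : IsZ x) (h1 : s' = s + 5) (h2 : W' = W + 1) :
    ∃ y : Co s' W', IsZ y ∧ Dif D U i x y := by
  obtain ⟨y₁, hy₁, hd⟩ := G.start hx rfl rfl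
  exact G.step hd (G.bd_of_cbd (cbd_of_line (by rintro ⟨l, h, -⟩; omega) hy₁) (by omega))
    (by omega) (by omega)

/-- Uniqueness of `d₅`. -/
theorem Gen.uniq5 (h1 : s' = s + 5) {x x' : Co s W} {y y' : Co s' W'} (H : Dif D U i x y)
    (H' : Dif D U i x' y') (hy : IsZ y) (hy' : IsZ y') (hx : Perm D U i (x - x')) :
    IsB (y - y') :=
  G.isB_of_bd (isZ_sub hy hy') (hx.bd (H.sub H')) (by omega)

/-- `d₅` vanishes on permanent cycles. -/
theorem Gen.perm5 (h1 : s' = s + 5) {x : Co s W} {y : Co s' W'} (H : Dif D U i x y)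
    (hy : IsZ y) (hx : Perm D U i x) : IsB y :=
  G.isB_of_bd hy (hx.bd H) (by omega)

/-- `d₅` vanishes on the source of a longer differential. -/
theorem Gen.isB5_of_dif (h1 : s' = s + 5) {x : Co s W} {y : Co s' W'} (H : Dif D U i x y)
    (hy : IsZ y) {s'' : ℕ} {w'' : ℤ} {z : Cob.wt Laz s'' w''} (H' : Dif D U i x z)
    (hs : s' < s'') : IsB y := by
  have := H.bd_sub (H'.zero_of_lt H.lt hs H.deg)
  rw [sub_zero] at this
  exact G.isB_of_bd hy this (by omega)

/-- Existence of `d₉`. -/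
theorem Gen.ex9 {x : Co s W} {y : Co s' W'} (H : Dif D U i x y) (hy : IsB y) (h0 : s' = s + 5)
    {s'' W'' : ℕ} (h1 : s'' = s + 9) (h2 : W'' = W + 2) :
    ∃ y'' : Co s'' W'', IsZ y'' ∧ Dif D U i x y'' := by
  have := H.deg
  exact G.next H (G.bd_of_isB hy (by omega)) (by omega) (by omega)

/-- Uniqueness of `d₉`: two values differ by a value of `d₅`. -/
theorem Gen.uniq9 (h1 : s' = s + 9) {x x' : Co s W} {y y' : Co s' W'} (H : Dif D U i x y)
    (H' : Dif D U i x' y') (hx : Perm D U i (x - x')) {s₁ W₁ : ℕ} (h2 : s₁ = s + 4)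
    (h3 : W₁ = W + 1) : ∃ c : Co s₁ W₁, IsZ c ∧ Dif D U i c (y - y') := by
  have := H.deg
  exact G.bd_elim (k := 1) le_rfl (by omega) (by omega) (hx.bd (H.sub H')) (by omega)

/-- `d₉` of a permanent cycle is a value of `d₅`. -/
theorem Gen.perm9 (h1 : s' = s + 9) {x : Co s W} {y : Co s' W'} (H : Dif D U i x y)
    (hx : Perm D U i x) {s₁ W₁ : ℕ} (h2 : s₁ = s + 4) (h3 : W₁ = W + 1) :
    ∃ c : Co s₁ W₁, IsZ c ∧ Dif D U i c y := by
  have := H.deg
  exact G.bd_elim (k := 1) le_rfl (by omega) (by omega) (hx.bd H) (by omega)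

variable [MonoidalClosed T] [IsTriangulated T] [HasProducts.{0} T] [StableCat T]

/-- Convergence. -/
theorem Gen.perm4 (hV : BigCell T 0 V) {x : Co s W} (hx : IsZ x)
    (H : ∀ k : ℕ, 1 ≤ k → ∀ y : Co (s + 4 * k + 1) (W + k), IsZ y → Dif D U i x y →
      Bd D U i (s + 1) y) : Perm D U i x := by
  refine G.perm hV hx fun s' w' y hs hy hd => ?_
  by_cases h : ∃ W₀ : ℕ, w' = 2 * (W₀ : ℤ) ∧ s' ≤ W₀
  · obtain ⟨W₀, rfl, -⟩ := h
    have e := hd.deg
    obtain ⟨k, rfl⟩ : ∃ k, W₀ = W + k := ⟨W₀ - W, by omega⟩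
    obtain rfl : s' = s + 4 * k + 1 := by omega
    exact H k (by omega) y hy hd
  · exact G.bd_of_cbd (cbd_of_line h hy) (by omega)

/-- The rule `P_of`: `y` is a value of `d₉` on `x` which is killed by a shorter differential. -/
theorem Gen.perm_of (hV : BigCell T 0 V) {x : Co s W} (hx : IsZ x) {y : Co s' W'}
    (h1 : s' = s + 9) (hd : Dif D U i x y) (hy : Bd D U i (s + 1) y)
    (H : ∀ k : ℕ, 3 ≤ k → ∀ y : Co (s + 4 * k + 1) (W + k), IsZ y → Perm D U i y →
      Bd D U i (s + 1) y) : Perm D U i x := by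
  refine G.perm4 hV hx fun k hk z hz hd' => ?_
  have e := hd.deg
  obtain rfl | rfl | h3 : k = 1 ∨ k = 2 ∨ 3 ≤ k := by omega
  · have := hd'.bd_sub (hd.zero_of_lt hd'.lt (by omega) hd'.deg)
    rwa [sub_zero] at this
  · obtain rfl : W' = W + 2 := by omega
    subst h1
    have := (hd'.bd_sub hd).add hy
    rwa [sub_add_cancel] at this
  · exact H k h3 z hz hd'.bd.perm

end Vale.Agent.P236L
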