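import Vale.Agent.P257.H545.StepPre

/-!
# P236, block LEIB: a multiplicative family of isomorphisms `S^{2w} ≅ 𝟙⟦2w⟧`

`sM T w : S w ≅ 𝟙⟦2 w⟧` with `prodSph (sM w) (sM v) = sM (w + v)` (`prodSph_sM`).
-/

open CategoryTheory MonoidalCategory Limits Pretriangulated MonObj

set_option linter.unusedSectionVars false

universe v u

namespace Vale.Agent.P236L

open Vale.Agent.P251 Vale.Agent.P251.T Vale.Agent.P251.M Vale.Agent.P251.S

variable {T : Type u} [Category.{v} T] [Preadditive T] [HasZeroObject T]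
    [HasShift T ℤ] [∀ n : ℤ, (shiftFunctor T n).Additive] [Pretriangulated T]
    [MonoidalCategory T] [SymmetricCategory T] [TensorTriangulated T]

@[reassoc]
lemma csh_add (X Z : T) (k l m : ℤ) (h : k + l = m) :
    (X ◁ (shiftFunctorAdd' T k l m h).inv.app Z) ≫ (csh X m Z).hom =
      (csh X l (Z⟦k⟧)).hom ≫ ((csh X k Z).hom)⟦l⟧' ≫
        (shiftFunctorAdd' T k l m h).inv.app (X ⊗ Z) := by
  subst h
  have h1 : (csh X (k + l) Z).hom = (X ◁ (shiftFunctorAdd' T k l (k + l) rfl).hom.app Z) ≫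
      (csh X l (Z⟦k⟧)).hom ≫ ((csh X k Z).hom)⟦l⟧' ≫
        (shiftFunctorAdd' T k l (k + l) rfl).inv.app (X ⊗ Z) := by
    have h2 := Functor.commShiftIso_add (tensorLeft X) k l
    have h3 := congrArg (fun e => e.hom.app Z) h2
    rw [Functor.CommShift.isoAdd_hom_app] at h3
    rw [shiftFunctorAdd'_eq_shiftFunctorAdd]
    exact h3
  rw [h1, ← MonoidalCategory.whiskerLeft_comp_assoc, Iso.inv_hom_id_app,
    MonoidalCategory.whiskerLeft_id, Category.id_comp]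

lemma csh_zero (X Z : T) : (csh X 0 Z).hom =
    (X ◁ (shiftFunctorZero T ℤ).hom.app Z) ≫ (shiftFunctorZero T ℤ).inv.app (X ⊗ Z) := by
  have h2 := Functor.commShiftIso_zero (tensorLeft X) ℤ
  have h3 := congrArg (fun e => e.hom.app Z) h2
  rw [Functor.CommShift.isoZero_hom_app] at h3
  exact h3

lemma tensorSph_hom (k : ℤ) (Y : T) :
    (tensorSph k Y).hom = (csh Y k (𝟙_ T)).hom ≫ ((ρ_ Y).hom)⟦k⟧' := rfl

/-- `X⟦a⟧ ⊗ 𝟙⟦b⟧ ⟶ X⟦c⟧`. -/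
noncomputable def nu (X : T) (a b c : ℤ) (h : a + b = c) : (X⟦a⟧) ⊗ ((𝟙_ T)⟦b⟧) ⟶ X⟦c⟧ :=
  (tensorSph b (X⟦a⟧)).hom ≫ (shiftFunctorAdd' T a b c h).inv.app X

@[reassoc]
lemma whiskerLeft_nu (X : T) (b c d : ℤ) (h : b + c = d) :
    (X ◁ nu (𝟙_ T) b c d h) ≫ (tensorSph d X).hom =
      (α_ X ((𝟙_ T)⟦b⟧) ((𝟙_ T)⟦c⟧)).inv ≫ (tensorSph c (X ⊗ (𝟙_ T)⟦b⟧)).hom ≫
        ((tensorSph b X).hom)⟦c⟧' ≫ (shiftFunctorAdd' T b c d h).inv.app X := by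
  have h1 := csh_associator X ((𝟙_ T)⟦b⟧) c (𝟙_ T)
  have h2 : (ρ_ (X ⊗ (𝟙_ T)⟦b⟧)).hom =
      (α_ X ((𝟙_ T)⟦b⟧) (𝟙_ T)).hom ≫ (X ◁ (ρ_ ((𝟙_ T)⟦b⟧)).hom) := by simp
  have h3 : (((ρ_ X).hom)⟦b⟧')⟦c⟧' ≫ (shiftFunctorAdd' T b c d h).inv.app X =
      (shiftFunctorAdd' T b c d h).inv.app (X ⊗ 𝟙_ T) ≫ ((ρ_ X).hom)⟦d⟧' :=
    (shiftFunctorAdd' T b c d h).inv.naturality _
  rw [nu, tensorSph_hom, tensorSph_hom, tensorSph_hom, tensorSph_hom, h2]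
  simp only [MonoidalCategory.whiskerLeft_comp, Functor.map_comp, Category.assoc]
  rw [csh_add_assoc, csh_nat_assoc, reassoc_of% h1, Iso.inv_hom_id_assoc, h3]

lemma nu_assoc (X : T) (a b c ab bc d : ℤ) (h1 : a + b = ab) (h2 : b + c = bc)
    (h3 : ab + c = d) (h4 : a + bc = d) :
    (nu X a b ab h1 ▷ ((𝟙_ T)⟦c⟧)) ≫ nu X ab c d h3 =
      (α_ _ _ _).hom ≫ ((X⟦a⟧) ◁ nu (𝟙_ T) b c bc h2) ≫ nu X a bc d h4 := by
  have e := shiftFunctorAdd'_assoc_inv_app (C := T) a b c ab bc d h1 h2 (by rw [h1, h3]) X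
  have e1 : nu X a bc d h4 =
    (tensorSph bc (X⟦a⟧)).hom ≫ (shiftFunctorAdd' T a bc d h4).inv.app X := rfl
  have e2 : nu X ab c d h3 =
    (tensorSph c (X⟦ab⟧)).hom ≫ (shiftFunctorAdd' T ab c d h3).inv.app X := rfl
  rw [e1, e2, whiskerLeft_nu_assoc, Iso.hom_inv_id_assoc, tensorSph_naturality_assoc, nu,
    Functor.map_comp, Category.assoc, e]

lemma nu_zero (X : T) (a : ℤ) (h : a + 0 = a) :
    nu X a 0 a h = ((X⟦a⟧) ◁ (shiftFunctorZero T ℤ).hom.app (𝟙_ T)) ≫ (ρ_ (X⟦a⟧)).hom := by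
  have h3 : (shiftFunctorZero T ℤ).inv.app ((X⟦a⟧) ⊗ 𝟙_ T) ≫ ((ρ_ (X⟦a⟧)).hom)⟦(0 : ℤ)⟧' =
      (ρ_ (X⟦a⟧)).hom ≫ (shiftFunctorZero T ℤ).inv.app (X⟦a⟧) :=
    ((shiftFunctorZero T ℤ).inv.naturality _).symm
  rw [nu, tensorSph_hom, csh_zero, shiftFunctorAdd'_add_zero_inv_app]
  simp only [Category.assoc]
  rw [reassoc_of% h3, Iso.inv_hom_id_app]
  exact congrArg _ (Category.comp_id _)

variable [HasCoproducts.{0} T]

lemma prodSph_hom {w v w' t k t' : ℤ} (α : (stdEven T).S w ≅ (𝟙_ T)⟦t⟧)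
    (β : (stdEven T).S v ≅ (𝟙_ T)⟦k⟧) (hw : w + v = w') (ht : t + k = t') :
    (prodSph α β hw ht).hom =
      ((stdEven T).mu w v w' hw).inv ≫ (α.hom ⊗ₘ β.hom) ≫ nu (𝟙_ T) t k t' ht := by
  simp only [prodSph, Iso.trans_hom, Iso.symm_hom, Iso.app_inv, tensorIso_hom, nu]

lemma prodSph_assoc {a b c ab bc d s t u st tu r : ℤ} (α : (stdEven T).S a ≅ (𝟙_ T)⟦s⟧)
    (β : (stdEven T).S b ≅ (𝟙_ T)⟦t⟧) (γ : (stdEven T).S c ≅ (𝟙_ T)⟦u⟧)
    (h1 : a + b = ab) (h2 : b + c = bc) (h3 : ab + c = d) (h4 : a + bc = d)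
    (k1 : s + t = st) (k2 : t + u = tu) (k3 : st + u = r) (k4 : s + tu = r) :
    prodSph (prodSph α β h1 k1) γ h3 k3 = prodSph α (prodSph β γ h2 k2) h4 k4 := by
  ext1
  have e := (stdEven T).mu_assoc a b c ab bc d h1 h3 h2 h4
  have e1 : ((stdEven T).mu ab c d h3).inv ≫ (((stdEven T).mu a b ab h1).inv ▷ (stdEven T).S c) =
      ((stdEven T).mu a bc d h4).inv ≫ ((stdEven T).S a ◁ ((stdEven T).mu b c bc h2).inv) ≫
        (α_ _ _ _).inv := by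
    rw [← cancel_mono (((stdEven T).mu a b ab h1).hom ▷ (stdEven T).S c),
      ← cancel_mono ((stdEven T).mu ab c d h3).hom]
    simp only [Category.assoc]
    rw [← comp_whiskerRight_assoc, Iso.inv_hom_id, id_whiskerRight, Category.id_comp,
      Iso.inv_hom_id, e, Iso.inv_hom_id_assoc, ← MonoidalCategory.whiskerLeft_comp_assoc,
      Iso.inv_hom_id, MonoidalCategory.whiskerLeft_id, Category.id_comp, Iso.inv_hom_id]
  have e2 : ((((stdEven T).mu a b ab h1).inv ≫ (α.hom ⊗ₘ β.hom) ≫ nu (𝟙_ T) s t st k1) ⊗ₘ γ.hom) =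
      (((stdEven T).mu a b ab h1).inv ▷ (stdEven T).S c) ≫ ((α.hom ⊗ₘ β.hom) ⊗ₘ γ.hom) ≫
        (nu (𝟙_ T) s t st k1 ▷ ((𝟙_ T)⟦u⟧)) := by
    rw [← tensorHom_id, ← tensorHom_id, tensorHom_comp_tensorHom, tensorHom_comp_tensorHom,
      Category.id_comp, Category.comp_id]
  have e3 : (α.hom ⊗ₘ (((stdEven T).mu b c bc h2).inv ≫ (β.hom ⊗ₘ γ.hom) ≫
      nu (𝟙_ T) t u tu k2)) = ((stdEven T).S a ◁ ((stdEven T).mu b c bc h2).inv) ≫
        (α.hom ⊗ₘ (β.hom ⊗ₘ γ.hom)) ≫ (((𝟙_ T)⟦s⟧) ◁ nu (𝟙_ T) t u tu k2) := by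
    rw [← id_tensorHom, ← id_tensorHom, tensorHom_comp_tensorHom, tensorHom_comp_tensorHom,
      Category.id_comp, Category.comp_id]
  rw [prodSph_hom, prodSph_hom, prodSph_hom, prodSph_hom, e2, e3]
  simp only [Category.assoc]
  rw [reassoc_of% e1, nu_assoc (𝟙_ T) s t u st tu r k1 k2 k3 k4,
    associator_naturality_assoc, Iso.inv_hom_id_assoc]

/-- The unit. -/
noncomputable def sZero (T : Type u) [Category.{v} T] [Preadditive T] [HasZeroObject T]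
    [HasShift T ℤ] [∀ n : ℤ, (shiftFunctor T n).Additive] [Pretriangulated T]
    [MonoidalCategory T] [SymmetricCategory T] [TensorTriangulated T] :
    (stdEven T).S 0 ≅ (𝟙_ T)⟦(0 : ℤ)⟧ :=
  (stdEven T).zero.symm ≪≫ ((shiftFunctorZero T ℤ).app (𝟙_ T)).symm

lemma prodSph_zero {a s : ℤ} (α : (stdEven T).S a ≅ (𝟙_ T)⟦s⟧) (h : a + 0 = a) (k : s + 0 = s) :
    prodSph α (sZero T) h k = α := by
  ext1
  have e1 : (sZero T).hom ≫ (shiftFunctorZero T ℤ).hom.app (𝟙_ T) = 𝟙 (𝟙_ T) :=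
    (Category.assoc _ _ _).trans ((Category.id_comp _).trans
      ((shiftFunctorZero T ℤ).inv_hom_id_app (𝟙_ T)))
  have e2 : (((𝟙_ T)⟦s⟧) ◁ (sZero T).hom) ≫
      (((𝟙_ T)⟦s⟧) ◁ (shiftFunctorZero T ℤ).hom.app (𝟙_ T)) = 𝟙 (((𝟙_ T)⟦s⟧) ⊗ 𝟙_ T) :=
    (MonoidalCategory.whiskerLeft_comp _ _ _).symm.trans
      ((congrArg (fun f => ((𝟙_ T)⟦s⟧) ◁ f) e1).trans (MonoidalCategory.whiskerLeft_id _ _))
  rw [prodSph_hom, nu_zero, Iso.inv_comp_eq, (stdEven T).mu_zero, tensorHom_def,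
    Category.assoc]
  refine (congrArg _ ((reassoc_of% e2) _)).trans ?_
  exact (congrArg _ (Category.id_comp _)).trans (rightUnitor_naturality α.hom)

/-- Pairs of a weight and an identification. -/
def SG (T : Type u) [Category.{v} T] [Preadditive T] [HasZeroObject T]
    [HasShift T ℤ] [∀ n : ℤ, (shiftFunctor T n).Additive] [Pretriangulated T]
    [MonoidalCategory T] [SymmetricCategory T] [TensorTriangulated T] : Type v :=
  Σ w : ℤ, ((stdEven T).S w ≅ (𝟙_ T)⟦2 * w⟧)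

namespace SG

lemma mk_eq {a b c c' : ℤ} (h : a + b = c) (h' : a + b = c')
    (x : (stdEven T).S a ≅ (𝟙_ T)⟦2 * a⟧) (y : (stdEven T).S b ≅ (𝟙_ T)⟦2 * b⟧) :
    (⟨c, prodSph x y h (by rw [← h]; ring)⟩ : SG T) =
      ⟨c', prodSph x y h' (by rw [← h']; ring)⟩ := by
  subst h; subst h'; rfl

lemma exists_inv (x : SG T) : ∃ y : SG T,
    (⟨x.1 + y.1, prodSph x.2 y.2 rfl (by ring)⟩ : SG T) = ⟨0, sZero T⟩ := by
  obtain ⟨a, x⟩ := x
  obtain ⟨y, hy⟩ := Vale.Agent.P257.H545.exists_prodSph x (Vale.Agent.P251.B.sphE T (-a))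
    (add_neg_cancel a) (show 2 * a + 2 * (-a) = 2 * 0 by ring) (sZero T)
  refine ⟨⟨-a, y⟩, ?_⟩
  change (⟨a + -a, prodSph x y rfl _⟩ : SG T) = _
  rw [mk_eq rfl (add_neg_cancel a), hy]

noncomputable instance : Group (SG T) :=
  letI : Mul (SG T) := ⟨fun x y => ⟨x.1 + y.1, prodSph x.2 y.2 rfl (by ring)⟩⟩
  letI : One (SG T) := ⟨⟨0, sZero T⟩⟩
  letI : Inv (SG T) := ⟨fun x => (exists_inv x).choose⟩
  Group.ofRightAxioms
    (by
      rintro ⟨a, x⟩ ⟨b, y⟩ ⟨c, z⟩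
      change (⟨a + b + c, prodSph (prodSph x y rfl _) z rfl _⟩ : SG T) =
        ⟨a + (b + c), prodSph x (prodSph y z rfl _) rfl _⟩
      rw [prodSph_assoc x y z rfl rfl rfl (add_assoc a b c).symm _
        (show 2 * b + 2 * c = 2 * (b + c) by ring) _
        (show 2 * a + 2 * (b + c) = 2 * (a + b + c) by ring)]
      exact mk_eq _ _ _ _)
    (by
      rintro ⟨a, x⟩
      change (⟨a + 0, prodSph x (sZero T) rfl _⟩ : SG T) = ⟨a, x⟩
      rw [mk_eq rfl (add_zero a)]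
      exact congrArg (Sigma.mk a) (prodSph_zero x _ _))
    (fun x => (exists_inv x).choose_spec)

lemma mul_def (x y : SG T) :
    x * y = (⟨x.1 + y.1, prodSph x.2 y.2 rfl (by ring)⟩ : SG T) := rfl

/-- the degree -/
def deg : SG T →* Multiplicative ℤ where
  toFun x := Multiplicative.ofAdd x.1
  map_one' := rfl
  map_mul' _ _ := rfl

variable (T) in
/-- the generator -/
noncomputable def gen : SG T := ⟨1, Vale.Agent.P251.B.sphE T 1⟩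

lemma zpow_fst (n : ℤ) : ((gen T) ^ n).1 = n := by
  have h := map_zpow (deg (T := T)) (gen T) n
  have h2 : Multiplicative.toAdd (deg ((gen T) ^ n)) = n := by
    rw [h]
    change Multiplicative.toAdd ((Multiplicative.ofAdd (1 : ℤ)) ^ n) = n
    rw [toAdd_zpow]
    simp
  exact h2

end SG

variable (T) in
/-- The multiplicative family `S^{2w} ≅ 𝟙⟦2w⟧`. -/
noncomputable def sM (w : ℤ) : (stdEven T).S w ≅ (𝟙_ T)⟦2 * w⟧ :=
  (SG.zpow_fst (T := T) w) ▸ ((SG.gen T) ^ w).2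

lemma mk_sM (n : ℤ) : (⟨n, sM T n⟩ : SG T) = (SG.gen T) ^ n := by
  have : ∀ (m : SG T) (h : m.1 = n), (⟨n, h ▸ m.2⟩ : SG T) = m := by
    rintro ⟨a, x⟩ h
    cases h
    rfl
  exact this _ _

/-- Multiplicativity. -/
theorem prodSph_sM {w v u : ℤ} (h : w + v = u) (k : 2 * w + 2 * v = 2 * u) :
    prodSph (sM T w) (sM T v) h k = sM T u := by
  subst h
  have h1 := mk_sM (T := T) (w + v)
  rw [zpow_add, ← mk_sM, ← mk_sM] at h1
  exact (eq_of_heq (Sigma.mk.inj h1).2).symm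

end Vale.Agent.P236L
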