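import Vale.Agent.P236L.Ext

/-!
# P236, block LEIB: permutations of the factors of the tower act by signs

* `B_add`, `bc`: the identification `B c Y = B s (B a Y)` for `s + a = c`;
* `Coc z`: `z` is a cocycle of the `E₁`-term, `CbO X' z`: `z` is a coboundary;
* `swap`, `cbo_inB`, `cbo_xch`: the signs.
-/

open CategoryTheory MonoidalCategory Limits Pretriangulated MonObj Opposite

universe v u

set_option linter.unusedSectionVars false

namespace Vale.Agent.P236L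

open Vale.Agent.P251.T Vale.Agent.P251.S Vale.Agent.P257.H820 Vale.Agent.P257.H712

variable {T : Type u} [Category.{v} T] [Preadditive T] [HasZeroObject T] [HasShift T ℤ]
  [∀ n : ℤ, (shiftFunctor T n).Additive] [Pretriangulated T] [MonoidalCategory T]
  [SymmetricCategory T] [TensorTriangulated T]

variable {R : T} [MonObj R] (U : UnitCof R)

/-! ### Identifications -/

lemma B_add {s a c : ℕ} (h : s + a = c) (Y : T) :
    U.cobar.B c Y = U.cobar.B s (U.cobar.B a Y) := by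
  subst h
  induction a generalizing Y with
  | zero => rfl
  | succ a ih => exact ih (U.J ⊗ Y)

lemma J_B (a : ℕ) (Y : T) : U.J ⊗ U.cobar.B a Y = U.cobar.B a (U.J ⊗ Y) :=
  (B_add U (Nat.add_comm 1 a) Y).symm

lemma B_comm (a s : ℕ) (Y : T) :
    U.cobar.B a (U.cobar.B s Y) = U.cobar.B s (U.cobar.B a Y) :=
  (B_add U rfl Y).symm.trans (B_add U (Nat.add_comm s a) Y)

lemma Bm_eqToHom (s : ℕ) {X Y : T} (e : X = Y) :
    U.cobar.Bm s (eqToHom e) = eqToHom (congrArg (U.cobar.B s) e) := by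
  subst e
  exact U.cobar.Bm_id s X

/-- The identification `B c Y = B s (B a Y)`. -/
def bc {s a c : ℕ} (h : s + a = c) (Y : T) :
    U.cobar.B c Y ⟶ U.cobar.B s (U.cobar.B a Y) := eqToHom (B_add U h Y)

@[reassoc]
lemma Bm_bc {s a c : ℕ} (h : s + a = c) {X Y : T} (f : X ⟶ Y) :
    U.cobar.Bm c f ≫ bc U h Y = bc U h X ≫ U.cobar.Bm s (U.cobar.Bm a f) := by
  subst h
  induction a generalizing X Y with
  | zero => exact (Category.comp_id _).trans (Category.id_comp _).symm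
  | succ a ih => exact ih (U.J ◁ f)

lemma k_eq (s : ℕ) (Y : T) :
    U.cobar.k s Y = (U.ρ ▷ U.cobar.B s Y) ≫ eqToHom (J_B U s Y) := by
  induction s generalizing Y with
  | zero => exact (Category.comp_id _).symm
  | succ s ih => exact ih (U.J ⊗ Y)

/-! ### Cocycles and coboundaries -/

/-- Cocycles of the `E₁`-term. -/
def Coc {P X : T} (z : P ⟶ R ⊗ X) : Prop := z ≫ (U.ρ ▷ X) ≫ unitMap R (U.J ⊗ X) = 0

/-- Coboundaries of the `E₁`-term. -/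
def CbO (X' : T) {P X : T} (z : P ⟶ R ⊗ X) : Prop :=
  ∃ (e : U.J ⊗ X' = X) (w : P ⟶ R ⊗ X'), z = w ≫ (U.ρ ▷ X') ≫ eqToHom e ≫ unitMap R X

variable {U}

lemma Coc.nat {P X Y : T} {z : P ⟶ R ⊗ X} (H : Coc U z) (f : X ⟶ Y) : Coc U (z ≫ (R ◁ f)) := by
  unfold Coc at H ⊢
  rw [Category.assoc, whisker_exchange_assoc, unitMap_nat, reassoc_of% H, zero_comp]

lemma coc_of_prim {P X : T} {z : P ⟶ R ⊗ X}
    (H : z ≫ unitMap R (R ⊗ X) = z ≫ (R ◁ unitMap R X)) : Coc U z := by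
  unfold Coc
  rw [unitMap_nat, reassoc_of% H, ← MonoidalCategory.whiskerLeft_comp, U.unitMap_ρ]
  simp

lemma Coc.prim {P X : T} {z : P ⟶ R ⊗ X} (H : Coc U z) :
    z ≫ unitMap R (R ⊗ X) = z ≫ (R ◁ unitMap R X) := by
  obtain ⟨σ, -, h2⟩ := U.cobar.split X
  change (R ◁ (U.ρ ▷ X)) ≫ σ = 𝟙 (R ⊗ R ⊗ X) - mulMap R X ≫ (R ◁ unitMap R X) at h2
  unfold Coc at H
  rw [unitMap_nat] at H
  have h3 := congrArg (fun x => z ≫ unitMap R (R ⊗ X) ≫ x) h2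
  simp only [Preadditive.comp_sub, Category.comp_id, unitMap_mulMap_assoc] at h3
  rw [reassoc_of% H, zero_comp] at h3
  exact (sub_eq_zero.1 h3.symm)

lemma Coc.D {P Y : T} {s : ℕ} {z : P ⟶ R ⊗ U.cobar.B s Y} (H : Coc U z) :
    z ≫ U.cobar.D s Y = 0 := by
  unfold Coc at H
  rw [CobarData.D, k_eq, Category.assoc]
  change z ≫ _ ≫ _ ≫ unitMap R _ = 0
  rw [unitMap_nat, reassoc_of% H, zero_comp]

lemma Lf.coc {P A : T} {r : ℕ} (hr : 1 ≤ r) {t t' : ℤ} {h : t + (r : ℤ) = t'}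
    {f : P⟦t⟧ ⟶ R ⊗ A} {c : P⟦t'⟧ ⟶ U.cobar.B (r + 1) A} (H : Lf U r h f c) : Coc U f := by
  obtain ⟨r, rfl⟩ : ∃ q, r = q + 1 := ⟨r - 1, by omega⟩
  have h' : t + 1 + (r : ℤ) = t' := by rw [← h]; push_cast; ring
  unfold Coc
  have h0 : U.bdry (U.J ⊗ A) ≫ (unitMap R (U.J ⊗ A))⟦(1 : ℤ)⟧' = 0 :=
    comp_distTriang_mor_zero₃₁ _ (U.triangle_distinguished (U.J ⊗ A))
  rw [← Category.assoc, ← H, pj_succ U r _ t t' h h', sh_symm_comp, Category.assoc, h0,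
    comp_zero, map_zero]

namespace CbO

variable {X' P X : T} {z z' : P ⟶ R ⊗ X}

lemma add (H : CbO U X' z) (H' : CbO U X' z') : CbO U X' (z + z') := by
  obtain ⟨e, w, rfl⟩ := H
  obtain ⟨e', w', rfl⟩ := H'
  exact ⟨e, w + w', (Preadditive.add_comp ..).symm⟩

lemma zsmul (H : CbO U X' z) (n : ℤ) : CbO U X' (n • z) := by
  obtain ⟨e, w, rfl⟩ := H
  exact ⟨e, n • w, (Preadditive.zsmul_comp ..).symm⟩

lemma neg (H : CbO U X' z) : CbO U X' (-z) := by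
  obtain ⟨e, w, rfl⟩ := H
  exact ⟨e, -w, (Preadditive.neg_comp ..).symm⟩

lemma sub (H : CbO U X' z) (H' : CbO U X' z') : CbO U X' (z - z') := by
  rw [sub_eq_add_neg]
  exact H.add H'.neg

lemma cast (H : CbO U X' z) {Y : T} (e : X = Y) : CbO U X' (z ≫ (R ◁ eqToHom e)) := by
  subst e
  rw [eqToHom_refl, MonoidalCategory.whiskerLeft_id, Category.comp_id]
  exact H

lemma obj (H : CbO U X' z) {X'' : T} (e : X' = X'') : CbO U X'' z := e ▸ H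

lemma congr (H : CbO U X' z) (e : z = z') : CbO U X' z' := e ▸ H

end CbO

lemma cbo_zero {X' P X : T} (e : U.J ⊗ X' = X) : CbO U X' (0 : P ⟶ R ⊗ X) :=
  ⟨e, 0, zero_comp.symm⟩

lemma cbo_D {P Y : T} (s : ℕ) (w : P ⟶ R ⊗ U.cobar.B s Y) :
    CbO U (U.cobar.B s Y) (w ≫ U.cobar.D s Y) := by
  refine ⟨J_B U s Y, w, ?_⟩
  rw [CobarData.D, k_eq, Category.assoc]

/-! ### The transposition -/

variable (U)

theorem swap0 {P Y : T} (s : ℕ) (z : P ⟶ R ⊗ U.cobar.B s (U.J ⊗ U.J ⊗ Y)) (H : Coc U z) :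
    CbO U (U.cobar.B s (U.J ⊗ Y)) (z ≫ (R ◁ U.cobar.Bm s (sw U.J U.J Y)) + z) := by
  obtain ⟨y, hy, hyq⟩ := U.cobar.exists_cocycle (F := preadditiveCoyoneda.obj (op P)) (s + 2) Y z
    (Coc.D (s := s + 2) H)
  change P ⟶ U.cobar.Q (s + 1) (R ⊗ R ⊗ Y) at y
  change y ≫ U.cobar.d (s + 3) Y = 0 at hy
  change y ≫ U.cobar.q (s + 2) Y = z at hyq
  let τ : R ⊗ R ⊗ R ⊗ Y ⟶ R ⊗ R ⊗ Y := (R ◁ sw R R Y) ≫ mulMap R (R ⊗ Y)
  let π : R ⊗ R ⊗ Y ⟶ U.J ⊗ U.J ⊗ Y := (R ◁ (U.ρ ▷ Y)) ≫ (U.ρ ▷ (U.J ⊗ Y))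
  have hq : U.cobar.q (s + 2) Y =
      U.cobar.Qm (s + 1) π ≫ U.cobar.q s (U.J ⊗ U.J ⊗ Y) := by
    rw [CobarData.Qm_comp, Category.assoc]
    rfl
  have hd : U.cobar.d (s + 3) Y = U.cobar.d s (R ⊗ R ⊗ R ⊗ Y) +
      (-1 : ℤ) ^ (s + 1) • U.cobar.Qm (s + 1) (unitMap R (R ⊗ R ⊗ Y)) +
      (-1 : ℤ) ^ (s + 1 + 1) • U.cobar.Qm (s + 1) (R ◁ unitMap R (R ⊗ Y)) +
      (-1 : ℤ) ^ (s + 2 + 1) • U.cobar.Qm (s + 1) (R ◁ (R ◁ unitMap R Y)) := rfl
  have t1 : unitMap R (R ⊗ R ⊗ Y) ≫ τ ≫ π = π ≫ sw U.J U.J Y := by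
    simp only [τ, π, Category.assoc]
    rw [← unitMap_nat_assoc, unitMap_mulMap_assoc, ← sw_nat_left_assoc, ← sw_nat_mid,
      whisker_exchange_assoc]
  have t2 : (R ◁ unitMap R (R ⊗ Y)) ≫ τ ≫ π = 0 := by
    simp only [τ, π, Category.assoc]
    rw [← MonoidalCategory.whiskerLeft_comp_assoc, unitMap_sw, mulMap_nat_assoc,
      ← MonoidalCategory.whiskerLeft_comp_assoc, U.unitMap_ρ]
    simp
  have t3 : (R ◁ (R ◁ unitMap R Y)) ≫ τ ≫ π = π := by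
    simp only [τ, Category.assoc]
    rw [← MonoidalCategory.whiskerLeft_comp_assoc, whisker_unitMap_sw,
      whiskerLeft_unitMap_mulMap_assoc]
  have t0 : U.cobar.d s (R ⊗ R ⊗ R ⊗ Y) ≫ U.cobar.Qm (s + 1) (τ ≫ π) ≫
      U.cobar.q s (U.J ⊗ U.J ⊗ Y) =
      (U.cobar.Qm s (τ ≫ (R ◁ (U.ρ ▷ Y))) ≫ U.cobar.q s (U.J ⊗ Y)) ≫
        U.cobar.D s (U.J ⊗ Y) := by
    have e1 := U.cobar.d_Qρ s (U.J ⊗ Y)
    have e2 := U.cobar.d_q s (U.J ⊗ Y)
    rw [CobarData.q_succ, reassoc_of% e1] at e2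
    have e3 : τ ≫ π = (τ ≫ (R ◁ (U.ρ ▷ Y))) ≫ (U.ρ ▷ (U.J ⊗ Y)) := by
      simp only [π, Category.assoc]
    rw [← CobarData.d_naturality_assoc, e3, CobarData.Qm_comp, Category.assoc]
    exact (congrArg _ e2).trans (Category.assoc _ _ _).symm
  have u1 : y ≫ U.cobar.Qm (s + 1) π ≫ U.cobar.q s (U.J ⊗ U.J ⊗ Y) = z := by
    rw [← hq, hyq]
  have u2 : y ≫ U.cobar.Qm (s + 1) (π ≫ sw U.J U.J Y) ≫ U.cobar.q s (U.J ⊗ U.J ⊗ Y) =
      z ≫ (R ◁ U.cobar.Bm s (sw U.J U.J Y)) := by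
    rw [CobarData.Qm_comp, Category.assoc, CobarData.q_naturality, reassoc_of% u1]
  have h1 : (y ≫ U.cobar.d (s + 3) Y) ≫ U.cobar.Qm (s + 1) (τ ≫ π) ≫
    U.cobar.q s (U.J ⊗ U.J ⊗ Y) = 0 := by rw [hy, zero_comp]
  rw [hd, Category.assoc, Preadditive.add_comp, Preadditive.add_comp, Preadditive.add_comp,
    Preadditive.zsmul_comp, Preadditive.zsmul_comp, Preadditive.zsmul_comp, t0,
    ← CobarData.Qm_comp_assoc, ← CobarData.Qm_comp_assoc, ← CobarData.Qm_comp_assoc, t1, t2, t3,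
    CobarData.Qm_zero', zero_comp, smul_zero, add_zero, Preadditive.comp_add,
    Preadditive.comp_add, Preadditive.comp_zsmul, Preadditive.comp_zsmul, u1, u2,
    ← Category.assoc] at h1
  refine ((cbo_D s (y ≫ U.cobar.Qm s (τ ≫ (R ◁ (U.ρ ▷ Y))) ≫
    U.cobar.q s (U.J ⊗ Y))).zsmul ((-1) ^ s)).congr ?_
  rw [add_assoc, add_eq_zero_iff_eq_neg] at h1
  refine (congrArg (fun x => (-1 : ℤ) ^ s • x) h1).trans ?_
  have p1 : (-1 : ℤ) ^ (s + 2 + 1) = (-1) ^ (s + 1) := by ring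
  have p2 : (-1 : ℤ) ^ s * -(-1) ^ (s + 1) = 1 := by
    rw [pow_succ, mul_neg_one, neg_neg, ← mul_pow]; simp
  rw [p1, ← smul_add, ← neg_smul, smul_smul, p2, one_smul]

theorem swap {P Y : T} (a s : ℕ)
    (z : P ⟶ R ⊗ U.cobar.B a (U.cobar.B s (U.J ⊗ U.J ⊗ Y))) (H : Coc U z) :
    CbO U (U.cobar.B a (U.cobar.B s (U.J ⊗ Y)))
      (z ≫ (R ◁ U.cobar.Bm a (U.cobar.Bm s (sw U.J U.J Y))) + z) := by
  have e := B_add U (rfl : a + s = a + s) (U.J ⊗ U.J ⊗ Y)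
  have h0 : (z ≫ (R ◁ eqToHom e.symm)) ≫ (R ◁ eqToHom e) = z := by
    rw [Category.assoc, ← MonoidalCategory.whiskerLeft_comp, eqToHom_trans, eqToHom_refl,
      MonoidalCategory.whiskerLeft_id, Category.comp_id]
  refine (((swap0 U (a + s) _ (H.nat (eqToHom e.symm))).cast e).obj (B_add U rfl _)).congr ?_
  have h1 : U.cobar.Bm (a + s) (sw U.J U.J Y) ≫ eqToHom e =
      eqToHom e ≫ U.cobar.Bm a (U.cobar.Bm s (sw U.J U.J Y)) := Bm_bc U rfl _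
  rw [Preadditive.add_comp, h0, Category.assoc, ← MonoidalCategory.whiskerLeft_comp, h1,
    MonoidalCategory.whiskerLeft_comp, ← Category.assoc, h0]

theorem cbo_inB {P : T} (a s : ℕ) (A : T) (z : P ⟶ R ⊗ U.cobar.B a (U.J ⊗ U.cobar.B s A))
    (H : Coc U z) :
    CbO U (U.cobar.B a (U.cobar.B s A)) (z ≫ (R ◁ U.cobar.Bm a (inB U U.J s A)) -
      (-1 : ℤ) ^ s • z ≫ (R ◁ eqToHom (congrArg (U.cobar.B a) (J_B U s A)))) := by
  induction s generalizing A with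
  | zero =>
    refine (cbo_zero (J_B U a A)).congr ?_
    rw [inB_zero, CobarData.Bm_id, pow_zero, one_smul]
    exact (sub_self _).symm
  | succ s ih =>
    refine ((swap U a s _ (H.nat (U.cobar.Bm a (inB U U.J s (U.J ⊗ A))))).sub
      (ih (U.J ⊗ A) z H)).congr ?_
    rw [inB_succ, CobarData.Bm_comp, MonoidalCategory.whiskerLeft_comp, Category.assoc, pow_succ,
      mul_neg_one, neg_smul]
    abel

theorem cbo_xch {P : T} (a s : ℕ) (A : T)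
    (z : P ⟶ R ⊗ U.cobar.B a (U.cobar.B (s + 1) A)) (H : Coc U z) :
    CbO U (U.cobar.B s (U.cobar.B a A)) (z ≫ (R ◁ xch U a (s + 1) A) -
      (-1 : ℤ) ^ (a * (s + 1)) • z ≫ (R ◁ eqToHom (B_comm U a (s + 1) A))) := by
  induction a generalizing A with
  | zero =>
    refine (cbo_zero (J_B U s A)).congr ?_
    rw [xch_zero, Nat.zero_mul, pow_zero, one_smul]
    exact (sub_self _).symm
  | succ a ih =>
    have e : U.cobar.B a (U.cobar.B (s + 1) A) = U.cobar.B s (U.cobar.B (a + 1) A) :=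
      (B_add U rfl A).symm.trans (B_add U (by omega) A)
    refine ((ih (U.J ⊗ A) _ (H.nat (U.cobar.Bm a (inB U U.J (s + 1) A)))).add
      ((((cbo_inB U a (s + 1) A z H).cast (B_comm U a (s + 1) (U.J ⊗ A))).zsmul
        ((-1) ^ (a * (s + 1)))).obj e)).congr ?_
    rw [xch_succ, MonoidalCategory.whiskerLeft_comp, Preadditive.sub_comp, Preadditive.zsmul_comp,
      Category.assoc, Category.assoc z (R ◁ eqToHom _), ← MonoidalCategory.whiskerLeft_comp R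
      (eqToHom _), eqToHom_trans, smul_sub, smul_smul, ← pow_add,
      show (a + 1) * (s + 1) = a * (s + 1) + (s + 1) by ring]
    abel

end Vale.Agent.P236L
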