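import Vale.Agent.P236L.Cup
import Vale.Agent.P236L.Api

/-!
# P236, block LEIB: differentials in terms of maps

* `DifA`: differentials in the tower of `V`, in terms of the total collapse `pj`;
* `Xi D U i x : 𝟙⟦2 w⟧ ⟶ R ⊗ B s V`, the class of a cochain;
* `dif_iff : Dif D U i x y ↔ DifA (Xi x) (Xi y)`.
-/

open CategoryTheory MonoidalCategory Limits Pretriangulated MonObj

universe v u

set_option linter.unusedSectionVars false

namespace Vale.Agent.P236L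

open Vale.Agent.P251 Vale.Agent.P251.T Vale.Agent.P251.F Vale.Agent.P251.I
  Vale.Agent.P251.M Vale.Agent.P257.H712 Vale.Agent.P257.H820
open Vale.Agent.P251.S hiding IC

variable {T : Type u} [Category.{v} T] [Preadditive T] [HasZeroObject T] [HasShift T ℤ]
  [∀ n : ℤ, (shiftFunctor T n).Additive] [Pretriangulated T] [MonoidalCategory T]
  [SymmetricCategory T] [TensorTriangulated T]

section Tower

variable {R : T} [MonObj R] (U : UnitCof R)

lemma bd_eq (s : ℕ) (Y : T) :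
    U.bd s Y = eqToHom (J_B U s Y).symm ≫ U.bdry (U.cobar.B s Y) := by
  induction s generalizing Y with
  | zero => exact (Category.id_comp _).symm
  | succ s ih => exact ih (U.J ⊗ Y)

lemma pj_cast {P : T} (r : ℕ) {A A' : T} (e : A = A') (t t' : ℤ) (h : t + (r : ℤ) = t')
    (c : P⟦t'⟧ ⟶ U.cobar.B r A) :
    pj U P r A t t' h c ≫ eqToHom e =
      pj U P r A' t t' h (c ≫ eqToHom (congrArg (U.cobar.B r) e)) := by
  rw [← pj_nat, Bm_eqToHom]

/-- The identification of `D s n`. -/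
def tD (P Y : T) {s : ℕ} {n t : ℤ} (h : n + (s : ℤ) = t) :
    ((U.tow Y).couple P).D s n ≃+ (P⟦t⟧ ⟶ U.cobar.B s Y) := (U.tow Y).eD P h

/-- The identification of `E s n`. -/
def tE (P Y : T) {s : ℕ} {n t : ℤ} (h : n + (s : ℤ) = t) :
    ((U.tow Y).couple P).E s n ≃+ (P⟦t⟧ ⟶ R ⊗ U.cobar.B s Y) := (U.tow Y).eE P h

lemma tE_j {P Y : T} {s : ℕ} {n t : ℤ} (h : n + (s : ℤ) = t) (y : ((U.tow Y).couple P).D s n) :
    tE U P Y h (((U.tow Y).couple P).j s n y) = tD U P Y h y ≫ unitMap R _ :=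
  (U.tow Y).eE_j P h y

lemma tD_k {P Y : T} {s : ℕ} {n m t : ℤ} (h : n = m + 1) (h1 : n + (s : ℤ) = t)
    (h2 : m + ((s + 1 : ℕ) : ℤ) = t) (z : ((U.tow Y).couple P).E s n) :
    tD U P Y h2 (((U.tow Y).couple P).k s n m h z) = tE U P Y h1 z ≫ U.cobar.k s Y :=
  (U.tow Y).eD_k P h h1 h2 z

lemma tD_i {P Y : T} {s : ℕ} {n t t' : ℤ} (h : n + (s : ℤ) = t)
    (h' : n + ((s + 1 : ℕ) : ℤ) = t') (ht : t + 1 = t') (y : ((U.tow Y).couple P).D (s + 1) n) :
    sh t 1 t' ht (tD U P Y h (((U.tow Y).couple P).i s n y)) = tD U P Y h' y ≫ U.bd s Y :=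
  (U.tow Y).eD_i P h h' ht y

lemma tD_proj {P Y : T} (r : ℕ) {s c : ℕ} (hc : r + s = c) (hs : s ≤ c) {m t t' : ℤ}
    (h1 : m + (s : ℤ) = t) (h2 : m + (c : ℤ) = t') (h : t + (r : ℤ) = t')
    (y : ((U.tow Y).couple P).D c m) :
    tD U P Y h1 (((U.tow Y).couple P).proj m hs y) =
      pj U P r (U.cobar.B s Y) t t' h (tD U P Y h2 y ≫ bc U hc Y) := by
  induction r generalizing s t with
  | zero =>
    obtain rfl : s = c := by omega
    obtain rfl : t = t' := by omega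
    rw [Couple.proj_self]
    exact (Category.comp_id _).symm
  | succ r ih =>
    have hs' : s + 1 ≤ c := by omega
    have h1' : m + ((s + 1 : ℕ) : ℤ) = t + 1 := by push_cast; omega
    have h' : t + 1 + (r : ℤ) = t' := by rw [← h]; push_cast; ring
    rw [← Couple.i_proj _ m hs', pj_succ U r _ t t' h h', AddEquiv.eq_symm_apply,
      tD_i U h1 h1' rfl, ih (by omega) hs' h1' h', bd_eq, ← Category.assoc, pj_cast, bc, bc,
      Category.assoc, eqToHom_trans]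

/-- Differentials in the tower of `V`. -/
def DifA (r : ℕ) {P V : T} {a a' : ℕ} (h : r + 1 + a = a') {t t' : ℤ} (ht : t + (r : ℤ) = t')
    (x : P⟦t⟧ ⟶ R ⊗ U.cobar.B a V) (y : P⟦t'⟧ ⟶ R ⊗ U.cobar.B a' V) : Prop :=
  ∃ c : P⟦t'⟧ ⟶ U.cobar.B (r + 1) (U.cobar.B a V), Lf U r ht x c ∧
    c ≫ unitMap R _ = y ≫ (R ◁ bc U h V)

lemma proj_eq_k_iff (r : ℕ) {P V : T} {a a' : ℕ} (h : r + 1 + a = a') (hs : a + 1 ≤ a')
    {n m t t' : ℤ} (hn : n = m + 1) (h1 : n + (a : ℤ) = t) (h2 : m + (a' : ℤ) = t')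
    (ht : t + (r : ℤ) = t') (c : ((U.tow V).couple P).D a' m) (z : ((U.tow V).couple P).E a n) :
    ((U.tow V).couple P).proj m hs c = ((U.tow V).couple P).k a n m hn z ↔
      Lf U r ht (tE U P V h1 z) (tD U P V h2 c ≫ bc U h V) := by
  have h3 : m + ((a + 1 : ℕ) : ℤ) = t := by push_cast; omega
  have e3 : pj U P r (U.cobar.B (a + 1) V) t t' ht
      (tD U P V h2 c ≫ bc U (show r + (a + 1) = a' by omega) V) =
      pj U P r (U.J ⊗ U.cobar.B a V) t t' ht (tD U P V h2 c ≫ bc U h V) ≫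
        eqToHom (J_B U a V) := by
    rw [pj_cast, bc, bc, Category.assoc, eqToHom_trans]
  rw [← (tD U P V h3).injective.eq_iff, tD_proj U r (by omega) hs h3 h2 ht c, tD_k U hn h1 h3,
    e3, k_eq, ← Category.assoc, cancel_mono]
  rfl

instance isIso_bc {s a c : ℕ} (h : s + a = c) (Y : T) : IsIso (bc U h Y) := by
  unfold bc
  infer_instance

lemma difA_iff (r : ℕ) {P V : T} {a a' : ℕ} (h : r + 1 + a = a') (hs : a + 1 ≤ a')
    {n m t t' : ℤ} (hn : n = m + 1) (h1 : n + (a : ℤ) = t) (h2 : m + (a' : ℤ) = t')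
    (ht : t + (r : ℤ) = t') (x : ((U.tow V).couple P).E a n) (y : ((U.tow V).couple P).E a' m) :
    (∃ c : ((U.tow V).couple P).D a' m,
      ((U.tow V).couple P).proj m hs c = ((U.tow V).couple P).k a n m hn x ∧
        ((U.tow V).couple P).j a' m c = y) ↔
      DifA U r h ht (tE U P V h1 x) (tE U P V h2 y) := by
  have key : ∀ c : ((U.tow V).couple P).D a' m, ((U.tow V).couple P).j a' m c = y ↔
      (tD U P V h2 c ≫ bc U h V) ≫ unitMap R _ = tE U P V h2 y ≫ (R ◁ bc U h V) := by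
    intro c
    rw [Category.assoc, unitMap_nat, ← Category.assoc, ← tE_j, cancel_mono,
      (tE U P V h2).injective.eq_iff]
  constructor
  · rintro ⟨c, hc, hj⟩
    exact ⟨_, (proj_eq_k_iff U r h hs hn h1 h2 ht c x).1 hc, (key c).1 hj⟩
  · rintro ⟨c, hc, hj⟩
    obtain ⟨c', rfl⟩ : ∃ c' : ((U.tow V).couple P).D a' m, tD U P V h2 c' ≫ bc U h V = c :=
      ⟨(tD U P V h2).symm (c ≫ inv (bc U h V)), by
        rw [AddEquiv.apply_symm_apply, Category.assoc, IsIso.inv_hom_id, Category.comp_id]⟩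
    exact ⟨c', (proj_eq_k_iff U r h hs hn h1 h2 ht c' x).2 hc, (key c').2 hj⟩

end Tower

variable [HasCoproducts.{0} T] (D : MUData T) (U : UnitCof D.R) {V : T} (i : 𝟙_ T ⟶ V)

/-- The class of a cochain in the `E₁`-term of the tower of `V`. -/
noncomputable def Xi {s : ℕ} {w : ℤ} (x : Cob.wt Laz s w) :
    (𝟙_ T)⟦2 * w⟧ ⟶ D.R ⊗ U.cobar.B s V :=
  ch D U x ≫ U.cobar.Qm (s + 1) i ≫ U.cobar.q s V

lemma tE_fE_cls {s : ℕ} {w n : ℤ} (h : n + (s : ℤ) = 2 * w) (x : Cob.wt Laz s w) :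
    tE U (𝟙_ T) V h ((TV U V).fE (𝟙_ T) s n (cls D U i s w n h x)) = Xi D U i x := by
  have e : coch D U i s w x = ch D U x ≫ (redC i).app (U.cobar.Q (s + 1) (𝟙_ T)) :=
    (Category.assoc _ _ _).symm
  rw [cls_apply, e]
  exact eE_fE_qE_redC U i h _

lemma Xi_add {s : ℕ} {w : ℤ} (x y : Cob.wt Laz s w) :
    Xi D U i (x + y) = Xi D U i x + Xi D U i y := by
  rw [Xi, Xi, Xi, ch, ch, ch, map_add, Preadditive.comp_add, Preadditive.add_comp]

lemma Xi_zsmul {s : ℕ} {w : ℤ} (n : ℤ) (x : Cob.wt Laz s w) :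
    Xi D U i (n • x) = n • Xi D U i x := by
  rw [Xi, Xi, ch, ch, map_zsmul, Preadditive.comp_zsmul, Preadditive.zsmul_comp]

theorem dif_iff (r : ℕ) {a a' : ℕ} (h : r + 1 + a = a') {w w' : ℤ}
    (ht : 2 * w + (r : ℤ) = 2 * w') (x : Cob.wt Laz a w) (y : Cob.wt Laz a' w') :
    Dif D U i x y ↔ DifA U r h ht (Xi D U i x) (Xi D U i y) := by
  have hs : a + 1 ≤ a' := by omega
  have h1 : (2 * w - a) + (a : ℤ) = 2 * w := by ring
  have h2 : (2 * w - a - 1) + (a' : ℤ) = 2 * w' := by omega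
  have hn : 2 * w - a = (2 * w - a - 1) + 1 := by ring
  rw [← tE_fE_cls D U i h1, ← tE_fE_cls D U i h2, ← difA_iff U r h hs hn h1 h2 ht]
  constructor
  · intro H
    obtain ⟨c, hc, hj⟩ := H.elim hn h1 h2 hs
    refine ⟨(TV U V).fD (𝟙_ T) a' _ c, ?_, ?_⟩
    · rw [proj_fD, Tow.Mor.k_fE]
      exact congrArg _ hc
    · rw [Tow.Mor.j_fD]
      exact congrArg _ hj
  · rintro ⟨c, hc, hj⟩
    obtain ⟨c, rfl⟩ := (fD_bijective (TV U V) (𝟙_ T) a' _).2 c
    rw [proj_fD, Tow.Mor.k_fE] at hc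
    rw [Tow.Mor.j_fD] at hj
    exact ⟨_, _, hn, h1, h2, hs, c, (fD_bijective (TV U V) (𝟙_ T) _ _).1 hc,
      fE_injective (TV U V) (𝟙_ T) _ _ hj⟩

end Vale.Agent.P236L
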